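import Mathlib

/-! A Lipschitz function with almost everywhere zero derivative is constant. -/

namespace Vale.Agent.P084

set_option linter.unusedSectionVars false

open Filter Topology Set Metric MeasureTheory
open scoped NNReal

variable {E G : Type*} [NormedAddCommGroup E] [NormedSpace ℝ E] [FiniteDimensional ℝ E]
  [MeasurableSpace E] [BorelSpace E] [NormedAddCommGroup G] [NormedSpace ℝ G]
  [FiniteDimensional ℝ G] (μ : Measure E) [μ.IsAddHaarMeasure]

theorem hasFDerivAt_zero_of_ae {f : E → G} {z₀ : E} {r : ℝ} {K : ℝ≥0} (hr : 0 < r)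
    (hf : LipschitzOnWith K f (ball z₀ r))
    (hd : ∀ᵐ x ∂μ, x ∈ ball z₀ r → HasFDerivAt f (0 : E →L[ℝ] G) x) :
    HasFDerivAt f (0 : E →L[ℝ] G) z₀ := by
  have hmem : ∀ y ∈ ball z₀ (r / 2), ∀ h : E, ‖h‖ ≤ r / 4 → y + h ∈ ball z₀ r := by
    intro y hy h hh
    rw [mem_ball_iff_norm] at hy ⊢
    have : y + h - z₀ = (y - z₀) + h := by abel
    rw [this]
    linarith [norm_add_le (y - z₀) h]
  -- averages
  have hcont : ∀ ε, ε ≤ r / 4 → ∀ y ∈ ball z₀ (r / 2),
      ContinuousOn (fun h => f (y + h)) (closedBall (0 : E) ε) := fun ε hε y hy =>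
    hf.continuousOn.comp (continuous_const.add continuous_id).continuousOn fun h hh =>
      hmem y hy h ((mem_closedBall_zero_iff.1 hh).trans hε)
  have hF : ∀ ε, 0 < ε → ε ≤ r / 4 → ∀ y ∈ ball z₀ (r / 2),
      HasFDerivAt (fun y => ∫ h in closedBall (0 : E) ε, f (y + h) ∂μ) (0 : E →L[ℝ] G) y := by
    intro ε hε hεr y hy
    haveI : IsFiniteMeasure (μ.restrict (closedBall (0 : E) ε)) :=
      isFiniteMeasure_restrict.2 measure_closedBall_lt_top.ne
    have hopen : ball z₀ (r / 2) ∈ 𝓝 y := isOpen_ball.mem_nhds hy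
    have hdiff : ∀ᵐ h ∂(μ.restrict (closedBall (0 : E) ε)),
        HasFDerivAt (fun y => f (y + h)) (0 : E →L[ℝ] G) y := by
      have h1 : ∀ᵐ h ∂μ, y + h ∈ ball z₀ r → HasFDerivAt f (0 : E →L[ℝ] G) (y + h) :=
        (quasiMeasurePreserving_add_left μ y).ae hd
      refine (ae_restrict_iff' measurableSet_closedBall).2 ?_
      filter_upwards [h1] with h hh hhε
      have := (hh (hmem y hy h ((mem_closedBall_zero_iff.1 hhε).trans hεr))).comp y
        ((hasFDerivAt_id y).add_const h)
      simpa [Function.comp_def] using this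
    have h := hasFDerivAt_integral_of_dominated_loc_of_lip
      (μ := μ.restrict (closedBall (0 : E) ε)) (F := fun y h => f (y + h))
      (F' := fun _ => (0 : E →L[ℝ] G)) (bound := fun _ => (K : ℝ)) hopen
      (by
        filter_upwards [hopen] with y' hy'
        exact (hcont ε hεr y' hy').aestronglyMeasurable_of_isCompact (isCompact_closedBall _ _)
          measurableSet_closedBall)
      ((hcont ε hεr y hy).integrableOn_compact (isCompact_closedBall _ _))
      aestronglyMeasurable_const
      (by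
        refine (ae_restrict_iff' measurableSet_closedBall).2 (Eventually.of_forall fun h hh => ?_)
        refine LipschitzOnWith.of_dist_le_mul fun p hp q hq => ?_
        have hh' := (mem_closedBall_zero_iff.1 hh).trans hεr
        have := hf.dist_le_mul _ (hmem p hp h hh') _ (hmem q hq h hh')
        simpa [Real.coe_nnabs, dist_add_right] using this)
      (integrable_const _) hdiff
    simpa using h.2
  have hconst : ∀ y ∈ ball z₀ (r / 2), f y = f z₀ := by
    intro y hy
    have hz₀ : z₀ ∈ ball z₀ (r / 2) := mem_ball_self (half_pos hr)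
    by_contra hne
    have hpos : 0 < ‖f y - f z₀‖ := norm_pos_iff.2 (sub_ne_zero.2 hne)
    set ε := min (r / 4) (‖f y - f z₀‖ / (4 * ((K : ℝ) + 1)))
    have hε : 0 < ε := lt_min (by linarith) (by positivity)
    have hεr : ε ≤ r / 4 := min_le_left _ _
    have heq : ∫ h in closedBall (0 : E) ε, f (y + h) ∂μ
        = ∫ h in closedBall (0 : E) ε, f (z₀ + h) ∂μ := by
      have := (convex_ball z₀ (r / 2)).norm_image_sub_le_of_norm_hasFDerivWithin_le
        (f := fun y => ∫ h in closedBall (0 : E) ε, f (y + h) ∂μ) (f' := fun _ => 0) (C := 0)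
        (fun p hp => (hF ε hε hεr p hp).hasFDerivWithinAt) (fun p _ => by simp) hz₀ hy
      simpa [sub_eq_zero] using this
    have hclose : ∀ p ∈ ball z₀ (r / 2),
        ‖∫ h in closedBall (0 : E) ε, (f (p + h) - f p) ∂μ‖
          ≤ K * ε * μ.real (closedBall (0 : E) ε) := by
      intro p hp
      refine norm_setIntegral_le_of_norm_le_const measure_closedBall_lt_top fun h hh => ?_
      have hh' := mem_closedBall_zero_iff.1 hh
      have := hf.norm_sub_le (hmem p hp h (hh'.trans hεr))
        (ball_subset_ball (by linarith) hp : p ∈ ball z₀ r)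
      rw [add_sub_cancel_left] at this
      exact this.trans (mul_le_mul_of_nonneg_left hh' K.coe_nonneg)
    have hsub : ∀ p ∈ ball z₀ (r / 2), ∫ h in closedBall (0 : E) ε, (f (p + h) - f p) ∂μ
        = (∫ h in closedBall (0 : E) ε, f (p + h) ∂μ) - μ.real (closedBall (0 : E) ε) • f p := by
      intro p hp
      rw [integral_sub ((hcont ε hεr p hp).integrableOn_compact (isCompact_closedBall _ _))
        (integrableOn_const measure_closedBall_lt_top.ne), setIntegral_const]
    have h1 := hclose y hy
    have h2 := hclose z₀ hz₀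
    rw [hsub y hy, heq] at h1
    rw [hsub z₀ hz₀] at h2
    set V := μ.real (closedBall (0 : E) ε)
    have hV : 0 < V :=
      ENNReal.toReal_pos (measure_closedBall_pos μ 0 hε).ne' measure_closedBall_lt_top.ne
    have h3 := norm_sub_le ((∫ h in closedBall (0 : E) ε, f (z₀ + h) ∂μ) - V • f z₀)
      ((∫ h in closedBall (0 : E) ε, f (z₀ + h) ∂μ) - V • f y)
    rw [show (∫ h in closedBall (0 : E) ε, f (z₀ + h) ∂μ) - V • f z₀
        - ((∫ h in closedBall (0 : E) ε, f (z₀ + h) ∂μ) - V • f y) = V • (f y - f z₀) by module,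
      norm_smul, Real.norm_of_nonneg hV.le] at h3
    have h4 : ε * (4 * ((K : ℝ) + 1)) ≤ ‖f y - f z₀‖ := by
      have : ε ≤ _ := min_le_right _ _
      rwa [le_div_iff₀ (by positivity)] at this
    have h5 : V * ‖f y - f z₀‖ ≤ 2 * (K * ε) * V := by linarith
    nlinarith [mul_pos hV hε, mul_le_mul_of_nonneg_left h4 hV.le, mul_pos hV hpos]
  exact (hasFDerivAt_const (f z₀) z₀).congr_of_eventuallyEq
    (Filter.eventuallyEq_of_mem (ball_mem_nhds z₀ (half_pos hr)) hconst)

end Vale.Agent.P084
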