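import Mathlib

/-! A rigidity lemma: a symmetric cubic form whose operators `B u` send the gradient field of a
strictly convex norm to multiples of `u` is zero. -/

namespace Vale.Agent.P084

set_option linter.unusedSectionVars false

open scoped InnerProductSpace
open Filter Topology

variable {V : Type*} [NormedAddCommGroup V] [InnerProductSpace ℝ V] [FiniteDimensional ℝ V]

/-- A linear map vanishing on the kernel of another is bounded by it. -/
theorem exists_bound_of_ker_le {X Y Z : Type*} [NormedAddCommGroup X] [NormedSpace ℝ X]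
    [FiniteDimensional ℝ X] [NormedAddCommGroup Y] [NormedSpace ℝ Y] [FiniteDimensional ℝ Y]
    [NormedAddCommGroup Z] [NormedSpace ℝ Z]
    (Φ : X →ₗ[ℝ] Y) (L : X →ₗ[ℝ] Z) (h : ∀ x, Φ x = 0 → L x = 0) :
    ∃ C : ℝ, 0 ≤ C ∧ ∀ x, ‖L x‖ ≤ C * ‖Φ x‖ := by
  obtain ⟨R, hR⟩ := Φ.rangeRestrict.exists_rightInverse_of_surjective Φ.range_rangeRestrict
  refine ⟨‖LinearMap.toContinuousLinearMap (L ∘ₗ R)‖, ?_, fun x => ?_⟩
  · exact ContinuousLinearMap.opNorm_nonneg _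
  have h1 : Φ.rangeRestrict (R (Φ.rangeRestrict x)) = Φ.rangeRestrict x :=
    LinearMap.congr_fun hR _
  have h2 : L (x - R (Φ.rangeRestrict x)) = 0 := by
    apply h
    have h3 := congrArg Subtype.val h1
    simp only [LinearMap.codRestrict_apply, LinearMap.rangeRestrict] at h3
    rw [map_sub, sub_eq_zero]
    exact h3.symm
  rw [map_sub, sub_eq_zero] at h2
  rw [h2]
  exact (LinearMap.toContinuousLinearMap (L ∘ₗ R)).le_opNorm (Φ.rangeRestrict x)

/-- Data: a symmetric trilinear form `⟪B x y, z⟫` and the gradient field `g` of a norm. -/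
structure CubicData (V : Type*) [NormedAddCommGroup V] [InnerProductSpace ℝ V] where
  B : V →L[ℝ] V →L[ℝ] V
  g : V → V
  G : V → V →L[ℝ] V
  hs : ∀ u v, B u v = B v u
  hB : ∀ u v w, ⟪B u v, w⟫_ℝ = ⟪B u w, v⟫_ℝ
  hg : ∀ u, u ≠ 0 → HasFDerivAt g (G u) u
  hGc : ContinuousOn G {0}ᶜ
  hGs : ∀ u, u ≠ 0 → ∀ x y, ⟪G u x, y⟫_ℝ = ⟪x, G u y⟫_ℝ
  hGp : ∀ u, u ≠ 0 → ∀ x, 0 ≤ ⟪G u x, x⟫_ℝ
  hpos : ∀ u, u ≠ 0 → 0 < ⟪g u, u⟫_ℝ
  hhom : ∀ u, u ≠ 0 → ∀ c : ℝ, 0 < c → g (c • u) = g u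
  hodd : ∀ u, g (-u) = -g u
  hinj : ∀ u w, u ≠ 0 → w ≠ 0 → ∀ τ : ℝ, 0 < τ → g u = τ • g w → ∃ c : ℝ, 0 < c ∧ u = c • w
  hsurj : ∀ γ, γ ≠ 0 → ∃ u, u ≠ 0 ∧ ∃ τ : ℝ, 0 < τ ∧ g u = τ • γ
  heq : ∀ u, u ≠ 0 → ∃ d : ℝ, B u (g u) = d • u

namespace CubicData

variable (D : CubicData V)

/-- The eigenvalue attached to a direction. -/
noncomputable def d (u : V) : ℝ := ⟪D.B u (D.g u), u⟫_ℝ / ⟪u, u⟫_ℝ

theorem eq_d {u : V} (hu : u ≠ 0) : D.B u (D.g u) = D.d u • u := by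
  obtain ⟨c, hc⟩ := D.heq u hu
  have h : ⟪u, u⟫_ℝ ≠ 0 := fun h => hu (inner_self_eq_zero.1 h)
  unfold d
  rw [hc, real_inner_smul_left, mul_div_assoc, div_self h, mul_one]

theorem inner_B_comm (x y z : V) : ⟪D.B x y, z⟫_ℝ = ⟪y, D.B x z⟫_ℝ := by
  rw [D.hB, real_inner_comm]

theorem G_self {u : V} (hu : u ≠ 0) : D.G u u = 0 := by
  have hp : HasDerivAt (fun s : ℝ => s • u) u 1 := by
    simpa using (hasDerivAt_id (1 : ℝ)).smul_const u
  have hcomp : HasDerivAt (fun s : ℝ => D.g (s • u)) (D.G u u) 1 :=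
    (D.hg u hu).comp_hasDerivAt_of_eq (1 : ℝ) hp (one_smul ℝ u).symm
  have hev : (fun s : ℝ => D.g (s • u)) =ᶠ[𝓝 1] fun _ => D.g u := by
    filter_upwards [lt_mem_nhds (one_pos (α := ℝ))] with s hs
    exact D.hhom u hu s hs
  exact hcomp.unique ((hasDerivAt_const (1 : ℝ) (D.g u)).congr_of_eventuallyEq hev)

theorem g_ne_zero {u : V} (hu : u ≠ 0) : D.g u ≠ 0 := by
  intro h
  have := D.hpos u hu
  rw [h, inner_zero_left] at this
  exact lt_irrefl _ this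

/-- First variation of the eigen relation. -/
theorem deriv_eq {u : V} (hu : u ≠ 0) :
    ∃ D' : V →L[ℝ] ℝ, ∀ δ, D.B δ (D.g u) + D.B u (D.G u δ) = D' δ • u + D.d u • δ := by
  have hBg : HasFDerivAt (fun v => D.B v (D.g v))
      ((D.B u).comp (D.G u) + D.B.flip (D.g u)) u :=
    D.B.hasFDerivAt.clm_apply (D.hg u hu)
  have hdd : DifferentiableAt ℝ D.d u := by
    have h1 : DifferentiableAt ℝ (fun v => ⟪D.B v (D.g v), v⟫_ℝ) u :=
      DifferentiableAt.inner ℝ hBg.differentiableAt differentiableAt_id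
    have h2 : DifferentiableAt ℝ (fun v : V => ⟪v, v⟫_ℝ) u :=
      DifferentiableAt.inner ℝ differentiableAt_id differentiableAt_id
    have h3 := h1.mul (h2.inv (show ⟪u, u⟫_ℝ ≠ 0 from fun h => hu (inner_self_eq_zero.1 h)))
    exact h3.congr_of_eventuallyEq (Eventually.of_forall fun v => by simp [d, div_eq_mul_inv])
  refine ⟨fderiv ℝ D.d u, fun δ => ?_⟩
  have hr := hdd.hasFDerivAt.smul (hasFDerivAt_id u)
  have hev : (fun v => D.B v (D.g v)) =ᶠ[𝓝 u] fun v => D.d v • v := by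
    filter_upwards [isOpen_ne.mem_nhds hu] with v hv
    exact D.eq_d hv
  have h := congrArg (fun L : V →L[ℝ] V => L δ) ((hBg.congr_of_eventuallyEq hev.symm).unique hr)
  simp only [ContinuousLinearMap.add_apply, ContinuousLinearMap.comp_apply,
    ContinuousLinearMap.flip_apply, ContinuousLinearMap.smul_apply,
    ContinuousLinearMap.smulRight_apply, id, ContinuousLinearMap.id_apply] at h
  rw [add_comm]
  rw [h]
  abel

theorem kernel_zero {u e : V} {σ : ℝ} (hu : u ≠ 0) (he : ⟪e, u⟫_ℝ = 0)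
    (h : D.B u e = σ • u) : σ = 0 := by
  have h1 : ⟪D.B u (D.g u), e⟫_ℝ = σ * ⟪u, D.g u⟫_ℝ := by
    rw [D.hB, h, real_inner_smul_left]
  rw [D.eq_d hu, real_inner_smul_left, (real_inner_comm e u).trans he, mul_zero,
    real_inner_comm (D.g u) u] at h1
  exact (mul_eq_zero.1 h1.symm).resolve_right (D.hpos u hu).ne'

/-- Continuity of the inverse Gauss map along sequences. -/
theorem dir_tendsto {u γ : V} (hu : ‖u‖ = 1) (hγ : γ ≠ 0) {τ : ℝ} (hτ : 0 < τ)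
    (hgu : D.g u = τ • γ) (γn : ℕ → V) (hγn : Tendsto γn atTop (𝓝 γ))
    (w : ℕ → V) (hw : ∀ n, ‖w n‖ = 1) (t : ℕ → ℝ) (ht : ∀ n, 0 < t n)
    (hgw : ∀ n, D.g (w n) = t n • γn n) : Tendsto w atTop (𝓝 u) := by
  refine tendsto_of_subseq_tendsto fun ns hns => ?_
  obtain ⟨z, hz, φ, hφ, hlim⟩ :=
    (isCompact_sphere (0 : V) 1).tendsto_subseq (x := fun n => w (ns n))
      (fun n => by simp [hw])
  refine ⟨φ, ?_⟩
  have hz1 : ‖z‖ = 1 := by simpa using hz
  have hz0 : z ≠ 0 := by intro h; simp [h] at hz1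
  have hg : Tendsto (fun n => D.g (w (ns (φ n)))) atTop (𝓝 (D.g z)) :=
    (D.hg z hz0).continuousAt.tendsto.comp hlim
  have hγ' : Tendsto (fun n => γn (ns (φ n))) atTop (𝓝 γ) :=
    hγn.comp (hns.comp hφ.tendsto_atTop)
  have htn : ∀ n, t n * ‖γn n‖ = ‖D.g (w n)‖ := fun n => by
    rw [hgw, norm_smul, Real.norm_of_nonneg (ht n).le]
  have hne : ‖γ‖ ≠ 0 := by simpa using hγ
  have hT : Tendsto (fun n => t (ns (φ n))) atTop (𝓝 (‖D.g z‖ / ‖γ‖)) := by
    refine (hg.norm.div hγ'.norm hne).congr' ?_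
    filter_upwards [hγ'.norm.eventually_ne hne] with n hn
    simp only [Pi.div_apply]
    rw [← htn, mul_div_assoc, div_self hn, mul_one]
  have hgz : D.g z = (‖D.g z‖ / ‖γ‖) • γ :=
    tendsto_nhds_unique hg ((hT.smul hγ').congr fun n => (hgw _).symm)
  have hs : 0 < ‖D.g z‖ / ‖γ‖ := div_pos (norm_pos_iff.2 (D.g_ne_zero hz0)) (norm_pos_iff.2 hγ)
  have hu0 : u ≠ 0 := by intro h; simp [h] at hu
  have hgz' : D.g z = (‖D.g z‖ / ‖γ‖ / τ) • D.g u := by
    rw [hgu, smul_smul, div_mul_cancel₀ _ hτ.ne']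
    exact hgz
  obtain ⟨c, hc, hcz⟩ := D.hinj z u hz0 hu0 _ (div_pos hs hτ) hgz'
  have : c = 1 := by
    rw [hcz, norm_smul, hu, mul_one, Real.norm_of_nonneg hc.le] at hz1
    exact hz1
  rw [this, one_smul] at hcz
  subst hcz
  exact hlim

theorem exists_dir {γ : V} (hγ : γ ≠ 0) :
    ∃ w : V, ‖w‖ = 1 ∧ ∃ t : ℝ, 0 < t ∧ D.g w = t • γ := by
  obtain ⟨u, hu, t, ht, h⟩ := D.hsurj γ hγ
  refine ⟨‖u‖⁻¹ • u, norm_smul_inv_norm hu, t, ht, ?_⟩
  rw [D.hhom u hu _ (inv_pos.2 (norm_pos_iff.2 hu)), h]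

theorem eigen_of_g {w γ : V} (hw : w ≠ 0) {t : ℝ} (ht : 0 < t) (h : D.g w = t • γ) :
    D.B γ w = (D.d w / t) • w := by
  have h1 : D.B w (D.g w) = t • D.B γ w := by rw [h, map_smul, D.hs]
  rw [D.eq_d hw] at h1
  rw [div_eq_inv_mul, mul_smul, h1, smul_smul, inv_mul_cancel₀ ht.ne', one_smul]

/-- Eigenvectors orthogonal to the selected one are killed. -/
theorem perp_eigen {u v γ : V} (hu : ‖u‖ = 1) (hγ : γ ≠ 0) {τ : ℝ} (hτ : 0 < τ)
    (hgu : D.g u = τ • γ) (hv : ⟪v, u⟫_ℝ = 0) (hBv : D.B γ v = (D.d u / τ) • v) :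
    D.B u v = 0 := by
  have hu0 : u ≠ 0 := by intro h; simp [h] at hu
  have hBu := D.eigen_of_g hu0 hτ hgu
  set μ := D.d u / τ
  have key : ∀ δ : V, ⟪D.B u v, δ⟫_ℝ = 0 := by
    intro δ
    set ε : ℕ → ℝ := fun n => ‖γ‖ / (‖δ‖ + 1) * (1 / ((n : ℝ) + 2)) with hε
    have hεpos : ∀ n, 0 < ε n := fun n => by
      have := norm_pos_iff.2 hγ
      simp only [hε]
      positivity
    have hεlim : Tendsto ε atTop (𝓝 0) := by
      have h := (tendsto_one_div_add_atTop_nhds_zero_nat (𝕜 := ℝ)).comp (tendsto_add_atTop_nat 1)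
      have h2 := h.const_mul (‖γ‖ / (‖δ‖ + 1))
      rw [mul_zero] at h2
      refine h2.congr fun n => ?_
      simp only [hε, Function.comp_apply, Nat.cast_add, Nat.cast_one]
      ring
    have hne : ∀ n, γ + ε n • δ ≠ 0 := fun n h => by
      have h1 : γ = -(ε n • δ) := eq_neg_of_add_eq_zero_left h
      have h2 : ‖γ‖ = ε n * ‖δ‖ := by
        rw [h1, norm_neg, norm_smul, Real.norm_of_nonneg (hεpos n).le]
      have h3 : ε n * ‖δ‖ < ‖γ‖ := by
        have hp := norm_pos_iff.2 hγ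
        have a1 : ‖γ‖ / (‖δ‖ + 1) * ‖δ‖ ≤ ‖γ‖ := by
          rw [div_mul_eq_mul_div, div_le_iff₀ (by positivity)]
          nlinarith [norm_nonneg δ]
        have a2 : 1 / ((n : ℝ) + 2) ≤ 1 / 2 := by
          apply one_div_le_one_div_of_le two_pos
          linarith [n.cast_nonneg (α := ℝ)]
        calc ε n * ‖δ‖ = (‖γ‖ / (‖δ‖ + 1) * ‖δ‖) * (1 / ((n : ℝ) + 2)) := by
              simp only [hε]; ring
          _ ≤ ‖γ‖ * (1 / 2) := mul_le_mul a1 a2 (by positivity) hp.le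
          _ < ‖γ‖ := by linarith
      linarith
    choose w hw t ht hgw using fun n => D.exists_dir (hne n)
    have hγn : Tendsto (fun n => γ + ε n • δ) atTop (𝓝 γ) := by
      simpa using tendsto_const_nhds.add (hεlim.smul_const δ)
    have hwlim := D.dir_tendsto hu hγ hτ hgu _ hγn w hw t ht hgw
    have hz : ∀ n, ⟪D.B δ (w n), v⟫_ℝ * ⟪w n, u⟫_ℝ = ⟪D.B δ (w n), u⟫_ℝ * ⟪w n, v⟫_ℝ := by
      intro n
      have hwn : w n ≠ 0 := by intro h; simpa [h] using hw n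
      have he := D.eigen_of_g hwn (ht n) (hgw n)
      set l := D.d (w n) / t n
      rw [map_add, map_smul, ContinuousLinearMap.add_apply, ContinuousLinearMap.smul_apply] at he
      have e1 := congrArg (fun x => ⟪x, v⟫_ℝ) he
      have e2 := congrArg (fun x => ⟪x, u⟫_ℝ) he
      simp only [inner_add_left, real_inner_smul_left] at e1 e2
      rw [D.inner_B_comm γ (w n) v, hBv, real_inner_smul_right] at e1
      rw [D.inner_B_comm γ (w n) u, hBu, real_inner_smul_right] at e2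
      have : ε n * (⟪D.B δ (w n), v⟫_ℝ * ⟪w n, u⟫_ℝ - ⟪D.B δ (w n), u⟫_ℝ * ⟪w n, v⟫_ℝ) = 0 := by
        linear_combination ⟪w n, u⟫_ℝ * e1 - ⟪w n, v⟫_ℝ * e2
      exact sub_eq_zero.1 ((mul_eq_zero.1 this).resolve_left (hεpos n).ne')
    have hB : Tendsto (fun n => D.B δ (w n)) atTop (𝓝 (D.B δ u)) :=
      (D.B δ).continuous.continuousAt.tendsto.comp hwlim
    have hlim := tendsto_nhds_unique
      (((hB.inner tendsto_const_nhds).mul (hwlim.inner tendsto_const_nhds)).congr hz)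
      ((hB.inner tendsto_const_nhds).mul (hwlim.inner tendsto_const_nhds))
    rw [real_inner_self_eq_norm_sq, hu, one_pow, mul_one, (real_inner_comm v u).trans hv,
      mul_zero] at hlim
    rw [D.hs u v, D.hB v u δ, D.hs v δ]
    rw [← hlim, D.hB δ v u]
  exact inner_self_eq_zero.1 (key _)

end CubicData

end Vale.Agent.P084
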