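import Vale.Agent.P084.CubicLemma

/-! The cubic form of `CubicData` vanishes in dimension at least two. -/

namespace Vale.Agent.P084

set_option linter.unusedSectionVars false

open scoped InnerProductSpace
open Filter Topology Set

variable {V : Type*} [NormedAddCommGroup V] [InnerProductSpace ℝ V] [FiniteDimensional ℝ V]

namespace CubicData

variable (D : CubicData V)

/-- At every unit maximiser of the cubic the operator is positive definite. -/
theorem exists_pos_point (hB : D.B ≠ 0) :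
    ∃ u : V, ‖u‖ = 1 ∧ ∀ v, v ≠ 0 → 0 < ⟪D.B u v, v⟫_ℝ := by
  obtain ⟨u0, hu0⟩ : ∃ u, ⟪D.B u u, u⟫_ℝ ≠ 0 := by
    by_contra! h
    apply hB
    ext x y
    refine ext_inner_right ℝ fun z => ?_
    simp only [zero_apply, inner_zero_left]
    have e1 := h (x + y + z)
    have e2 := h (x + y)
    have e3 := h (x + z)
    have e4 := h (y + z)
    simp only [map_add, add_apply, inner_add_left, inner_add_right] at e1 e2 e3 e4
    simp only [h, D.hs y x, D.hs z x, D.hs z y] at e1 e2 e3 e4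
    have p1 : ⟪D.B x z, y⟫_ℝ = ⟪D.B x y, z⟫_ℝ := D.hB x z y
    have p2 : ⟪D.B y z, x⟫_ℝ = ⟪D.B x y, z⟫_ℝ := by rw [D.hB, D.hs]
    linarith
  obtain ⟨u, hu, hmax⟩ := (isCompact_sphere (0 : V) 1).exists_isMaxOn
    ⟨‖u0‖⁻¹ • u0, by
      have : u0 ≠ 0 := fun h => hu0 (by simp [h])
      simpa using norm_smul_inv_norm (𝕜 := ℝ) this⟩
    (f := fun v => ⟪D.B v v, v⟫_ℝ) (by fun_prop)
  have hu1 : ‖u‖ = 1 := by simpa using hu
  have hu' : u ≠ 0 := by intro h; simp [h] at hu1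
  set lam := ⟪D.B u u, u⟫_ℝ with hlam
  have hb : ∀ v, ⟪D.B v v, v⟫_ℝ ≤ lam * ‖v‖ ^ 3 := by
    intro v
    rcases eq_or_ne v 0 with rfl | hv
    · simp
    have hn : 0 < ‖v‖ := norm_pos_iff.2 hv
    have h := hmax (show ‖v‖⁻¹ • v ∈ Metric.sphere (0 : V) 1 by
      simpa using norm_smul_inv_norm (𝕜 := ℝ) hv)
    simp only [mem_setOf_eq, map_smul, smul_apply, real_inner_smul_left,
      real_inner_smul_right] at h
    have h2 := mul_le_mul_of_nonneg_left h (pow_nonneg hn.le 3)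
    field_simp at h2
    linarith
  have hlpos : 0 < lam := by
    rcases lt_or_gt_of_ne hu0 with hneg | hpos
    · have h := hb (-u0)
      simp only [map_neg, neg_apply, neg_neg, inner_neg_right, norm_neg] at h
      have : 0 < lam * ‖u0‖ ^ 3 := by linarith
      exact (pos_iff_pos_of_mul_pos this).2 (pow_pos (norm_pos_iff.2 fun h => by simp [h] at hneg) 3)
    · have h := hb u0
      have : 0 < lam * ‖u0‖ ^ 3 := by linarith
      exact (pos_iff_pos_of_mul_pos this).2 (pow_pos (norm_pos_iff.2 fun h => by simp [h] at hpos) 3)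
  have huu : ⟪u, u⟫_ℝ = 1 := by rw [real_inner_self_eq_norm_sq, hu1, one_pow]
  have hexp : ∀ e, ⟪e, u⟫_ℝ = 0 → ∀ t : ℝ, |t| ≤ 1 →
      3 * t * ⟪D.B u u, e⟫_ℝ + 3 * t ^ 2 * ⟪D.B u e, e⟫_ℝ + t ^ 3 * ⟪D.B e e, e⟫_ℝ
        ≤ lam * (3 / 2 * t ^ 2 * ‖e‖ ^ 2 + t ^ 4 * ‖e‖ ^ 4) := by
    intro e he t _
    have h := hb (u + t • e)
    simp only [map_add, map_smul, add_apply, smul_apply, inner_add_left, inner_add_right,
      real_inner_smul_left, real_inner_smul_right, D.hs e u] at h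
    have p1 : ⟪D.B u e, u⟫_ℝ = ⟪D.B u u, e⟫_ℝ := D.hB u e u
    have p2 : ⟪D.B e e, u⟫_ℝ = ⟪D.B u e, e⟫_ℝ := by rw [D.hB, D.hs]
    rw [p1, p2] at h
    have hn2 : ‖u + t • e‖ ^ 2 = 1 + t ^ 2 * ‖e‖ ^ 2 := by
      rw [norm_add_sq_real, hu1, norm_smul, Real.norm_eq_abs, mul_pow, sq_abs,
        real_inner_smul_right, real_inner_comm e u, he]
      ring
    set x := t ^ 2 * ‖e‖ ^ 2 with hx
    have hx0 : 0 ≤ x := by positivity
    have hn : ‖u + t • e‖ ≤ 1 + x / 2 := by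
      nlinarith [norm_nonneg (u + t • e), sq_nonneg x, hn2]
    have h3 : ‖u + t • e‖ ^ 3 ≤ 1 + 3 / 2 * x + x ^ 2 := by
      have : ‖u + t • e‖ ^ 3 = ‖u + t • e‖ ^ 2 * ‖u + t • e‖ := by ring
      rw [this, hn2]
      nlinarith
    have hx2 : x ^ 2 = t ^ 4 * ‖e‖ ^ 4 := by rw [hx]; ring
    rw [hx2] at h3
    have := h.trans (mul_le_mul_of_nonneg_left h3 hlpos.le)
    rw [hx] at this
    linarith
  have hBu : D.B u u = lam • u := by
    set e := D.B u u - lam • u with he'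
    have he : ⟪e, u⟫_ℝ = 0 := by
      rw [he', inner_sub_left, real_inner_smul_left, huu, mul_one, sub_self]
    have hA : ⟪D.B u u, e⟫_ℝ = ‖e‖ ^ 2 := by
      have : D.B u u = e + lam • u := by rw [he']; abel
      rw [this, inner_add_left, real_inner_smul_left, real_inner_comm e u, he,
        real_inner_self_eq_norm_sq]
      ring
    by_contra hne
    have hepos : 0 < ‖e‖ := norm_pos_iff.2 (sub_ne_zero.2 hne)
    set K := |3 * ⟪D.B u e, e⟫_ℝ| + |⟪D.B e e, e⟫_ℝ| + lam * (3 / 2 * ‖e‖ ^ 2 + ‖e‖ ^ 4) + 1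
    have hK : 0 < K := by positivity
    set t := min 1 (3 * ‖e‖ ^ 2 / (2 * K))
    have ht0 : 0 < t := lt_min one_pos (by positivity)
    have ht1 : t ≤ 1 := min_le_left _ _
    have htK : 2 * K * t ≤ 3 * ‖e‖ ^ 2 := by
      have : t ≤ 3 * ‖e‖ ^ 2 / (2 * K) := min_le_right _ _
      rw [le_div_iff₀ (by positivity)] at this
      linarith
    have h := hexp e he t (by rw [abs_of_pos ht0]; exact ht1)
    rw [hA] at h
    have b1 := mul_le_mul_of_nonneg_left (neg_le_abs (3 * ⟪D.B u e, e⟫_ℝ)) (sq_nonneg t)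
    have b2 := mul_le_mul_of_nonneg_left (neg_le_abs (⟪D.B e e, e⟫_ℝ)) (pow_nonneg ht0.le 3)
    have b3 : t ^ 3 ≤ t ^ 2 := pow_le_pow_of_le_one ht0.le ht1 (by norm_num)
    have b4 : t ^ 4 ≤ t ^ 2 := pow_le_pow_of_le_one ht0.le ht1 (by norm_num)
    have b5 := mul_le_mul_of_nonneg_right b3 (abs_nonneg (⟪D.B e e, e⟫_ℝ))
    have b6 := mul_le_mul_of_nonneg_left b4 (mul_nonneg hlpos.le (pow_nonneg hepos.le 4))
    have hKt : t ^ 2 * K ≤ t * (3 * ‖e‖ ^ 2 / 2) := by nlinarith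
    have hKe : t ^ 2 * K = t ^ 2 * |3 * ⟪D.B u e, e⟫_ℝ| + t ^ 2 * |⟪D.B e e, e⟫_ℝ|
        + lam * (3 / 2 * t ^ 2 * ‖e‖ ^ 2) + lam * ‖e‖ ^ 4 * t ^ 2 + t ^ 2 := by
      simp only [K]; ring
    nlinarith [mul_pos ht0 (pow_pos hepos 2), pow_pos ht0 2]
  have htop : ∀ v, ⟪v, u⟫_ℝ = 0 → D.B u v = lam • v → v = 0 := by
    intro e he hBe
    by_contra hne
    have hepos : 0 < ‖e‖ := norm_pos_iff.2 hne
    set K := |⟪D.B e e, e⟫_ℝ| + lam * ‖e‖ ^ 4 + 1
    have hK : 0 < K := by positivity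
    set t := min 1 (lam * ‖e‖ ^ 2 / K)
    have ht0 : 0 < t := lt_min one_pos (by positivity)
    have ht1 : t ≤ 1 := min_le_left _ _
    have htK : K * t ≤ lam * ‖e‖ ^ 2 := by
      have : t ≤ lam * ‖e‖ ^ 2 / K := min_le_right _ _
      rw [le_div_iff₀ hK] at this
      linarith
    have h := hexp e he t (by rw [abs_of_pos ht0]; exact ht1)
    rw [hBu, real_inner_smul_left, real_inner_comm e u, he, hBe, real_inner_smul_left,
      real_inner_self_eq_norm_sq] at h
    have b2 := mul_le_mul_of_nonneg_left (neg_le_abs (⟪D.B e e, e⟫_ℝ)) (pow_nonneg ht0.le 3)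
    have b4 : t ^ 4 ≤ t ^ 3 := pow_le_pow_of_le_one ht0.le ht1 (by norm_num)
    have b6 := mul_le_mul_of_nonneg_left b4 (mul_nonneg hlpos.le (pow_nonneg hepos.le 4))
    have hKt : t ^ 3 * K ≤ t ^ 2 * (lam * ‖e‖ ^ 2) := by nlinarith [pow_pos ht0 2]
    nlinarith [mul_pos (pow_pos ht0 2) (mul_pos hlpos (pow_pos hepos 2))]
  obtain ⟨w, hw, τ, hτ, hgw⟩ := D.exists_dir hu'
  have hw0 : w ≠ 0 := by intro h; simp [h] at hw
  have hBw := D.eigen_of_g hw0 hτ hgw
  have hwu : 0 < ⟪w, u⟫_ℝ := by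
    have h := D.hpos w hw0
    rw [hgw, real_inner_smul_left, real_inner_comm w u] at h
    exact (pos_iff_pos_of_mul_pos h).1 hτ
  have hd : D.d w / τ = lam := by
    have h := congrArg (fun x => ⟪x, u⟫_ℝ) hBw
    simp only [real_inner_smul_left, D.inner_B_comm u w u, hBu, real_inner_smul_right] at h
    exact (mul_right_cancel₀ hwu.ne' h).symm
  rw [hd] at hBw
  have hv0 : w - ⟪w, u⟫_ℝ • u = 0 := htop _
    (by rw [inner_sub_left, real_inner_smul_left, huu, mul_one, sub_self])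
    (by rw [map_sub, map_smul, hBw, hBu, smul_sub, smul_comm])
  have hwu' : w = ⟪w, u⟫_ℝ • u := sub_eq_zero.1 hv0
  have hgu : D.g u = τ • u := by rw [← hgw, hwu', D.hhom u hu' _ hwu]
  have hdu : D.d u = τ * lam := by
    unfold d
    rw [hgu, map_smul, hBu, real_inner_smul_left, real_inner_smul_left, huu]
    simp
  obtain ⟨D', hD'⟩ := D.deriv_eq hu'
  have hGu : ∀ x, ⟪D.G u x, u⟫_ℝ = 0 := fun x => by
    rw [D.hGs u hu', D.G_self hu', inner_zero_right]
  let A : V →ₗ[ℝ] V := τ • LinearMap.id + (D.G u).toLinearMap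
  have hA : ∀ x, A x = τ • x + D.G u x := fun _ => rfl
  have hAinj : Function.Injective A := by
    rw [injective_iff_map_eq_zero]
    intro x hx
    have h := congrArg (fun y => ⟪y, x⟫_ℝ) hx
    simp only [hA, inner_add_left, real_inner_smul_left, inner_zero_left] at h
    have h1 := D.hGp u hu' x
    have h2 : (0 : ℝ) ≤ ⟪x, x⟫_ℝ := real_inner_self_nonneg
    exact inner_self_eq_zero.1 (le_antisymm (by nlinarith) h2)
  have hperp : ∀ f, ⟪f, u⟫_ℝ = 0 → f ≠ 0 → 0 < ⟪D.B u f, f⟫_ℝ := by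
    intro f hf hf0
    obtain ⟨e, he⟩ := (LinearMap.injective_iff_surjective (f := A)).1 hAinj f
    rw [hA] at he
    have heu : ⟪e, u⟫_ℝ = 0 := by
      have h := congrArg (fun y => ⟪y, u⟫_ℝ) he
      simp only [inner_add_left, real_inner_smul_left, hGu, add_zero, hf] at h
      exact (mul_eq_zero.1 h).resolve_left hτ.ne'
    have hL : D.B u f = D' e • u + (τ * lam) • e := by
      rw [← he, map_add, map_smul, ← hdu, ← hD' e, hgu, map_smul, D.hs e u]
    rw [hL, inner_add_left, real_inner_smul_left, real_inner_smul_left, real_inner_comm f u, hf,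
      mul_zero, zero_add]
    refine mul_pos (mul_pos hτ hlpos) ?_
    have he0 : e ≠ 0 := by rintro rfl; exact hf0 (by rw [← he]; simp)
    rw [← he, inner_add_right, real_inner_smul_right, ← D.hGs u hu']
    have : (0 : ℝ) < ⟪e, e⟫_ℝ := real_inner_self_pos.2 he0
    nlinarith [D.hGp u hu' e]
  refine ⟨u, hu1, fun v hv => ?_⟩
  set f := v - ⟪v, u⟫_ℝ • u with hf
  have hfu : ⟪f, u⟫_ℝ = 0 := by
    rw [hf, inner_sub_left, real_inner_smul_left, huu, mul_one, sub_self]
  have hvf : v = f + ⟪v, u⟫_ℝ • u := by rw [hf]; abel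
  have hexp2 : ⟪D.B u v, v⟫_ℝ = ⟪D.B u f, f⟫_ℝ + lam * ⟪v, u⟫_ℝ ^ 2 := by
    conv_lhs => rw [hvf]
    simp only [map_add, map_smul, inner_add_left, inner_add_right, real_inner_smul_left,
      real_inner_smul_right]
    rw [D.inner_B_comm u f u, hBu]
    simp only [real_inner_smul_left, real_inner_smul_right, hfu, real_inner_comm f u, huu]
    ring
  rw [hexp2]
  by_cases hf0 : f = 0
  · have : ⟪v, u⟫_ℝ ≠ 0 := by
      intro h; exact hv (by rw [hvf, hf0, h]; simp)
    rw [hf0, map_zero, inner_zero_left, zero_add]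
    positivity
  · have := hperp f hfu hf0
    positivity

/-- Operators killed at a pair minimising `‖B v v‖` are also killed by the Hessian. -/
theorem minimiser_G_zero {v e : V} (hv : ‖v‖ = 1) (ha0 : D.B v v ≠ 0)
    (hmin : ∀ x, ‖x‖ = 1 → ⟪v, x⟫_ℝ = 0 → D.B v x = 0 → ‖D.B v v‖ ≤ ‖D.B x x‖)
    (hve : ⟪v, e⟫_ℝ = 0) (hBe : D.B v e = 0) : D.G v e = 0 := by
  have hv0 : v ≠ 0 := by intro h; simp [h] at hv
  have hvv : ⟪v, v⟫_ℝ = 1 := by rw [real_inner_self_eq_norm_sq, hv, one_pow]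
  let Ev : Submodule ℝ V :=
    LinearMap.ker (D.B v).toLinearMap ⊓ LinearMap.ker (innerSL ℝ v).toLinearMap
  have hEv : ∀ x, x ∈ Ev ↔ D.B v x = 0 ∧ ⟪v, x⟫_ℝ = 0 := fun x => by
    simp [Ev, LinearMap.mem_ker]
  obtain ⟨D', hD'⟩ := D.deriv_eq hv0
  have hGv : ∀ x, ⟪D.G v x, v⟫_ℝ = 0 := fun x => by
    rw [D.hGs v hv0, D.G_self hv0, inner_zero_right]
  have hD'eq : ∀ δ, D' δ = ⟪D.G v (D.B v v), δ⟫_ℝ := by
    intro δ
    have h := congrArg (fun y => ⟪y, v⟫_ℝ) (hD' δ)
    simp only [inner_add_left, real_inner_smul_left, hvv] at h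
    rw [D.hs δ, D.inner_B_comm (D.g v), D.hs (D.g v) v, D.eq_d hv0,
      real_inner_smul_right, D.inner_B_comm v (D.G v δ) v, D.hGs v hv0,
      real_inner_comm _ δ] at h
    linarith [real_inner_comm δ (D.G v (D.B v v))]
  have hLg : ∀ x ∈ Ev, D.B (D.g v) x = D.d v • x := by
    intro x hx
    obtain ⟨hx1, hx2⟩ := (hEv x).1 hx
    refine ext_inner_left ℝ fun δ => ?_
    have h := congrArg (fun y => ⟪y, x⟫_ℝ) (hD' δ)
    simp only [inner_add_left, real_inner_smul_left, hx2] at h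
    rw [D.hs δ, D.inner_B_comm (D.g v), D.inner_B_comm v, hx1, inner_zero_right,
      mul_zero, zero_add, add_zero] at h
    rw [real_inner_smul_right]
    exact h
  have hinv : ∀ x ∈ Ev, D.G v x ∈ Ev ∧ D' x = 0 := by
    intro x hx
    have h1 := hD' x
    rw [D.hs x, hLg x hx, add_comm (D' x • v)] at h1
    have h2 := add_left_cancel h1
    have h3 := D.kernel_zero hv0 (hGv x) h2
    refine ⟨(hEv _).2 ⟨by rw [h2, h3, zero_smul], ?_⟩, h3⟩
    rw [real_inner_comm]; exact hGv x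
  let T : Ev →ₗ[ℝ] Ev := ((D.G v).toLinearMap).restrict (fun x hx => (hinv x hx).1)
  have hT : T.IsSymmetric := fun x y => D.hGs v hv0 x y
  by_contra hne'
  have hTne : T ≠ 0 := by
    intro h
    apply hne'
    have := congrArg Subtype.val (LinearMap.congr_fun h ⟨e, (hEv e).2 ⟨hBe, hve⟩⟩)
    simpa [T] using this
  obtain ⟨i, hi⟩ : ∃ i, hT.eigenvalues rfl i ≠ 0 := by
    by_contra! h
    apply hTne
    refine (hT.eigenvectorBasis rfl).toBasis.ext fun i => ?_
    rw [OrthonormalBasis.coe_toBasis, hT.apply_eigenvectorBasis, h]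
    simp
  set α : ℝ := hT.eigenvalues rfl i
  set x : V := ↑(hT.eigenvectorBasis rfl i) with hx
  have hxE : x ∈ Ev := (hT.eigenvectorBasis rfl i).2
  have hxn : ‖x‖ = 1 := (hT.eigenvectorBasis rfl).norm_eq_one i
  have hGx : D.G v x = α • x := by
    exact congrArg Subtype.val (hT.apply_eigenvectorBasis rfl i)
  have hα : 0 < α := by
    have h := D.hGp v hv0 x
    rw [hGx, real_inner_smul_left, real_inner_self_eq_norm_sq, hxn] at h
    exact lt_of_le_of_ne (by linarith) hi.symm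
  obtain ⟨hx1, hx2⟩ := (hEv x).1 hxE
  have hxx : ⟪x, x⟫_ℝ = 1 := by rw [real_inner_self_eq_norm_sq, hxn, one_pow]
  have hid : ∀ k, ⟪D.G v (D.B x x), k⟫_ℝ + α * ⟪D.B x x, k⟫_ℝ
      = ⟪D.G v (D.B v v), k⟫_ℝ := by
    intro k
    set γ : ℝ → V := fun t => v + t • k
    have hγ : HasDerivAt γ k 0 := by
      simpa [γ] using ((hasDerivAt_id (0 : ℝ)).smul_const k).const_add v
    have hev : ∀ᶠ t in 𝓝 (0 : ℝ), γ t ≠ 0 :=
      hγ.continuousAt.eventually_ne (by simpa [γ] using hv0)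
    have vanish : ∀ (c : ℝ) (K : ℝ → ℝ), ContinuousAt K 0 →
        HasDerivAt (fun t => t * c * K t) (c * K 0) 0 := by
      intro c K hK
      rw [hasDerivAt_iff_tendsto_slope_zero]
      have h1 : Tendsto K (𝓝[≠] 0) (𝓝 (K 0)) := hK.tendsto.mono_left nhdsWithin_le_nhds
      refine (h1.const_mul c).congr' ?_
      filter_upwards [self_mem_nhdsWithin] with t (ht : t ≠ 0)
      simp only [zero_add, zero_mul, sub_zero, smul_eq_mul]
      field_simp
    have hgd : HasDerivAt (fun t => D.g (γ t)) (D.G v k) 0 :=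
      (D.hg v hv0).comp_hasDerivAt_of_eq (0 : ℝ) hγ (by simp [γ])
    have hGcont : ContinuousAt (fun t => D.G (γ t)) 0 := by
      refine ContinuousAt.comp ?_ hγ.continuousAt
      exact (D.hGc.continuousAt (isOpen_compl_singleton.mem_nhds (by simpa [γ] using hv0)))
    obtain hd0 : HasDerivAt (fun t => ⟪γ t, γ t⟫_ℝ) (⟪γ 0, k⟫_ℝ + ⟪k, γ 0⟫_ℝ) 0 :=
      hγ.inner ℝ hγ
    -- first bracket
    have hb1 : HasDerivAt (fun t => ⟪D.B x (D.g (γ t)), x⟫_ℝ) (⟪D.B x (D.G v k), x⟫_ℝ) 0 := by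
      have h1 := ((D.B x).hasFDerivAt).comp_hasDerivAt (0 : ℝ) hgd
      have h2 := h1.inner ℝ (hasDerivAt_const (0 : ℝ) x)
      simpa using h2
    have hb2 : HasDerivAt (fun t => t * 1 * ⟪D.B k x, D.G (γ t) x⟫_ℝ)
        (1 * ⟪D.B k x, D.G (γ 0) x⟫_ℝ) 0 :=
      vanish 1 _ (by fun_prop)
    have hnum : HasDerivAt (fun t => ⟪D.B (γ t) (D.g (γ t)), γ t⟫_ℝ)
        (⟪D.B v (D.g v), k⟫_ℝ + ⟪D.B k (D.g v) + D.B v (D.G v k), v⟫_ℝ) 0 := by
      have h1 : HasDerivAt (fun t => D.B (γ t)) (D.B k) 0 :=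
        D.B.hasFDerivAt.comp_hasDerivAt (0 : ℝ) hγ
      have h2 := (h1.clm_apply hgd).inner ℝ hγ
      simpa [γ] using h2
    have hddef : HasDerivAt (fun t => D.d (γ t)) (⟪D.G v (D.B v v), k⟫_ℝ) 0 := by
      have h2 := hnum.div hd0 (by simp [γ, hv0])
      refine (h2.congr_deriv ?_).congr_of_eventuallyEq (Eventually.of_forall fun t => rfl)
      simp only [γ, zero_smul, add_zero, hvv]
      rw [D.eq_d hv0, real_inner_smul_left, real_inner_smul_left, hvv, inner_add_left,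
        D.hs k, D.inner_B_comm (D.g v) k v, D.hs (D.g v) v, D.eq_d hv0, real_inner_smul_right,
        D.inner_B_comm v (D.G v k) v, D.hGs v hv0, real_inner_comm k (D.G v (D.B v v))]
      ring
    have hb3 : HasDerivAt (fun t => t * ⟪k, x⟫_ℝ *
        (⟪D.B x (D.g (γ t)), γ t⟫_ℝ + ⟪D.B (γ t) (γ t), D.G (γ t) x⟫_ℝ
          - D.d (γ t) * ⟪x, γ t⟫_ℝ))
        (⟪k, x⟫_ℝ * (⟪D.B x (D.g (γ 0)), γ 0⟫_ℝ + ⟪D.B (γ 0) (γ 0), D.G (γ 0) x⟫_ℝ
          - D.d (γ 0) * ⟪x, γ 0⟫_ℝ)) 0 := by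
      refine vanish _ _ ?_
      have := hgd.continuousAt
      have := hγ.continuousAt
      have := hddef.continuousAt
      fun_prop
    have htot := (hd0.mul ((hb1.add hb2).sub (hddef.mul_const 1))).sub hb3
    have hz : (fun t => ⟪γ t, γ t⟫_ℝ *
        (⟪D.B x (D.g (γ t)), x⟫_ℝ + t * 1 * ⟪D.B k x, D.G (γ t) x⟫_ℝ - D.d (γ t) * 1)
        - t * ⟪k, x⟫_ℝ * (⟪D.B x (D.g (γ t)), γ t⟫_ℝ + ⟪D.B (γ t) (γ t), D.G (γ t) x⟫_ℝ
          - D.d (γ t) * ⟪x, γ t⟫_ℝ)) =ᶠ[𝓝 0] fun _ => (0 : ℝ) := by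
      filter_upwards [hev] with t ht
      obtain ⟨F', hF'⟩ := D.deriv_eq ht
      have e1 := congrArg (fun y => ⟪y, x⟫_ℝ) (hF' x)
      have e2 := congrArg (fun y => ⟪y, γ t⟫_ℝ) (hF' x)
      have c1 : ⟪γ t, x⟫_ℝ = t * ⟪k, x⟫_ℝ := by
        simp [γ, inner_add_left, real_inner_smul_left, hx2]
      have c2 : ⟪D.B (γ t) (D.G (γ t) x), x⟫_ℝ = t * ⟪D.B k x, D.G (γ t) x⟫_ℝ := by
        rw [D.hB]
        simp [γ, inner_add_left, real_inner_smul_left, hx1]
      simp only [inner_add_left, real_inner_smul_left, hxx, c1, c2] at e1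
      simp only [inner_add_left, real_inner_smul_left, D.hB (γ t) (D.G (γ t) x)] at e2
      linear_combination ⟪γ t, γ t⟫_ℝ * e1 - t * ⟪k, x⟫_ℝ * e2
    have h0 := htot.unique ((hasDerivAt_const (0 : ℝ) (0 : ℝ)).congr_of_eventuallyEq hz)
    simp only [γ, zero_smul, add_zero, Pi.add_apply, Pi.sub_apply, Pi.mul_apply] at h0
    have q1 : ⟪D.B x (D.g v), x⟫_ℝ = D.d v := by
      rw [D.hs x, hLg x hxE, real_inner_smul_left, hxx, mul_one]
    have q2 : ⟪D.B x (D.G v k), x⟫_ℝ = ⟪D.G v (D.B x x), k⟫_ℝ := by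
      rw [D.hB, D.hGs v hv0]
    have q3 : ⟪D.B k x, D.G v x⟫_ℝ = α * ⟪D.B x x, k⟫_ℝ := by
      rw [hGx, real_inner_smul_right, D.hs k x, D.hB]
    have q4 : ⟪D.B x (D.g v), v⟫_ℝ + ⟪D.B v v, D.G v x⟫_ℝ - D.d v * ⟪x, v⟫_ℝ = 0 := by
      rw [D.hs x, hLg x hxE, ← D.hGs v hv0, ← hD'eq, (hinv x hxE).2, real_inner_smul_left]
      ring
    rw [q1, q2, q3, q4, hvv] at h0
    linarith
  have hb := hid (D.B x x)
  have hb' := hid (D.B x x - D.B v v)
  set b := D.B x x with hbdef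
  set av := D.B v v with havdef
  have hGsym : ⟪D.G v b, av⟫_ℝ = ⟪D.G v av, b⟫_ℝ := by
    rw [D.hGs v hv0, real_inner_comm]
  have hpp := D.hGp v hv0 (b - av)
  simp only [map_sub, inner_sub_left, inner_sub_right, real_inner_self_eq_norm_sq]
    at hb' hpp
  have hle : α * (‖b‖ ^ 2 - ⟪b, av⟫_ℝ) ≤ 0 := by linarith
  have hle' : ‖b‖ ^ 2 ≤ ⟪b, av⟫_ℝ :=
    le_of_sub_nonpos (nonpos_of_mul_nonpos_right hle hα |> fun h => h)
  have hbge : ‖av‖ ≤ ‖b‖ := hmin x hxn hx2 hx1
  have hn2 : ‖b - av‖ ^ 2 ≤ 0 := by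
    rw [norm_sub_sq_real]
    nlinarith [norm_nonneg av, norm_nonneg b]
  have hbeq : b = av := sub_eq_zero.1 (norm_eq_zero.1 (by nlinarith [norm_nonneg (b - av)]))
  have hb0 := hid b
  rw [hbeq, real_inner_self_eq_norm_sq] at hb0
  have : ‖av‖ ^ 2 = 0 := by nlinarith
  exact ha0 (norm_eq_zero.1 (pow_eq_zero_iff two_ne_zero |>.1 this))

/-- Moving the gradient along the kernel produces a partner with the same value. -/
theorem exists_partner {u e₀ : V} (hu : ‖u‖ = 1) (he₀ : ‖e₀‖ = 1) (he₀u : ⟪e₀, u⟫_ℝ = 0)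
    (he₀B : D.B u e₀ = 0) (hGe : ∀ e, ⟪u, e⟫_ℝ = 0 → D.B u e = 0 → D.G u e = 0) :
    ∃ v₀ : V, ‖v₀‖ = 1 ∧ ⟪u, v₀⟫_ℝ = 0 ∧ D.B u v₀ = 0 ∧ D.B v₀ v₀ = D.B u u := by
  have hu0 : u ≠ 0 := by intro h; simp [h] at hu
  have huu : ⟪u, u⟫_ℝ = 1 := by rw [real_inner_self_eq_norm_sq, hu, one_pow]
  set a := D.B u u with ha
  obtain ⟨D', hD'⟩ := D.deriv_eq hu0
  have hLg : D.B (D.g u) e₀ = D.d u • e₀ := by
    refine ext_inner_left ℝ fun δ => ?_
    have h := congrArg (fun y => ⟪y, e₀⟫_ℝ) (hD' δ)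
    simp only [inner_add_left, real_inner_smul_left, real_inner_comm e₀ u, he₀u] at h
    rw [D.hs δ, D.inner_B_comm (D.g u), D.inner_B_comm u, he₀B, inner_zero_right, mul_zero,
      zero_add, add_zero] at h
    rw [real_inner_smul_right]
    exact h
  set ε : ℕ → ℝ := fun n => 1 / ((n : ℝ) + 1) with hεdef
  have hε : ∀ n, 0 < ε n := fun n => by simp only [hεdef]; positivity
  have hεlim : Tendsto ε atTop (𝓝 0) := tendsto_one_div_add_atTop_nhds_zero_nat
  have hγne : ∀ n, D.g u + ε n • e₀ ≠ 0 := fun n h => by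
    have := congrArg (fun y => ⟪y, u⟫_ℝ) h
    simp only [inner_add_left, real_inner_smul_left, he₀u, mul_zero, add_zero,
      inner_zero_left] at this
    exact (D.hpos u hu0).ne' this
  choose w hw τ hτ hgw using fun n => D.exists_dir (hγne n)
  have hγlim : Tendsto (fun n => D.g u + ε n • e₀) atTop (𝓝 (D.g u)) := by
    simpa using tendsto_const_nhds.add (hεlim.smul_const e₀)
  have hwlim := D.dir_tendsto hu (D.g_ne_zero hu0) one_pos (one_smul ℝ _).symm _ hγlim
    w hw τ hτ hgw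
  set c : ℕ → ℝ := fun n => ⟪w n, u⟫_ℝ with hcdef
  have hclim : Tendsto c atTop (𝓝 1) := by
    simpa only [huu] using hwlim.inner (𝕜 := ℝ) (tendsto_const_nhds (x := u))
  set s : ℕ → ℝ := fun n => ‖w n - c n • u‖ with hsdef
  have hw0 : ∀ n, w n ≠ 0 := fun n h => by simpa [h] using hw n
  have hLu : ∀ n, D.B (D.g u + ε n • e₀) u = D.d u • u := fun n => by
    rw [D.hs, map_add, map_smul, he₀B, smul_zero, add_zero, D.eq_d hu0]
  have hs : ∀ n, 0 < c n → 0 < s n := by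
    intro n hc
    refine norm_pos_iff.2 fun h => ?_
    have hwu : w n = c n • u := sub_eq_zero.1 h
    have h1 : D.g u = τ n • (D.g u + ε n • e₀) := by rw [← hgw, hwu, D.hhom u hu0 _ hc]
    have h2 := congrArg (fun y => ⟪y, u⟫_ℝ) h1
    simp only [inner_add_left, real_inner_smul_left, he₀u, mul_zero, add_zero] at h2
    have hτ1 : τ n = 1 := (mul_eq_right₀ (D.hpos u hu0).ne').1 h2.symm
    rw [hτ1, one_smul] at h1
    have h3 := norm_eq_zero.2 (left_eq_add.1 h1)
    rw [norm_smul, he₀, mul_one, Real.norm_of_nonneg (hε n).le] at h3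
    exact (hε n).ne' h3
  set v : ℕ → V := fun n => (s n)⁻¹ • (w n - c n • u) with hvdef
  have hev : ∀ᶠ n in atTop, 0 < c n := hclim.eventually (lt_mem_nhds one_pos)
  obtain ⟨N, hN⟩ := eventually_atTop.1 hev
  have hfacts : ∀ n, N ≤ n → ‖v n‖ = 1 ∧ ⟪v n, u⟫_ℝ = 0 ∧ w n = c n • u + s n • v n ∧
      c n ^ 2 + s n ^ 2 = 1 ∧
      D.B (D.g u + ε n • e₀) (v n) = D.d u • v n ∧
      (c n * s n) • (D.B (v n) (v n) - a) + (c n ^ 2 - s n ^ 2) • D.B u (v n) = 0 := by
    intro n hn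
    have hc := hN n hn
    have hsn := hs n hc
    have hv1 : ‖v n‖ = 1 := by
      simp only [hvdef]
      rw [norm_smul, norm_inv, Real.norm_of_nonneg hsn.le]
      exact inv_mul_cancel₀ hsn.ne'
    have hvu : ⟪v n, u⟫_ℝ = 0 := by
      simp only [hvdef, hcdef]
      rw [real_inner_smul_left, inner_sub_left, real_inner_smul_left, huu, mul_one, sub_self,
        mul_zero]
    have hwe : w n = c n • u + s n • v n := by
      simp only [hvdef]
      rw [smul_smul, mul_inv_cancel₀ hsn.ne', one_smul]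
      abel
    have hsq : c n ^ 2 + s n ^ 2 = 1 := by
      have h := congrArg (fun y => ‖y‖ ^ 2) hwe
      simp only [hw n, norm_add_sq_real, norm_smul, Real.norm_eq_abs, real_inner_smul_left,
        real_inner_smul_right, real_inner_comm (v n) u, hvu, hu, hv1, mul_pow, sq_abs] at h
      linarith
    have he := D.eigen_of_g (hw0 n) (hτ n) (hgw n)
    have hd : D.d (w n) / τ n = D.d u := by
      have h := congrArg (fun y => ⟪y, u⟫_ℝ) he
      simp only [real_inner_smul_left, D.inner_B_comm _ (w n) u, hLu,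
        real_inner_smul_right] at h
      exact (mul_right_cancel₀ hc.ne' h).symm
    have hBv : D.B (D.g u + ε n • e₀) (v n) = D.d u • v n := by
      simp only [hvdef]
      rw [map_smul, map_sub, map_smul, he, hd, hLu]
      module
    refine ⟨hv1, hvu, hwe, hsq, hBv, ?_⟩
    set v' := (-s n) • u + c n • v n with hv'
    have hvp : ⟪v', w n⟫_ℝ = 0 := by
      rw [hwe, hv']
      simp only [inner_add_left, inner_add_right, real_inner_smul_left, real_inner_smul_right,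
        real_inner_comm (v n) u, hvu, huu, real_inner_self_eq_norm_sq, hv1, hu]
      ring
    have hB' : D.B (D.g u + ε n • e₀) v' = (D.d (w n) / τ n) • v' := by
      rw [hd, hv', map_add, map_smul, map_smul, hLu, hBv]
      module
    have h := D.perp_eigen (hw n) (hγne n) (hτ n) (hgw n) hvp hB'
    rw [hwe, hv'] at h
    simp only [map_add, map_smul, map_neg, add_apply, smul_apply, D.hs (v n) u] at h
    rw [ha, ← h]
    module
  -- subsequence
  obtain ⟨v₀, hv₀, φ, hφ, hvlim⟩ := (isCompact_sphere (0 : V) 1).tendsto_subseq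
    (x := fun n => v (n + N)) (fun n => by simpa using (hfacts _ le_add_self).1)
  set m : ℕ → ℕ := fun n => φ n + N with hmdef
  have hm : Tendsto m atTop atTop := (tendsto_add_atTop_nat N).comp hφ.tendsto_atTop
  have hmN : ∀ n, N ≤ m n := fun n => le_add_self
  have hspos : ∀ n, 0 < s (m n) := fun n => hs _ (hN _ (hmN n))
  have hvm : Tendsto (fun n => v (m n)) atTop (𝓝 v₀) := hvlim
  have hv₀n : ‖v₀‖ = 1 := by simpa using hv₀
  let Φ : V →ₗ[ℝ] V × ℝ :=
    ((D.B (D.g u)).toLinearMap - D.d u • LinearMap.id).prod (innerSL ℝ u).toLinearMap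
  have hΦ : ∀ x, Φ x = (D.B (D.g u) x - D.d u • x, ⟪u, x⟫_ℝ) := fun x => rfl
  obtain ⟨C, hC0, hC⟩ := exists_bound_of_ker_le Φ (D.B u).toLinearMap (fun x hx => by
    rw [hΦ, Prod.mk_eq_zero, sub_eq_zero] at hx
    exact D.perp_eigen hu (D.g_ne_zero hu0) one_pos (one_smul ℝ _).symm
      (by rw [real_inner_comm]; exact hx.2) (by rw [div_one]; exact hx.1))
  have hΦv : ∀ n, Φ (v (m n)) = (-(ε (m n)) • D.B e₀ (v (m n)), 0) := by
    intro n
    obtain ⟨-, hvu, -, -, hBv, -⟩ := hfacts _ (hmN n)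
    rw [hΦ, real_inner_comm, hvu]
    refine Prod.ext ?_ rfl
    simp only [map_add, map_smul, add_apply, smul_apply] at hBv
    simp only
    rw [← hBv, neg_smul]
    abel
  have hsmall : ∀ n, ‖D.B u (v (m n))‖ ≤ C * ‖D.B e₀‖ * ε (m n) := by
    intro n
    refine (hC _).trans ?_
    rw [hΦv, Prod.norm_def]
    simp only [norm_zero, norm_smul, norm_neg, Real.norm_of_nonneg (hε _).le]
    rw [max_eq_left (mul_nonneg (hε _).le (norm_nonneg _))]
    have h := (D.B e₀).le_opNorm (v (m n))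
    rw [(hfacts _ (hmN n)).1, mul_one] at h
    calc C * (ε (m n) * ‖D.B e₀ (v (m n))‖) ≤ C * (ε (m n) * ‖D.B e₀‖) :=
          mul_le_mul_of_nonneg_left (mul_le_mul_of_nonneg_left h (hε _).le) hC0
      _ = _ := by ring
  have hBuv0 : D.B u v₀ = 0 := by
    refine tendsto_nhds_unique (((D.B u).continuous.tendsto _).comp hvm) ?_
    refine squeeze_zero_norm hsmall ?_
    simpa using (hεlim.comp hm).const_mul (C * ‖D.B e₀‖)
  have huv0 : ⟪u, v₀⟫_ℝ = 0 := by
    refine tendsto_nhds_unique (tendsto_const_nhds.inner hvm) ?_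
    refine tendsto_const_nhds.congr fun n => ?_
    rw [real_inner_comm]; exact (hfacts _ (hmN n)).2.1.symm
  have hGv0 : D.G u v₀ = 0 := hGe _ huv0 hBuv0
  -- the speed of the perturbation
  have hwm : Tendsto (fun n => w (m n)) atTop (𝓝 u) := hwlim.comp hm
  have hwu_bd : ∀ n, ‖w (m n) - u‖ ≤ 2 * s (m n) := by
    intro n
    obtain ⟨hv1, -, hwe, hsq, -, -⟩ := hfacts _ (hmN n)
    have hc := hN _ (hmN n)
    have he : w (m n) - u = (c (m n) - 1) • u + s (m n) • v (m n) := by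
      rw [hwe]; module
    rw [he]
    refine (norm_add_le _ _).trans ?_
    rw [norm_smul, norm_smul, hu, hv1, Real.norm_of_nonneg (hspos n).le, Real.norm_eq_abs]
    have : c (m n) ≤ 1 := by nlinarith
    have hs1 : s (m n) ≤ 1 := by nlinarith [hspos n]
    rw [abs_of_nonpos (by linarith)]
    nlinarith [hspos n]
  have hrem : Tendsto (fun n => (s (m n))⁻¹ •
      (D.g (w (m n)) - D.g u - D.G u (w (m n) - u))) atTop (𝓝 0) := by
    have ho := (D.hg u hu0).isLittleO.comp_tendsto hwm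
    rw [tendsto_zero_iff_norm_tendsto_zero]
    refine Metric.tendsto_atTop.2 fun δ hδ => ?_
    obtain ⟨M, hM⟩ := eventually_atTop.1 (ho.def (by positivity : (0 : ℝ) < δ / 4))
    refine ⟨M, fun n hn => ?_⟩
    have h := hM n hn
    simp only [Function.comp_apply] at h
    rw [Real.dist_eq, sub_zero, abs_norm, norm_smul, norm_inv,
      Real.norm_of_nonneg (hspos n).le, inv_mul_lt_iff₀ (hspos n)]
    nlinarith [hwu_bd n, hspos n]
  have hX : Tendsto (fun n => (s (m n))⁻¹ • (D.g (w (m n)) - D.g u)) atTop (𝓝 0) := by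
    have h2 : Tendsto (fun n => D.G u (v (m n))) atTop (𝓝 0) := by
      have h4 : Tendsto (fun n => D.G u (v (m n))) atTop (𝓝 (D.G u v₀)) :=
        ((D.G u).continuous.tendsto v₀).comp hvm
      rwa [hGv0] at h4
    have h3 := hrem.add h2
    rw [add_zero] at h3
    refine h3.congr fun n => ?_
    obtain ⟨-, -, hwe, -, -, -⟩ := hfacts _ (hmN n)
    have he : D.G u (w (m n) - u) = s (m n) • D.G u (v (m n)) := by
      rw [hwe]; simp [D.G_self hu0]
    rw [he, smul_sub, smul_smul, inv_mul_cancel₀ (hspos n).ne', one_smul]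
    abel
  have hτlim : Tendsto (fun n => τ (m n)) atTop (𝓝 1) := by
    have h1 := ((D.hg u hu0).continuousAt.tendsto.comp hwm).inner (𝕜 := ℝ) (tendsto_const_nhds (x := u))
    have h2 := h1.div_const ⟪D.g u, u⟫_ℝ
    rw [div_self (D.hpos u hu0).ne'] at h2
    refine h2.congr fun n => ?_
    simp only [Function.comp_apply]
    rw [hgw, real_inner_smul_left, inner_add_left, real_inner_smul_left, he₀u, mul_zero,
      add_zero, mul_div_assoc, div_self (D.hpos u hu0).ne', mul_one]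
  have hεs : Tendsto (fun n => ε (m n) / s (m n)) atTop (𝓝 0) := by
    have hY : Tendsto (fun n => (ε (m n) / s (m n) * τ (m n)) • e₀) atTop (𝓝 0) := by
      have hp := (hX.inner (𝕜 := ℝ) (tendsto_const_nhds (x := u))).div_const ⟪D.g u, u⟫_ℝ
      rw [inner_zero_left, zero_div] at hp
      have h3 := hX.sub (hp.smul_const (D.g u))
      rw [zero_smul, sub_zero] at h3
      refine h3.congr fun n => ?_
      rw [hgw]
      simp only [inner_sub_left, inner_add_left, real_inner_smul_left, he₀u, mul_zero, add_zero]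
      have := (D.hpos u hu0).ne'
      match_scalars <;> field_simp <;> ring
    have hY' := (hY.inner (𝕜 := ℝ) (tendsto_const_nhds (x := e₀))).div hτlim one_ne_zero
    rw [inner_zero_left, zero_div] at hY'
    refine hY'.congr fun n => ?_
    simp only [Pi.div_apply]
    rw [real_inner_smul_left, real_inner_self_eq_norm_sq, he₀, one_pow, mul_one, mul_div_assoc,
      div_self (hτ _).ne', mul_one]
  have hkey : D.B v₀ v₀ = a := by
    have h1 : Tendsto (fun n => D.B (v (m n)) (v (m n)) - a) atTop (𝓝 (D.B v₀ v₀ - a)) := by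
      refine Tendsto.sub_const ?_ a
      have hc : Continuous fun x : V => D.B x x := by fun_prop
      exact (hc.tendsto _).comp hvm
    have h2 : Tendsto (fun n => D.B (v (m n)) (v (m n)) - a) atTop (𝓝 0) := by
      refine squeeze_zero_norm' ?_ (by
        simpa using ((hεs.const_mul (C * ‖D.B e₀‖)).mul
          ((((hclim.comp hm).inv₀ one_ne_zero))) ))
      refine Eventually.of_forall fun n => ?_
      obtain ⟨-, -, -, hsq, -, heq⟩ := hfacts _ (hmN n)
      have hc := hN _ (hmN n)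
      have hcs : 0 < c (m n) * s (m n) := mul_pos hc (hspos n)
      have h3 := congrArg norm (eq_neg_of_add_eq_zero_left heq)
      rw [norm_neg, norm_smul, norm_smul, Real.norm_of_nonneg hcs.le, Real.norm_eq_abs] at h3
      have habs : |c (m n) ^ 2 - s (m n) ^ 2| ≤ 1 := by
        rw [abs_le]; constructor <;> nlinarith
      have h4 : c (m n) * s (m n) * ‖D.B (v (m n)) (v (m n)) - a‖
          ≤ C * ‖D.B e₀‖ * ε (m n) := by
        rw [h3]
        calc |c (m n) ^ 2 - s (m n) ^ 2| * ‖D.B u (v (m n))‖ ≤ 1 * ‖D.B u (v (m n))‖ :=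
              mul_le_mul_of_nonneg_right habs (norm_nonneg _)
          _ ≤ _ := by rw [one_mul]; exact hsmall n
      try simp only [Function.comp_apply]
      rw [show C * ‖D.B e₀‖ * (ε (m n) / s (m n)) * (c (m n))⁻¹
        = C * ‖D.B e₀‖ * ε (m n) / (c (m n) * s (m n)) by field_simp, le_div_iff₀ hcs]
      linarith
    exact sub_eq_zero.1 (tendsto_nhds_unique h1 h2)
  exact ⟨v₀, hv₀n, huv0, hBuv0, hkey⟩

/-- There are no degenerate pairs. -/
theorem no_pair (ha0 : ∀ u : V, u ≠ 0 → D.B u u ≠ 0) {u₁ e₁ : V} (h1 : ‖u₁‖ = 1)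
    (h2 : ‖e₁‖ = 1) (h3 : ⟪e₁, u₁⟫_ℝ = 0) : D.B u₁ e₁ ≠ 0 := by
  intro h4
  set P : Set (V × V) := {q | ‖q.1‖ = 1 ∧ ‖q.2‖ = 1 ∧ ⟪q.2, q.1⟫_ℝ = 0 ∧ D.B q.1 q.2 = 0}
    with hPdef
  have hne : ¬ P = ∅ := Set.nonempty_iff_ne_empty.1 ⟨(u₁, e₁), h1, h2, h3, h4⟩
  have hcl : IsClosed P := by
    have hset : P = ({q : V × V | ‖q.1‖ = 1} ∩ ({q | ‖q.2‖ = 1} ∩
        ({q | ⟪q.2, q.1⟫_ℝ = 0} ∩ {q | D.B q.1 q.2 = 0}))) := rfl
    rw [hset]
    exact (isClosed_eq (by fun_prop) continuous_const).inter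
      ((isClosed_eq (by fun_prop) continuous_const).inter
      ((isClosed_eq (by fun_prop) continuous_const).inter
      (isClosed_eq (by fun_prop) continuous_const)))
  have hsub : P ⊆ Metric.sphere (0 : V) 1 ×ˢ Metric.sphere (0 : V) 1 :=
    fun q hq => ⟨by simpa using hq.1, by simpa using hq.2.1⟩
  have hPc : IsCompact P :=
    ((isCompact_sphere (0 : V) 1).prod (isCompact_sphere (0 : V) 1)).of_isClosed_subset hcl hsub
  obtain ⟨⟨u, e₀⟩, ⟨hu, he₀, he₀u, he₀B⟩, hmin⟩ := hPc.exists_isMinOn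
    (nonempty_iff_ne_empty.2 hne) (f := fun q => ‖D.B q.1 q.1‖) (by fun_prop)
  simp only at hu he₀ he₀u he₀B
  have hu0 : u ≠ 0 := by intro h; simp [h] at hu
  have huu : ⟪u, u⟫_ℝ = 1 := by rw [real_inner_self_eq_norm_sq, hu, one_pow]
  set a := D.B u u with ha
  have hGe : ∀ v : V, ‖v‖ = 1 → ‖D.B v v‖ = ‖a‖ →
      ∀ e, ⟪v, e⟫_ℝ = 0 → D.B v e = 0 → D.G v e = 0 := fun v hv hva e hve hBe =>
    D.minimiser_G_zero hv (ha0 v fun h => by simp [h] at hv) (fun x hx hvx hBx => by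
      rw [hva]
      exact hmin (show (x, v) ∈ P from ⟨hx, hv, hvx, (D.hs x v).trans hBx⟩)) hve hBe
  obtain ⟨v₀, hv₀n, huv0, hBuv0, hkey⟩ := D.exists_partner hu he₀ he₀u he₀B (hGe u hu rfl)
  -- the great circle through `u` and `v₀`
  have hv0u : ⟪v₀, u⟫_ℝ = 0 := by rw [real_inner_comm]; exact huv0
  let cu : ℝ → V := fun t => Real.cos t • u + Real.sin t • v₀
  let cv : ℝ → V := fun t => (-Real.sin t) • u + Real.cos t • v₀
  have hcu : ∀ t, ‖cu t‖ = 1 := fun t => by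
    have h : ‖cu t‖ ^ 2 = 1 := by
      simp only [cu, norm_add_sq_real, norm_smul, Real.norm_eq_abs, real_inner_smul_left,
        real_inner_smul_right, huv0, hu, hv₀n, mul_pow, sq_abs]
      linear_combination Real.sin_sq_add_cos_sq t
    exact (sq_eq_sq₀ (norm_nonneg _) zero_le_one).1 (by rw [h, one_pow])
  have hder : ∀ t, HasDerivAt cu (cv t) t := fun t =>
    ((Real.hasDerivAt_cos t).smul_const u).add ((Real.hasDerivAt_sin t).smul_const v₀)
  have hgd : ∀ t, HasDerivAt (fun s => D.g (cu s)) 0 t := by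
    intro t
    have hne : cu t ≠ 0 := fun h => by simpa [h] using hcu t
    have h := (D.hg _ hne).comp_hasDerivAt t (hder t)
    have hz : D.G (cu t) (cv t) = 0 := by
      have hperp : ⟪cu t, cv t⟫_ℝ = 0 := by
        simp only [cu, cv, inner_add_left, inner_add_right, real_inner_smul_left,
          real_inner_smul_right, huv0, hv0u, huu, real_inner_self_eq_norm_sq, hv₀n, hu]
        ring
      have hBc : D.B (cu t) (cu t) = a := by
        simp only [cu, map_add, map_smul, add_apply, smul_apply, D.hs v₀ u, hBuv0, hkey, ← ha]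
        have := Real.sin_sq_add_cos_sq t
        match_scalars
        linear_combination this
      have hBcv : D.B (cu t) (cv t) = 0 := by
        simp only [cu, cv, map_add, map_smul, map_neg, add_apply, smul_apply, D.hs v₀ u, hBuv0,
          hkey, ← ha]
        module
      exact hGe _ (hcu t) (by rw [hBc]) _ hperp hBcv
    rw [hz] at h
    exact h
  have hconst := is_const_of_deriv_eq_zero (fun t => (hgd t).differentiableAt)
    (fun t => (hgd t).deriv) 0 Real.pi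
  simp only [cu, Real.cos_zero, Real.sin_zero, Real.cos_pi, Real.sin_pi, one_smul, zero_smul,
    add_zero, neg_smul, D.hodd] at hconst
  have h2 : (2 : ℝ) • D.g u = 0 := by
    rw [two_smul]; exact eq_neg_iff_add_eq_zero.1 hconst
  exact D.g_ne_zero hu0 ((smul_eq_zero.1 h2).resolve_left two_ne_zero)

/-- Rigidity. -/
theorem B_eq_zero (hdim : 2 ≤ Module.finrank ℝ V) : D.B = 0 := by
  by_contra hB
  obtain ⟨p, hp, hppos⟩ := D.exists_pos_point hB
  have ha0 : ∀ u : V, u ≠ 0 → D.B u u ≠ 0 := by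
    intro u hu h
    have := hppos u hu
    rw [D.hs p u, D.hB, h, inner_zero_left] at this
    exact lt_irrefl _ this
  -- sign change along a great semicircle
  obtain ⟨e, he, hep⟩ : ∃ e : V, ‖e‖ = 1 ∧ ⟪p, e⟫_ℝ = 0 := by
    obtain ⟨e, he, he0⟩ : ∃ e ∈ (innerSL ℝ p).toLinearMap.ker, e ≠ 0 := by
      apply Submodule.exists_mem_ne_zero_of_ne_bot
      apply LinearMap.ker_ne_bot_of_finrank_lt
      rw [Module.finrank_self]
      omega
    refine ⟨‖e‖⁻¹ • e, norm_smul_inv_norm he0, ?_⟩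
    have : ⟪p, e⟫_ℝ = 0 := by simpa using he
    simp [real_inner_smul_right, this]
  let ut : ℝ → V := fun t => Real.cos t • p + Real.sin t • e
  let q : ℝ → V → ℝ := fun t x =>
    ⟪D.B (ut t) (x - ⟪x, ut t⟫_ℝ • ut t), x - ⟪x, ut t⟫_ℝ • ut t⟫_ℝ + ⟪x, ut t⟫_ℝ ^ 2
  have hut : ∀ t, ‖ut t‖ = 1 := fun t => by
    have h : ‖ut t‖ ^ 2 = 1 := by
      simp only [ut, norm_add_sq_real, norm_smul, Real.norm_eq_abs, real_inner_smul_left,
        real_inner_smul_right, hep, hp, he, mul_pow, sq_abs]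
      linear_combination Real.sin_sq_add_cos_sq t
    exact (sq_eq_sq₀ (norm_nonneg _) zero_le_one).1 (by rw [h, one_pow])
  have hutc : Continuous ut := by simp only [ut]; fun_prop
  have hqc : Continuous (Function.uncurry q) := by
    simp only [q, Function.uncurry]
    fun_prop
  have hK : IsCompact (Metric.sphere (0 : V) 1) := isCompact_sphere _ _
  have hKne : (Metric.sphere (0 : V) 1).Nonempty := ⟨p, by simpa using hp⟩
  set m : ℝ → ℝ := fun t => sInf (q t '' Metric.sphere (0 : V) 1)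
  have hmc : Continuous m := hK.continuous_sInf hqc
  have hatt : ∀ t, ∃ x, ‖x‖ = 1 ∧ m t = q t x ∧ ∀ y, ‖y‖ = 1 → q t x ≤ q t y := by
    intro t
    obtain ⟨x, hx, hxm, hle⟩ := hK.exists_sInf_image_eq_and_le hKne
      (show ContinuousOn (q t) (Metric.sphere 0 1) from
        (hqc.comp (Continuous.prodMk continuous_const continuous_id)).continuousOn)
    exact ⟨x, by simpa using hx, hxm, fun y hy => hle y (by simpa using hy)⟩
  have hm0 : 0 < m 0 := by
    obtain ⟨x, hx, hxm, -⟩ := hatt 0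
    rw [hxm]
    simp only [q, ut, Real.cos_zero, Real.sin_zero, one_smul, zero_smul, add_zero]
    set f := x - ⟪x, p⟫_ℝ • p with hf
    by_cases hf0 : f = 0
    · have : ⟪x, p⟫_ℝ ≠ 0 := by
        intro h
        rw [hf, h, zero_smul, sub_zero] at hf0
        simp [hf0] at hx
      rw [hf0, map_zero, inner_zero_left, zero_add]
      positivity
    · have := hppos f hf0
      positivity
  have hmπ : m Real.pi < 0 := by
    obtain ⟨x, -, hxm, hle⟩ := hatt Real.pi
    rw [hxm]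
    refine (hle e he).trans_lt ?_
    have h1 := hppos e (fun h => by simp [h] at he)
    have h2 : ⟪e, p⟫_ℝ = 0 := by rw [real_inner_comm]; exact hep
    simp only [q, ut, Real.cos_pi, Real.sin_pi, zero_smul, add_zero, inner_neg_right, neg_smul,
      one_smul, h2, neg_zero, zero_smul, sub_zero, map_neg, neg_apply, inner_neg_left]
    linarith
  obtain ⟨t₀, -, ht₀⟩ := intermediate_value_Icc' Real.pi_pos.le hmc.continuousOn
    ⟨hmπ.le, hm0.le⟩
  obtain ⟨x, hx, hxm, hle⟩ := hatt t₀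
  rw [ht₀] at hxm
  set u := ut t₀ with hudef
  have hu1 : ‖u‖ = 1 := hut t₀
  have huu : ⟪u, u⟫_ℝ = 1 := by rw [real_inner_self_eq_norm_sq, hu1, one_pow]
  let P' : V → V := fun y => y - ⟪y, u⟫_ℝ • u
  have hq : ∀ y, q t₀ y = ⟪D.B u (P' y), P' y⟫_ℝ + ⟪y, u⟫_ℝ ^ 2 := fun _ => rfl
  have hqnn : ∀ y, 0 ≤ q t₀ y := by
    intro y
    rcases eq_or_ne y 0 with rfl | hy
    · simp [q]
    have h := hle _ (norm_smul_inv_norm (𝕜 := ℝ) hy)
    rw [← hxm] at h
    have hh : q t₀ (‖y‖⁻¹ • y) = ‖y‖⁻¹ ^ 2 * q t₀ y := by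
      simp only [q, real_inner_smul_left]
      rw [show ‖y‖⁻¹ • y - (‖y‖⁻¹ * ⟪y, ut t₀⟫_ℝ) • ut t₀
        = ‖y‖⁻¹ • (y - ⟪y, ut t₀⟫_ℝ • ut t₀) by module]
      simp only [map_smul, real_inner_smul_left, real_inner_smul_right]
      ring
    have h' : 0 ≤ ‖y‖⁻¹ ^ 2 * q t₀ y := hh ▸ h
    exact nonneg_of_mul_nonneg_right h' (by positivity)
  have hcross : ∀ y, ⟪D.B u (P' x), P' y⟫_ℝ + ⟪x, u⟫_ℝ * ⟪y, u⟫_ℝ = 0 := by
    intro y
    have hexp : ∀ s : ℝ, q t₀ (x + s • y) = q t₀ x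
        + 2 * s * (⟪D.B u (P' x), P' y⟫_ℝ + ⟪x, u⟫_ℝ * ⟪y, u⟫_ℝ) + s ^ 2 * q t₀ y := by
      intro s
      have hP : P' (x + s • y) = P' x + s • P' y := by
        simp only [P', inner_add_left, real_inner_smul_left]; module
      rw [hq, hq, hq, hP]
      simp only [map_add, map_smul, inner_add_left, inner_add_right, real_inner_smul_left,
        real_inner_smul_right]
      rw [D.inner_B_comm u (P' y) (P' x), real_inner_comm (D.B u (P' x)) (P' y)]
      ring
    set A := ⟪D.B u (P' x), P' y⟫_ℝ + ⟪x, u⟫_ℝ * ⟪y, u⟫_ℝ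
    by_contra hA
    set Q := q t₀ y
    have hQ : 0 ≤ Q := hqnn y
    set s := -A / (Q + 1) with hs'
    have h := hqnn (x + s • y)
    rw [hexp, ← hxm] at h
    have hsA : A = -(s * (Q + 1)) := by rw [hs']; field_simp
    have hspos : 0 < s ^ 2 := by
      apply pow_two_pos_of_ne_zero
      intro h0; exact hA (by rw [hsA, h0]; ring)
    rw [hsA] at h
    nlinarith
  have hxu : ⟪x, u⟫_ℝ = 0 := by
    have h := hcross u
    have hP : P' u = 0 := by simp [P', hu1]
    rw [hP, inner_zero_right, zero_add, huu, mul_one] at h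
    exact h
  have hPx : P' x = x := by simp [P', hxu]
  have hBx : D.B u x = ⟪D.B u x, u⟫_ℝ • u := by
    apply sub_eq_zero.1
    refine inner_self_eq_zero (𝕜 := ℝ).1 ?_
    set z := D.B u x - ⟪D.B u x, u⟫_ℝ • u with hz
    have hzu : ⟪z, u⟫_ℝ = 0 := by
      rw [hz, inner_sub_left, real_inner_smul_left, huu, mul_one, sub_self]
    have h := hcross z
    have hPz : P' z = z := by simp [P', hzu]
    rw [hPx, hPz, hzu, mul_zero, add_zero] at h
    conv_lhs => rw [hz]
    rw [← hz, inner_sub_left, h, real_inner_smul_left, real_inner_comm z u, hzu]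
    ring
  have hu0 : u ≠ 0 := by intro h; simp [h] at hu1
  have hσ := D.kernel_zero hu0 hxu hBx
  rw [hσ, zero_smul] at hBx
  exact D.no_pair ha0 hu1 hx hxu hBx

end CubicData

end Vale.Agent.P084
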