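import Vale.Agent.P084.FinBasic
import Vale.Agent.P228.Deg.Deg

/-!
Analytic tools: a map equal to an injective linear image of a sphere isometry on the sphere covers
the image of the ball, the area inequality for Lipschitz maps, and Lipschitz bounds from
almost everywhere bounds on the derivative.
-/

noncomputable section

namespace Vale.Agent.P084.Fin

open Metric Set Module MeasureTheory Filter
open scoped NNReal ENNReal Topology

variable {E F : Type*} [NormedAddCommGroup E] [NormedSpace ℝ E]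
  [NormedAddCommGroup F] [NormedSpace ℝ F]

/-- If `G` agrees with `L ∘ T` on the sphere then it covers the linear image of the ball. -/
theorem subset_image [FiniteDimensional ℝ E] [Nontrivial E] {V : Type*} [NormedAddCommGroup V]
    [NormedSpace ℝ V] (I : SphIso E F) (L : F ≃L[ℝ] V) {G : E → V} (hG : Continuous G)
    (hGS : ∀ x : E, ‖x‖ = 1 → G x = L (I.T x)) :
    L '' closedBall (0 : F) 1 ⊆ G '' closedBall (0 : E) 1 := by
  haveI := I.finiteDimensional
  have hSc : Continuous I.S := I.symm.continuous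
  set H : E → E := fun x => I.S (L.symm (G x)) with hH
  have hHc : Continuous H := hSc.comp (L.symm.continuous.comp hG)
  have hHS : ∀ x : E, ‖x‖ = 1 → H x = x := fun x hx => by
    simp [hH, hGS x hx, I.left_inv]
  rintro v ⟨y, hy, rfl⟩
  rw [mem_closedBall_zero_iff] at hy
  rcases hy.eq_or_lt with hy1 | hy1
  · refine ⟨I.S y, by simp [I.norm_S, hy], ?_⟩
    rw [hGS _ (by rw [I.norm_S, hy1]), I.right_inv]
  set x0 := I.S y with hx0
  have hx0' : x0 ∈ ball (0 : E) 1 := by simpa [hx0, I.norm_S] using hy1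
  by_contra hno
  have h0 : P228.degree H (ball (0 : E) 1) x0 = 0 := by
    refine P228.degree_eq_zero isOpen_ball isBounded_ball hHc fun x hx h => hno ?_
    rw [closure_ball (0 : E) one_ne_zero] at hx
    refine ⟨x, hx, ?_⟩
    have := congrArg I.T h
    simp only [hH, hx0, I.right_inv] at this
    rw [← this, L.apply_symm_apply]
  have h1 : P228.degree H (ball (0 : E) 1) x0 = 1 := by
    rw [P228.degree_congr isOpen_ball isBounded_ball hHc continuous_id (g := id) ?_,
      P228.degree_id isOpen_ball isBounded_ball hx0']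
    intro x hx s _ h
    rw [frontier_ball (0 : E) one_ne_zero, mem_sphere_zero_iff_norm] at hx
    rw [hHS x hx, id, ← add_smul, sub_add_cancel, one_smul] at h
    rw [h] at hx
    simp [hx] at hx0'
  omega

variable {n : ℕ}

/-- The area inequality for Lipschitz self maps of `ℝⁿ`. -/
theorem image_le_integral {g : (Fin n → ℝ) → (Fin n → ℝ)} {K : ℝ≥0} (hg : LipschitzWith K g)
    {s : Set (Fin n → ℝ)} (hs : MeasurableSet s) (hsf : volume s ≠ ∞) :
    IntegrableOn (fun z => |(fderiv ℝ g z).det|) s ∧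
      volume.real (g '' s) ≤ ∫ z in s, |(fderiv ℝ g z).det| := by
  obtain ⟨C, hC⟩ : ∃ C, ∀ A : (Fin n → ℝ) →L[ℝ] (Fin n → ℝ), ‖A‖ ≤ K → |A.det| ≤ C := by
    obtain ⟨C, hC⟩ := (isCompact_closedBall (0 : (Fin n → ℝ) →L[ℝ] (Fin n → ℝ)) K).exists_bound_of_continuousOn
      ContinuousLinearMap.continuous_det.continuousOn
    exact ⟨C, fun A hA => hC A (by simpa using hA)⟩
  have hbound : ∀ z, |(fderiv ℝ g z).det| ≤ C :=
    fun z => hC _ (norm_fderiv_le_of_lipschitz ℝ hg)
  have hint : IntegrableOn (fun z => |(fderiv ℝ g z).det|) s := by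
    haveI : IsFiniteMeasure (volume.restrict s) := isFiniteMeasure_restrict.2 hsf
    refine Integrable.of_bound ?_ C (Eventually.of_forall fun z => by simpa using hbound z)
    exact (continuous_abs.comp ContinuousLinearMap.continuous_det).comp_aestronglyMeasurable
      (measurable_fderiv ℝ g).aestronglyMeasurable
  refine ⟨hint, ?_⟩
  set D := {z | DifferentiableAt ℝ g z}
  have hD : MeasurableSet D := measurableSet_of_differentiableAt ℝ g
  have hnull : volume (g '' (s \ D)) = 0 := by
    have h0 : volume (s \ D) = 0 :=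
      measure_mono_null (fun z hz => hz.2) (ae_iff.1 hg.ae_differentiableAt)
    have hμ := hg.hausdorffMeasure_image_le (d := (Fintype.card (Fin n) : ℝ)) (Nat.cast_nonneg _)
      (s \ D)
    rw [hausdorffMeasure_pi_real, h0, mul_zero] at hμ
    exact nonpos_iff_eq_zero.1 hμ
  have hle : volume (g '' s) ≤ ∫⁻ z in s, ENNReal.ofReal |(fderiv ℝ g z).det| := by
    calc volume (g '' s) ≤ volume (g '' (s ∩ D)) + volume (g '' (s \ D)) := by
          refine le_trans (measure_mono ?_) (measure_union_le _ _)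
          rw [← image_union, inter_union_sdiff]
      _ ≤ ∫⁻ z in s ∩ D, ENNReal.ofReal |(fderiv ℝ g z).det| := by
          rw [hnull, add_zero]
          exact addHaar_image_le_lintegral_abs_det_fderiv volume (hs.inter hD)
            fun x hx => hx.2.hasFDerivAt.hasFDerivWithinAt
      _ ≤ _ := lintegral_mono_set inter_subset_left
  rw [← ofReal_integral_eq_lintegral_ofReal hint
    (Eventually.of_forall fun z => abs_nonneg _)] at hle
  exact ENNReal.toReal_le_of_le_ofReal (integral_nonneg fun z => abs_nonneg _) hle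

/-- A Lipschitz map whose derivative has norm at most one almost everywhere on an open convex
set is nonexpansive there. -/
theorem norm_sub_le_of_ae {g : (Fin n → ℝ) → F} {K : ℝ≥0} (hg : LipschitzWith K g)
    {N : (Fin n → ℝ) → ℝ}
    {O : Set (Fin n → ℝ)} (hO : IsOpen O) (hOc : Convex ℝ O)
    (hd : ∀ᵐ z ∂(volume : Measure (Fin n → ℝ)), z ∈ O →
      ∃ g' : (Fin n → ℝ) →L[ℝ] F, HasFDerivAt g g' z ∧ ∀ v, ‖g' v‖ ≤ N v)
    {p q : Fin n → ℝ} (hp : p ∈ O) (hq : q ∈ O) : ‖g q - g p‖ ≤ N (q - p) := by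
  obtain ⟨B, hBsub, hBm, hB0⟩ := exists_measurable_superset_of_null (ae_iff.1 hd)
  set d := q - p with hdd
  have hmeas : MeasurableSet {w : (Fin n → ℝ) × ℝ | w.1 + w.2 • d ∉ B} :=
    (hBm.compl).preimage (by fun_prop)
  have h1 : ∀ᵐ t : ℝ, ∀ᵐ z : Fin n → ℝ, z + t • d ∉ B := by
    refine Eventually.of_forall fun t => ?_
    have := (measurePreserving_add_right (volume : Measure (Fin n → ℝ)) (t • d)).quasiMeasurePreserving.ae
      (measure_eq_zero_iff_ae_notMem.1 hB0)
    exact this
  have h2 : ∀ᵐ z : Fin n → ℝ, ∀ᵐ t : ℝ, z + t • d ∉ B := (Measure.ae_ae_comm hmeas).2 h1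
  have key : ∀ z : Fin n → ℝ, z ∈ O → z + d ∈ O → (∀ᵐ t : ℝ, z + t • d ∉ B) →
      ‖g (z + d) - g z‖ ≤ N d := by
    intro z hz hzd hgood
    obtain ⟨φ, hφ, hφv⟩ := exists_dual_vector'' ℝ (g (z + d) - g z)
    have hh : LipschitzWith (‖φ‖₊ * (K * ‖d‖₊)) fun t : ℝ => φ (g (z + t • d)) := by
      refine φ.lipschitz.comp (hg.comp (LipschitzWith.of_dist_le_mul fun a b => ?_))
      simp [dist_eq_norm, ← sub_smul, norm_smul, mul_comm]
    have hac := (hh.lipschitzOnWith (s := uIcc (0 : ℝ) 1)).absolutelyContinuousOnInterval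
    have hi := hac.integral_deriv_eq_sub
    have hb : ∀ᵐ t : ℝ, t ∈ uIoc (0 : ℝ) 1 →
        ‖deriv (fun t : ℝ => φ (g (z + t • d))) t‖ ≤ N d := by
      filter_upwards [hgood] with t ht htI
      rw [uIoc_of_le zero_le_one] at htI
      have hmem : z + t • d ∈ O := by
        have := hOc hz hzd (sub_nonneg.2 htI.2) htI.1.le (sub_add_cancel 1 t)
        convert this using 1
        module
      obtain ⟨g', hg', hg'n⟩ : ∃ g' : (Fin n → ℝ) →L[ℝ] F,
          HasFDerivAt g g' (z + t • d) ∧ ∀ v, ‖g' v‖ ≤ N v := by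
        by_contra hne
        exact ht (hBsub fun h => hne (h hmem))
      have hc : HasDerivAt (fun t : ℝ => z + t • d) d t := by
        simpa using ((hasDerivAt_id t).smul_const d).const_add z
      have hder : HasDerivAt (fun t : ℝ => φ (g (z + t • d))) (φ (g' d)) t :=
        φ.hasFDerivAt.comp_hasDerivAt t (hg'.comp_hasDerivAt t hc)
      rw [hder.deriv]
      calc ‖φ (g' d)‖ ≤ ‖φ‖ * ‖g' d‖ := φ.le_opNorm _
        _ ≤ 1 * ‖g' d‖ := mul_le_mul_of_nonneg_right hφ (norm_nonneg _)
        _ ≤ N d := by rw [one_mul]; exact hg'n d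
    have := intervalIntegral.norm_integral_le_of_norm_le_const_ae hb
    rw [hi] at this
    simp only [one_smul, zero_smul, add_zero, sub_zero, abs_one, mul_one, ← map_sub, hφv] at this
    simpa using this
  -- density
  have hdense : Dense {z : Fin n → ℝ | ∀ᵐ t : ℝ, z + t • d ∉ B} := Measure.dense_of_ae h2
  have hopen : IsOpen (O ∩ (fun z => z + d) ⁻¹' O) := hO.inter (hO.preimage (by fun_prop))
  have hpmem : p ∈ closure ((O ∩ (fun z => z + d) ⁻¹' O) ∩ {z | ∀ᵐ t : ℝ, z + t • d ∉ B}) :=
    hdense.open_subset_closure_inter hopen ⟨hp, by simpa [hdd] using hq⟩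
  have hcl : IsClosed {z : Fin n → ℝ | ‖g (z + d) - g z‖ ≤ N d} := by
    have := hg.continuous
    exact isClosed_le (by fun_prop) continuous_const
  have h' : ‖g (p + d) - g p‖ ≤ N d :=
    closure_minimal (fun z hz => key z hz.1.1 hz.1.2 hz.2) hcl hpmem
  simpa [hdd] using h'

end Vale.Agent.P084.Fin
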