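import Mathlib

/-!
The homogeneous extension of a surjective isometry between unit spheres of arbitrary normed
spaces, and two elementary facts: equality of dimensions and rigidity of the closed unit ball.
-/

noncomputable section

namespace Vale.Agent.P084.Fin

open Metric Set Module
open scoped NNReal

variable {E F : Type*} [NormedAddCommGroup E] [NormedSpace ℝ E]
  [NormedAddCommGroup F] [NormedSpace ℝ F]

/-- A norm preserving positively homogeneous bijection that is isometric on every sphere. -/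
structure SphIso (E F : Type*) [NormedAddCommGroup E] [NormedSpace ℝ E]
    [NormedAddCommGroup F] [NormedSpace ℝ F] where
  T : E → F
  S : F → E
  left_inv : ∀ x, S (T x) = x
  right_inv : ∀ y, T (S y) = y
  norm_T : ∀ x, ‖T x‖ = ‖x‖
  smul_T : ∀ (c : ℝ) x, 0 ≤ c → T (c • x) = c • T x
  dist_T : ∀ a b, ‖a‖ = ‖b‖ → ‖T a - T b‖ = ‖a - b‖

namespace SphIso

variable (I : SphIso E F)

theorem norm_S (y : F) : ‖I.S y‖ = ‖y‖ := by rw [← I.norm_T, I.right_inv]

/-- The inverse. -/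
def symm : SphIso F E where
  T := I.S
  S := I.T
  left_inv := I.right_inv
  right_inv := I.left_inv
  norm_T := I.norm_S
  smul_T c y hc := by
    conv_lhs => rw [← I.right_inv y, ← I.smul_T c _ hc, I.left_inv]
  dist_T a b h := by
    have h' : ‖I.S a‖ = ‖I.S b‖ := by rw [I.norm_S, I.norm_S, h]
    have := I.dist_T _ _ h'
    rw [I.right_inv, I.right_inv] at this
    exact this.symm

theorem lipschitz : LipschitzWith 3 I.T := by
  refine LipschitzWith.of_dist_le_mul fun x y => ?_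
  simp only [dist_eq_norm]
  change ‖I.T x - I.T y‖ ≤ 3 * ‖x - y‖
  rcases eq_or_ne x 0 with rfl | hx
  · have h0 : I.T 0 = 0 := norm_eq_zero.1 (by rw [I.norm_T, norm_zero])
    rw [h0, zero_sub, zero_sub, norm_neg, norm_neg, I.norm_T]
    linarith [norm_nonneg y]
  have hxn := norm_pos_iff.2 hx
  set c := ‖y‖ / ‖x‖ with hc
  have hc0 : 0 ≤ c := by positivity
  have hcx : ‖c • x‖ = ‖y‖ := by
    rw [norm_smul, Real.norm_of_nonneg hc0, hc]; field_simp
  have h1 : ‖(1 - c) • x‖ = |‖x‖ - ‖y‖| := by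
    rw [norm_smul, Real.norm_eq_abs, hc, ← abs_of_pos hxn, ← abs_mul, abs_of_pos hxn]
    congr 1; field_simp
  have h2 : I.T x - I.T y = (1 - c) • I.T x + (I.T (c • x) - I.T y) := by
    rw [I.smul_T c x hc0]; module
  have h3 : ‖c • x - y‖ ≤ ‖x - y‖ + ‖(1 - c) • x‖ := by
    have : c • x - y = (x - y) - (1 - c) • x := by module
    rw [this]; exact norm_sub_le _ _
  have h4 := abs_norm_sub_norm_le x y
  rw [h2]
  refine (norm_add_le _ _).trans ?_
  have h5 : ‖(1 - c) • I.T x‖ = ‖(1 - c) • x‖ := by rw [norm_smul, norm_smul, I.norm_T]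
  rw [I.dist_T _ _ hcx, h5, h1]
  rw [h1] at h3
  linarith

theorem continuous : Continuous I.T := I.lipschitz.continuous

/-- The target is finite-dimensional. -/
theorem finiteDimensional [FiniteDimensional ℝ E] (I : SphIso E F) : FiniteDimensional ℝ F := by
  have h : I.T '' closedBall (0 : E) 1 = closedBall (0 : F) 1 := by
    ext y
    constructor
    · rintro ⟨x, hx, rfl⟩
      simpa [I.norm_T] using hx
    · intro hy
      refine ⟨I.S y, ?_, I.right_inv y⟩
      simpa [I.norm_S] using hy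
  refine FiniteDimensional.of_isCompact_closedBall ℝ one_pos (c := (0 : F)) ?_
  rw [← h]
  exact (isCompact_closedBall _ _).image I.continuous

/-- Both sides have the same dimension. -/
theorem finrank_eq [FiniteDimensional ℝ E] [FiniteDimensional ℝ F] (I : SphIso E F) :
    finrank ℝ F = finrank ℝ E := by
  have h1 := I.lipschitz.dimH_image_le univ
  have h2 := I.symm.lipschitz.dimH_image_le univ
  rw [image_univ, Function.Surjective.range_eq (fun y => ⟨I.S y, I.right_inv y⟩),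
    Real.dimH_univ_eq_finrank, Real.dimH_univ_eq_finrank] at h1
  rw [image_univ, Function.Surjective.range_eq (f := I.symm.T) (fun x => ⟨I.T x, I.left_inv x⟩),
    Real.dimH_univ_eq_finrank, Real.dimH_univ_eq_finrank] at h2
  exact le_antisymm (by exact_mod_cast h1) (by exact_mod_cast h2)

end SphIso

section Make

variable (f : sphere (0 : E) 1 → sphere (0 : F) 1)

open Classical in
/-- Positively homogeneous extension. -/
def hext (z : E) : F :=
  if h : z = 0 then 0 else ‖z‖ • (f ⟨‖z‖⁻¹ • z, by simp [norm_smul, h]⟩ : F)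

theorem hext_polar (x : sphere (0 : E) 1) {c : ℝ} (hc : 0 ≤ c) :
    hext f (c • (x : E)) = c • (f x : F) := by
  rcases hc.eq_or_lt with rfl | hc
  · simp [hext]
  have hx : (x : E) ≠ 0 := ne_zero_of_mem_unit_sphere x
  have hn : ‖c • (x : E)‖ = c := by
    rw [norm_smul, norm_eq_of_mem_sphere x, Real.norm_of_nonneg hc.le, mul_one]
  rw [hext, dif_neg (smul_ne_zero hc.ne' hx)]
  simp only [hn]
  congr 3
  exact Subtype.ext (by simp [smul_smul, inv_mul_cancel₀ hc.ne'])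

theorem exists_polar [Nontrivial E] (z : E) : ∃ x : sphere (0 : E) 1, z = ‖z‖ • (x : E) := by
  rcases eq_or_ne z 0 with rfl | hz
  · obtain ⟨x, hx⟩ := (NormedSpace.sphere_nonempty (x := (0 : E)) (r := 1)).2 zero_le_one
    exact ⟨⟨x, hx⟩, by simp⟩
  exact ⟨⟨‖z‖⁻¹ • z, by simp [norm_smul, hz]⟩, by
    simp [smul_smul, mul_inv_cancel₀ (norm_ne_zero_iff.2 hz)]⟩

theorem exists_sphIso [Nontrivial E] (hf : Isometry f) (hs : Function.Surjective f) :
    ∃ I : SphIso E F, ∀ x : sphere (0 : E) 1, I.T x = f x := by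
  have hnorm : ∀ z, ‖hext f z‖ = ‖z‖ := fun z => by
    obtain ⟨x, hx⟩ := exists_polar z
    conv_lhs => rw [hx, hext_polar f x (norm_nonneg z)]
    rw [norm_smul, norm_eq_of_mem_sphere (f x), norm_norm, mul_one]
  have hsmul : ∀ (c : ℝ) z, 0 ≤ c → hext f (c • z) = c • hext f z := fun c z hc => by
    obtain ⟨x, hx⟩ := exists_polar z
    rw [hx, smul_smul, hext_polar f x (by positivity), hext_polar f x (norm_nonneg z),
      smul_smul]
  have hdist : ∀ a b, ‖a‖ = ‖b‖ → ‖hext f a - hext f b‖ = ‖a - b‖ := fun a b h => by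
    obtain ⟨x, hx⟩ := exists_polar a
    obtain ⟨y, hy⟩ := exists_polar b
    rw [hx, hy, hext_polar f x (norm_nonneg a), hext_polar f y (norm_nonneg b),
      h, ← smul_sub, ← smul_sub, norm_smul, norm_smul]
    congr 1
    have := hf.dist_eq x y
    rw [Subtype.dist_eq, Subtype.dist_eq, dist_eq_norm, dist_eq_norm] at this
    exact this
  have hbij : Function.Bijective (hext f) := by
    constructor
    · intro z w h
      have hn : ‖z‖ = ‖w‖ := by rw [← hnorm z, h, hnorm w]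
      have := hdist z w hn
      rw [h, sub_self, norm_zero] at this
      exact sub_eq_zero.1 (norm_eq_zero.1 this.symm)
    · intro w
      rcases eq_or_ne w 0 with rfl | hw
      · exact ⟨0, by simp [hext]⟩
      obtain ⟨x, hx⟩ := hs ⟨‖w‖⁻¹ • w, by simp [norm_smul, hw]⟩
      refine ⟨‖w‖ • (x : E), ?_⟩
      rw [hext_polar f x (norm_nonneg w), hx]
      simp [smul_smul, mul_inv_cancel₀ (norm_ne_zero_iff.2 hw)]
  refine ⟨{ T := hext f
            S := Function.surjInv hbij.2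
            left_inv := Function.leftInverse_surjInv hbij
            right_inv := Function.rightInverse_surjInv hbij.2
            norm_T := hnorm
            smul_T := hsmul
            dist_T := hdist }, fun x => ?_⟩
  simpa using hext_polar f x zero_le_one

end Make

section Ball

/-- A self map of the closed unit ball that is nonexpansive and fixes the sphere is the
identity. -/
theorem eq_self_of_nonexpansive {r : E → E}
    (hr : ∀ x y : E, ‖x‖ ≤ 1 → ‖y‖ ≤ 1 → ‖r x - r y‖ ≤ ‖x - y‖)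
    (hfix : ∀ x : E, ‖x‖ = 1 → r x = x) {x : E} (hx : ‖x‖ ≤ 1) : r x = x := by
  by_contra hne
  set d := x - r x with hd
  have hd0 : d ≠ 0 := sub_ne_zero.2 (Ne.symm hne)
  obtain ⟨φ, hφ, hφd⟩ := exists_dual_vector'' ℝ d
  have hn : 0 < ‖d‖ := norm_pos_iff.2 hd0
  set v := ‖d‖⁻¹ • d with hv
  have hvn : ‖v‖ = 1 := by simp [hv, norm_smul, hd0]
  have hφv : φ v = 1 := by
    simp only [hv, map_smul, hφd, smul_eq_mul]
    simp [hd0]
  -- a point of the sphere on the ray from `x` in the direction `v`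
  obtain ⟨s, hs0, hs⟩ : ∃ s : ℝ, 0 ≤ s ∧ ‖x + s • v‖ = 1 := by
    have hc : Continuous fun s : ℝ => ‖x + s • v‖ := by fun_prop
    have h3 : (1 : ℝ) ∈ Icc ‖x + (0 : ℝ) • v‖ ‖x + (3 : ℝ) • v‖ := by
      constructor
      · simpa using hx
      · have := norm_sub_le_norm_add ((3 : ℝ) • v) x
        rw [norm_smul, hvn, Real.norm_of_nonneg (by norm_num : (0:ℝ) ≤ 3), add_comm] at this
        linarith
    obtain ⟨s, hs, hs1⟩ := intermediate_value_Icc (by norm_num : (0:ℝ) ≤ 3) hc.continuousOn h3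
    exact ⟨s, hs.1, hs1⟩
  set q := x + s • v with hq
  have h1 : ‖q - r x‖ ≤ s := by
    have := hr q x hs.le hx
    rw [hfix q hs] at this
    simpa [hq, norm_smul, hvn, abs_of_nonneg hs0] using this
  have h2 : φ (q - r x) ≤ ‖q - r x‖ :=
    (le_abs_self _).trans (by
      simpa using (φ.le_opNorm (q - r x)).trans (mul_le_of_le_one_left (norm_nonneg _) hφ))
  have h3 : φ (q - r x) = ‖d‖ + s := by
    have : q - r x = d + s • v := by rw [hd, hq]; abel
    rw [this, map_add, hφd, map_smul, hφv, smul_eq_mul, mul_one]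
    simp
  linarith

/-- The shrinking sets around a midpoint are symmetric, small and contain the midpoint. -/
theorem shrink_sets {d : ℝ} (p q : E)
    (K : ℕ → Set E) (hpq : ‖p - q‖ = 2 * d) (h0 : K 0 = {z | ‖z - p‖ = d ∧ ‖z - q‖ = d})
    (hsucc : ∀ i, K (i + 1) = {z | z ∈ K i ∧ ∀ w ∈ K i, ‖z - w‖ ≤ d * (1 / 2 : ℝ) ^ i})
    (k : ℕ) : (1 / 2 : ℝ) • (p + q) ∈ K k ∧ (∀ z ∈ K k, p + q - z ∈ K k) ∧
      ∀ z ∈ K k, ∀ w ∈ K k, ‖z - w‖ ≤ 2 * d * (1 / 2 : ℝ) ^ k := by
  induction k with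
  | zero =>
    rw [h0]
    refine ⟨⟨?_, ?_⟩, ?_, ?_⟩
    · have : (1 / 2 : ℝ) • (p + q) - p = (-1 / 2 : ℝ) • (p - q) := by module
      rw [this, norm_smul, hpq, Real.norm_eq_abs]; norm_num <;> ring
    · have : (1 / 2 : ℝ) • (p + q) - q = (1 / 2 : ℝ) • (p - q) := by module
      rw [this, norm_smul, hpq, Real.norm_eq_abs]; norm_num <;> ring
    · rintro z ⟨h1, h2⟩
      constructor
      · rw [show p + q - z - p = -(z - q) by abel, norm_neg]; exact h2
      · rw [show p + q - z - q = -(z - p) by abel, norm_neg]; exact h1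
    · rintro z ⟨h1, -⟩ w ⟨h2, -⟩
      have : z - w = (z - p) - (w - p) := by abel
      rw [this, pow_zero, mul_one]
      linarith [norm_sub_le (z - p) (w - p)]
  | succ i ih =>
    obtain ⟨hm, hsy, hdm⟩ := ih
    rw [hsucc]
    refine ⟨⟨hm, fun w hw => ?_⟩, ?_, ?_⟩
    · have := hdm _ (hsy w hw) w hw
      have e : p + q - w - w = (2 : ℝ) • ((1 / 2 : ℝ) • (p + q) - w) := by module
      rw [e, norm_smul, Real.norm_of_nonneg zero_le_two] at this
      linarith
    · rintro z ⟨hz, hz'⟩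
      refine ⟨hsy z hz, fun w hw => ?_⟩
      have := hz' _ (hsy w hw)
      rw [show p + q - z - w = -(z - (p + q - w)) by abel, norm_neg]
      exact this
    · rintro z ⟨-, hz⟩ w ⟨hw, -⟩
      have := hz w hw
      rw [pow_succ]
      linarith

/-- An isometric bijection between closed unit balls fixing the origin is linear. -/
theorem exists_linear_of_ball_isometry {g : E → F} {h : F → E}
    (hg : ∀ x, ‖x‖ ≤ 1 → ‖g x‖ = ‖x‖) (hh : ∀ y, ‖y‖ ≤ 1 → ‖h y‖ = ‖y‖)
    (hgh : ∀ y, ‖y‖ ≤ 1 → g (h y) = y) (hhg : ∀ x, ‖x‖ ≤ 1 → h (g x) = x)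
    (hiso : ∀ a b, ‖a‖ ≤ 1 → ‖b‖ ≤ 1 → ‖g a - g b‖ = ‖a - b‖) :
    ∃ L : E ≃ₗᵢ[ℝ] F, ∀ x, ‖x‖ ≤ 1 → L x = g x := by
  -- midpoints
  have hmid : ∀ a b : E, ‖b‖ ≤ 1 → ‖a‖ + ‖a - b‖ / 2 ≤ 1 →
      g ((1 / 2 : ℝ) • (a + b)) = (1 / 2 : ℝ) • (g a + g b) := by
    intro a b hb hab
    have ha : ‖a‖ ≤ 1 := by linarith [norm_nonneg (a - b)]
    set d := ‖a - b‖ / 2 with hd
    have hd0 : 0 ≤ d := by positivity
    let KE : ℕ → Set E := fun k => Nat.rec {z | ‖z - a‖ = d ∧ ‖z - b‖ = d}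
      (fun i K => {z | z ∈ K ∧ ∀ w ∈ K, ‖z - w‖ ≤ d * (1 / 2 : ℝ) ^ i}) k
    let KF : ℕ → Set F := fun k => Nat.rec {z | ‖z - g a‖ = d ∧ ‖z - g b‖ = d}
      (fun i K => {z | z ∈ K ∧ ∀ w ∈ K, ‖z - w‖ ≤ d * (1 / 2 : ℝ) ^ i}) k
    have hKE0 : ∀ z ∈ KE 0, ‖z‖ ≤ 1 := fun z hz => by
      have h1 : ‖z - a‖ = d := hz.1
      linarith [norm_le_norm_add_norm_sub' z a, norm_sub_rev a z]
    have hKEsub : ∀ k, ∀ z ∈ KE k, z ∈ KE 0 := by
      intro k
      induction k with
      | zero => exact fun z hz => hz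
      | succ i ih => exact fun z hz => ih z hz.1
    have hKFsub : ∀ k, ∀ z ∈ KF k, z ∈ KF 0 := by
      intro k
      induction k with
      | zero => exact fun z hz => hz
      | succ i ih => exact fun z hz => ih z hz.1
    have hKF0 : ∀ z ∈ KF 0, ‖z‖ ≤ 1 := fun z hz => by
      have h1 : ‖z - g a‖ = d := hz.1
      linarith [norm_le_norm_add_norm_sub' z (g a), norm_sub_rev (g a) z, hg a ha]
    have hiff : ∀ k, ∀ z, ‖z‖ ≤ 1 → (g z ∈ KF k ↔ z ∈ KE k) := by
      intro k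
      induction k with
      | zero =>
        intro z hz
        show (‖g z - g a‖ = d ∧ ‖g z - g b‖ = d) ↔ _
        rw [hiso z a hz ha, hiso z b hz hb]
        rfl
      | succ i ih =>
        intro z hz
        show (g z ∈ KF i ∧ ∀ w ∈ KF i, ‖g z - w‖ ≤ d * (1 / 2 : ℝ) ^ i) ↔
          (z ∈ KE i ∧ ∀ w ∈ KE i, ‖z - w‖ ≤ d * (1 / 2 : ℝ) ^ i)
        refine and_congr (ih z hz) ⟨fun H w hw => ?_, fun H w hw => ?_⟩
        · have hwn := hKE0 w (hKEsub i w hw)
          rw [← hiso z w hz hwn]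
          exact H _ ((ih w hwn).2 hw)
        · have hwn := hKF0 w (hKFsub i w hw)
          have hhw : ‖h w‖ ≤ 1 := by rw [hh w hwn]; exact hwn
          have := H (h w) ((ih (h w) hhw).1 (by rw [hgh w hwn]; exact hw))
          rw [← hiso z (h w) hz hhw, hgh w hwn] at this
          exact this
    have hgab : ‖g a - g b‖ = 2 * d := by rw [hiso a b ha hb]; rw [hd]; ring
    have hE := shrink_sets a b KE (by rw [hd]; ring) rfl fun i => rfl
    have hF := shrink_sets (g a) (g b) KF hgab rfl fun i => rfl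
    have hmn : ‖(1 / 2 : ℝ) • (a + b)‖ ≤ 1 := hKE0 _ (hE 0).1
    have hb' : ∀ k : ℕ, ‖g ((1 / 2 : ℝ) • (a + b)) - (1 / 2 : ℝ) • (g a + g b)‖
        ≤ 2 * d * (1 / 2 : ℝ) ^ k := fun k =>
      (hF k).2.2 _ ((hiff k _ hmn).2 (hE k).1) _ (hF k).1
    have hlim := (tendsto_pow_atTop_nhds_zero_of_lt_one (by norm_num : (0:ℝ) ≤ 1 / 2)
      (by norm_num)).const_mul (2 * d)
    rw [mul_zero] at hlim
    exact sub_eq_zero.1 (norm_le_zero_iff.1 (ge_of_tendsto' hlim hb'))
  have hg0 : g 0 = 0 := norm_eq_zero.1 (by rw [hg 0 (by simp), norm_zero])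
  have hhalf : ∀ (k : ℕ) x, ‖x‖ ≤ 1 → g ((1 / 2 : ℝ) ^ k • x) = (1 / 2 : ℝ) ^ k • g x := by
    intro k
    induction k with
    | zero => simp
    | succ i ih =>
      intro x hx
      have hx' : ‖(1 / 2 : ℝ) ^ i • x‖ ≤ 1 := by
        rw [norm_smul, Real.norm_of_nonneg (by positivity)]
        exact mul_le_one₀ (pow_le_one₀ (by norm_num) (by norm_num)) (norm_nonneg _) hx
      have := hmid 0 _ hx' (by rw [norm_zero, zero_sub, norm_neg]; linarith [norm_nonneg ((1 / 2 : ℝ) ^ i • x)])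
      rw [zero_add, hg0, zero_add, ih x hx, smul_smul, smul_smul, ← pow_succ'] at this
      exact this
  have hex : ∀ x : E, ∃ k : ℕ, ‖(1 / 2 : ℝ) ^ k • x‖ ≤ 1 / 2 := by
    intro x
    obtain ⟨k, hk⟩ := exists_pow_lt_of_lt_one
      (show (0 : ℝ) < 1 / (2 * (‖x‖ + 1)) by positivity) (by norm_num : (1 / 2 : ℝ) < 1)
    refine ⟨k, ?_⟩
    rw [norm_smul, Real.norm_of_nonneg (by positivity)]
    calc (1 / 2 : ℝ) ^ k * ‖x‖ ≤ (1 / (2 * (‖x‖ + 1))) * ‖x‖ :=
          mul_le_mul_of_nonneg_right hk.le (norm_nonneg _)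
      _ ≤ 1 / 2 := by
          rw [div_mul_eq_mul_div, one_mul, div_le_iff₀ (by positivity)]
          linarith
  choose K hK using hex
  let L0 : E → F := fun x => (2 : ℝ) ^ K x • g ((1 / 2 : ℝ) ^ K x • x)
  have hL0 : ∀ (k : ℕ) x, ‖(1 / 2 : ℝ) ^ k • x‖ ≤ 1 →
      L0 x = (2 : ℝ) ^ k • g ((1 / 2 : ℝ) ^ k • x) := by
    intro k x hx
    have e : ∀ i j : ℕ, ‖(1 / 2 : ℝ) ^ i • x‖ ≤ 1 → i ≤ j →
        (2 : ℝ) ^ j • g ((1 / 2 : ℝ) ^ j • x) = (2 : ℝ) ^ i • g ((1 / 2 : ℝ) ^ i • x) := by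
      intro i j hi hij
      obtain ⟨l, rfl⟩ := Nat.exists_eq_add_of_le hij
      rw [add_comm i l, pow_add, pow_add, mul_smul ((1 / 2 : ℝ) ^ l), hhalf l _ hi, smul_smul]
      congr 1
      rw [show (2:ℝ) ^ l * 2 ^ i * (1 / 2) ^ l = ((2:ℝ) * (1 / 2)) ^ l * 2 ^ i by
        rw [mul_pow]; ring]
      norm_num
    have h1 : ‖(1 / 2 : ℝ) ^ K x • x‖ ≤ 1 := (hK x).trans (by norm_num)
    rcases le_total k (K x) with h | h
    · exact e k (K x) hx h
    · exact (e (K x) k h1 h).symm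
  have hadd : ∀ x y, L0 (x + y) = L0 x + L0 y := by
    intro x y
    set k := K x + K y + 1
    have hsmall : ∀ (z : E) (i : ℕ), i ≤ k → ‖(1 / 2 : ℝ) ^ i • z‖ ≤ 1 / 2 →
        ‖(1 / 2 : ℝ) ^ k • z‖ ≤ 1 / 2 := by
      intro z i hi hz
      rw [norm_smul, Real.norm_of_nonneg (by positivity)] at hz ⊢
      exact le_trans (mul_le_mul_of_nonneg_right
        (pow_le_pow_of_le_one (by norm_num) (by norm_num) hi) (norm_nonneg _)) hz
    have hx : ‖(1 / 2 : ℝ) ^ k • x‖ ≤ 1 / 2 := hsmall x (K x) (by omega) (hK x)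
    have hy : ‖(1 / 2 : ℝ) ^ k • y‖ ≤ 1 / 2 := hsmall y (K y) (by omega) (hK y)
    set a := (1 / 2 : ℝ) ^ k • x
    set b := (1 / 2 : ℝ) ^ k • y
    have hm := hmid a b (by linarith) (by linarith [norm_sub_le a b])
    have hsum : (1 / 2 : ℝ) • (a + b) = (1 / 2 : ℝ) ^ (k + 1) • (x + y) := by
      simp only [a, b]; rw [pow_succ]; module
    have hxy : ‖(1 / 2 : ℝ) ^ (k + 1) • (x + y)‖ ≤ 1 := by
      rw [← hsum, norm_smul]
      norm_num
      linarith [norm_add_le a b]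
    rw [hL0 (k + 1) _ hxy, ← hsum, hm, hL0 k x (by linarith), hL0 k y (by linarith),
      smul_smul, pow_succ]
    rw [show (2 : ℝ) ^ k * 2 * (1 / 2) = 2 ^ k by ring, smul_add]
  have hnorm : ∀ x, ‖L0 x‖ = ‖x‖ := fun x => by
    simp only [L0, norm_smul, hg _ ((hK x).trans (by norm_num)), ← mul_assoc]
    rw [← norm_mul, ← mul_pow]
    norm_num
  let A : E →+ F := AddMonoidHom.mk' L0 hadd
  have hAc : Continuous A :=
    (AddMonoidHomClass.isometry_of_norm A hnorm).continuous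
  let Ll : E →L[ℝ] F := A.toRealLinearMap hAc
  have hL : ∀ x, ‖x‖ ≤ 1 → L0 x = g x := fun x hx => by
    rw [hL0 0 x (by simpa using hx)]; simp
  have hsurj : Function.Surjective Ll := by
    intro y
    rcases eq_or_ne y 0 with rfl | hy
    · exact ⟨0, map_zero _⟩
    have hn : ‖(‖y‖⁻¹ • y)‖ = 1 := by simp [norm_smul, hy]
    refine ⟨‖y‖ • h (‖y‖⁻¹ • y), ?_⟩
    rw [map_smul]
    show ‖y‖ • L0 (h (‖y‖⁻¹ • y)) = y
    rw [hL _ (by rw [hh _ hn.le, hn]), hgh _ hn.le, smul_smul,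
      mul_inv_cancel₀ (norm_ne_zero_iff.2 hy), one_smul]
  let li : E →ₗᵢ[ℝ] F := ⟨Ll.toLinearMap, fun x => hnorm x⟩
  exact ⟨LinearIsometryEquiv.ofSurjective li hsurj, fun x hx => hL x hx⟩

end Ball

end Vale.Agent.P084.Fin
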