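import Vale.Agent.P084.FinAnalysis

/-!
Frames of maximal volume in the unit ball of the dual, refined lexicographically, and their
behaviour under extensions of sphere isometries.
-/

noncomputable section

namespace Vale.Agent.P084.Fin

open Metric Set Module MeasureTheory Filter
open scoped NNReal ENNReal Topology

variable {E F : Type*} [NormedAddCommGroup E] [NormedSpace ℝ E]
  [NormedAddCommGroup F] [NormedSpace ℝ F] {n : ℕ}

/-- Volume of the image of the unit ball. -/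
def bvol (A : E →L[ℝ] (Fin n → ℝ)) : ℝ := volume.real (A '' closedBall (0 : E) 1)

/-- A dense sequence of test vectors. -/
def probe (n k : ℕ) : Fin n → ℝ := TopologicalSpace.denseSeq (Fin n → ℝ) k

/-- Contractions of maximal volume, refined lexicographically. -/
def Frames (E : Type*) [NormedAddCommGroup E] [NormedSpace ℝ E] (n : ℕ) :
    ℕ → Set (E →L[ℝ] (Fin n → ℝ))
  | 0 => {A | ‖A‖ ≤ 1 ∧ ∀ A' : E →L[ℝ] (Fin n → ℝ), ‖A'‖ ≤ 1 → bvol A' ≤ bvol A}
  | k + 1 => {A | A ∈ Frames E n k ∧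
      ∀ A' ∈ Frames E n k, ‖A'.inverse (probe n k)‖ ≤ ‖A.inverse (probe n k)‖}

theorem frames_zero_of_mem : ∀ {k : ℕ} {A : E →L[ℝ] (Fin n → ℝ)},
    A ∈ Frames E n k → A ∈ Frames E n 0
  | 0, _, h => h
  | _ + 1, _, h => frames_zero_of_mem h.1

theorem norm_le_one_of_mem {k : ℕ} {A : E →L[ℝ] (Fin n → ℝ)} (h : A ∈ Frames E n k) : ‖A‖ ≤ 1 :=
  (frames_zero_of_mem h).1

/-- The ball in coordinates. -/
def cball (e : E ≃L[ℝ] (Fin n → ℝ)) : Set (Fin n → ℝ) := e '' closedBall (0 : E) 1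

theorem isCompact_cball [FiniteDimensional ℝ E] (e : E ≃L[ℝ] (Fin n → ℝ)) :
    IsCompact (cball e) :=
  (isCompact_closedBall _ _).image e.continuous

theorem cball_pos [FiniteDimensional ℝ E] (e : E ≃L[ℝ] (Fin n → ℝ)) :
    0 < volume.real (cball e) := by
  refine ENNReal.toReal_pos ?_ (isCompact_cball e).measure_lt_top.ne
  refine (lt_of_lt_of_le ?_ (measure_mono (image_mono ball_subset_closedBall))).ne'
  exact (e.toHomeomorph.isOpenMap _ isOpen_ball).measure_pos volume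
    ((nonempty_ball.2 one_pos).image _)

theorem bvol_eq (e : E ≃L[ℝ] (Fin n → ℝ)) (A : E →L[ℝ] (Fin n → ℝ)) :
    bvol A = |(A.comp (e.symm : (Fin n → ℝ) →L[ℝ] E)).det| * volume.real (cball e) := by
  have h : A '' closedBall (0 : E) 1 =
      (A.comp (e.symm : (Fin n → ℝ) →L[ℝ] E)) '' cball e := by
    rw [cball, ← image_comp]
    refine image_congr fun x _ => ?_
    simp
  rw [bvol, h, measureReal_def, Measure.addHaar_image_continuousLinearMap, ENNReal.toReal_mul,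
    ENNReal.toReal_ofReal (abs_nonneg _)]
  rfl

variable [FiniteDimensional ℝ E]

theorem nonempty_equiv (hn : finrank ℝ E = n) : Nonempty (E ≃L[ℝ] (Fin n → ℝ)) :=
  ⟨ContinuousLinearEquiv.ofFinrankEq (by simpa using hn)⟩

theorem continuous_bvol (e : E ≃L[ℝ] (Fin n → ℝ)) :
    Continuous (bvol : (E →L[ℝ] (Fin n → ℝ)) → ℝ) := by
  rw [funext (bvol_eq e)]
  exact (continuous_abs.comp (ContinuousLinearMap.continuous_det.comp (by fun_prop))).mul
    continuous_const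

theorem frames_bvol_pos (e : E ≃L[ℝ] (Fin n → ℝ)) {k : ℕ} {A : E →L[ℝ] (Fin n → ℝ)}
    (h : A ∈ Frames E n k) : 0 < bvol A := by
  set c := (‖(e : E →L[ℝ] (Fin n → ℝ))‖ + 1)⁻¹ with hc
  have hc0 : 0 < c := by positivity
  have hA' : ‖c • (e : E →L[ℝ] (Fin n → ℝ))‖ ≤ 1 := by
    rw [norm_smul, Real.norm_of_nonneg hc0.le, hc, inv_mul_le_iff₀ (by positivity)]
    linarith
  refine lt_of_lt_of_le ?_ ((frames_zero_of_mem h).2 _ hA')
  rw [bvol_eq e]
  refine mul_pos ?_ (cball_pos e)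
  have : (c • (e : E →L[ℝ] (Fin n → ℝ))).comp (e.symm : (Fin n → ℝ) →L[ℝ] E)
      = c • ContinuousLinearMap.id ℝ (Fin n → ℝ) := by
    ext v : 1
    simp
  rw [this]
  simp [ContinuousLinearMap.det, LinearMap.det_smul, hc0.ne']

theorem frames_isInvertible (hn : finrank ℝ E = n) {k : ℕ} {A : E →L[ℝ] (Fin n → ℝ)}
    (h : A ∈ Frames E n k) : A.IsInvertible := by
  obtain ⟨e⟩ := nonempty_equiv hn
  have hne : (A.comp (e.symm : (Fin n → ℝ) →L[ℝ] E)).det ≠ 0 := fun h0 => by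
    have := frames_bvol_pos e h
    rw [bvol_eq e, h0] at this
    simp at this
  refine ⟨e.trans ((A.comp (e.symm : (Fin n → ℝ) →L[ℝ] E)).toContinuousLinearEquivOfDetNeZero hne),
    ?_⟩
  ext x : 1
  simp

theorem continuousAt_inverse_apply {A : E →L[ℝ] (Fin n → ℝ)} (hA : A.IsInvertible)
    (a : Fin n → ℝ) : ContinuousAt (fun B : E →L[ℝ] (Fin n → ℝ) => ‖B.inverse a‖) A := by
  haveI : CompleteSpace E := FiniteDimensional.complete ℝ E
  exact ((hA.contDiffAt_map_inverse (n := 0)).continuousAt.clm_apply continuousAt_const).norm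

theorem frames_compact (hn : finrank ℝ E = n) : ∀ k : ℕ,
    IsCompact (Frames E n k) ∧ (Frames E n k).Nonempty := by
  obtain ⟨e⟩ := nonempty_equiv hn
  have hball : IsCompact (closedBall (0 : E →L[ℝ] (Fin n → ℝ)) 1) := isCompact_closedBall _ _
  intro k
  induction k with
  | zero =>
    obtain ⟨A, hA, hmax⟩ := hball.exists_isMaxOn ⟨0, by simp⟩ (continuous_bvol e).continuousOn
    have heq : Frames E n 0 = closedBall 0 1 ∩ {B | bvol A ≤ bvol B} := by
      ext B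
      simp only [Frames, mem_setOf_eq, mem_inter_iff, mem_closedBall_zero_iff]
      exact ⟨fun hB => ⟨hB.1, hB.2 A (by simpa using hA)⟩,
        fun hB => ⟨hB.1, fun A' hA' => le_trans (hmax (by simpa using hA')) hB.2⟩⟩
    rw [heq]
    exact ⟨hball.inter_right (isClosed_le continuous_const (continuous_bvol e)),
      ⟨A, hA, show bvol A ≤ bvol A from le_rfl⟩⟩
  | succ i ih =>
    set f := fun B : E →L[ℝ] (Fin n → ℝ) => ‖B.inverse (probe n i)‖
    have hf : ContinuousOn f (Frames E n i) := fun B hB =>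
      (continuousAt_inverse_apply (frames_isInvertible hn hB) _).continuousWithinAt
    obtain ⟨A, hA, hmax⟩ := ih.1.exists_isMaxOn ih.2 hf
    have heq : Frames E n (i + 1) = Frames E n i ∩ f ⁻¹' Ici (f A) := by
      ext B
      exact ⟨fun hB => ⟨hB.1, hB.2 A hA⟩, fun hB => ⟨hB.1, fun A' hA' => le_trans (hmax hA') hB.2⟩⟩
    rw [heq]
    exact ⟨ih.1.of_isClosed_subset (hf.preimage_isClosed_of_isClosed ih.1.isClosed isClosed_Ici)
      inter_subset_left, ⟨A, hA, show f A ≤ f A from le_rfl⟩⟩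

theorem frames_inter_nonempty (hn : finrank ℝ E = n) :
    ∃ A : E →L[ℝ] (Fin n → ℝ), ∀ k, A ∈ Frames E n k := by
  have h := IsCompact.nonempty_iInter_of_sequence_nonempty_isCompact_isClosed
    (Frames E n) (fun k A hA => hA.1) (fun k => (frames_compact hn k).2)
    (frames_compact hn 0).1 fun k => (frames_compact hn k).1.isClosed
  obtain ⟨A, hA⟩ := h
  exact ⟨A, fun k => mem_iInter.1 hA k⟩

/-- A nonexpansive extension to coordinates. -/
def IsExt (I : SphIso E F) (Ψ : F →L[ℝ] (Fin n → ℝ)) (G : E → (Fin n → ℝ)) : Prop :=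
  LipschitzWith 1 G ∧ ∀ x : E, ‖x‖ = 1 → G x = Ψ (I.T x)

omit [FiniteDimensional ℝ E] in
theorem exists_isExt (I : SphIso E F) {Ψ : F →L[ℝ] (Fin n → ℝ)} (hΨ : ‖Ψ‖ ≤ 1) :
    ∃ G, IsExt I Ψ G := by
  have h : LipschitzOnWith 1 (fun x => Ψ (I.T x)) {x : E | ‖x‖ = 1} := by
    refine LipschitzOnWith.of_dist_le_mul fun x hx y hy => ?_
    simp only [dist_eq_norm, NNReal.coe_one, one_mul, ← map_sub]
    rw [← I.dist_T x y (by rw [hx, hy])]
    exact (Ψ.le_opNorm _).trans (mul_le_of_le_one_left (norm_nonneg _) hΨ)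
  obtain ⟨G, hG, hGe⟩ := h.extend_pi
  exact ⟨G, hG, fun x hx => (hGe hx).symm⟩

theorem det_add_smulRight (Φ : (Fin n → ℝ) →L[ℝ] (Fin n → ℝ)) (φ : StrongDual ℝ (Fin n → ℝ))
    (w : Fin n → ℝ) : (Φ + φ.smulRight (Φ w)).det = Φ.det * (1 + φ w) := by
  have h : ((Φ + φ.smulRight (Φ w) : (Fin n → ℝ) →L[ℝ] (Fin n → ℝ)) :
      (Fin n → ℝ) →ₗ[ℝ] (Fin n → ℝ)) =
      (Φ : (Fin n → ℝ) →ₗ[ℝ] (Fin n → ℝ)).comp
        (LinearMap.transvection (φ : (Fin n → ℝ) →ₗ[ℝ] ℝ) w) := by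
    refine LinearMap.ext fun x => ?_
    simp [LinearMap.transvection.apply]
  rw [ContinuousLinearMap.det, h, LinearMap.det_comp, LinearMap.transvection.det]
  rfl

theorem bvol_add_smulRight (e : E ≃L[ℝ] (Fin n → ℝ)) {A : E →L[ℝ] (Fin n → ℝ)}
    (hA : A.IsInvertible) (φ : StrongDual ℝ E) (a : Fin n → ℝ) :
    |((A + φ.smulRight a).comp (e.symm : (Fin n → ℝ) →L[ℝ] E)).det| =
      |(A.comp (e.symm : (Fin n → ℝ) →L[ℝ] E)).det| * |1 + φ (A.inverse a)| := by
  set Φ := A.comp (e.symm : (Fin n → ℝ) →L[ℝ] E) with hΦ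
  set φ' : StrongDual ℝ (Fin n → ℝ) := φ.comp (e.symm : (Fin n → ℝ) →L[ℝ] E) with hφ'
  have h : (A + φ.smulRight a).comp (e.symm : (Fin n → ℝ) →L[ℝ] E)
      = Φ + φ'.smulRight (Φ (e (A.inverse a))) := by
    ext x : 1
    simp [hΦ, hφ', hA.self_apply_inverse]
  rw [h, det_add_smulRight, abs_mul]
  simp [hφ']

/-- Volume comparison for any Lipschitz map with the boundary values of `L ∘ T`. -/
theorem bvol_le_integral [Nontrivial E] (I : SphIso E F) (e : E ≃L[ℝ] (Fin n → ℝ))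
    {L : F →L[ℝ] (Fin n → ℝ)} (hL : L.IsInvertible) {G : E → (Fin n → ℝ)} {K : ℝ≥0}
    (hG : LipschitzWith K G) (hGS : ∀ x : E, ‖x‖ = 1 → G x = L (I.T x)) :
    IntegrableOn (fun z => |((fderiv ℝ G (e.symm z)).comp
        (e.symm : (Fin n → ℝ) →L[ℝ] E)).det|) (cball e) ∧
      bvol L ≤ ∫ z in cball e, |((fderiv ℝ G (e.symm z)).comp
        (e.symm : (Fin n → ℝ) →L[ℝ] E)).det| := by
  obtain ⟨L, rfl⟩ := hL
  have hg : LipschitzWith (K * ‖(e.symm : (Fin n → ℝ) →L[ℝ] E)‖₊) (G ∘ e.symm) :=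
    hG.comp e.symm.lipschitz
  obtain ⟨h1, h2⟩ := image_le_integral hg (isCompact_cball e).measurableSet
    (isCompact_cball e).measure_lt_top.ne
  simp only [e.symm.comp_right_fderiv] at h1 h2
  refine ⟨h1, le_trans ?_ h2⟩
  refine measureReal_mono ?_ ?_
  · have := subset_image I L hG.continuous hGS
    rw [cball, ← image_comp]
    simpa [Function.comp_def] using this
  · exact ((isCompact_cball e).image hg.continuous).measure_lt_top.ne

/-- Every extension of a frame has derivatives among the frames. -/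
def Good (n : ℕ) (I : SphIso E F) (k : ℕ) : Prop :=
  ∀ Ψ ∈ Frames F n k, ∀ G, IsExt I Ψ G → ∀ e : E ≃L[ℝ] (Fin n → ℝ),
    ∀ᵐ z ∂(volume.restrict (cball e)), fderiv ℝ G (e.symm z) ∈ Frames E n k

variable [FiniteDimensional ℝ F] [Nontrivial E] [Nontrivial F]
  (I : SphIso E F) (hnE : finrank ℝ E = n) (hnF : finrank ℝ F = n)
include I hnE hnF

theorem base_le {Ψ : F →L[ℝ] (Fin n → ℝ)} (hΨ : Ψ ∈ Frames F n 0)
    {A₀ : E →L[ℝ] (Fin n → ℝ)} (hA₀ : A₀ ∈ Frames E n 0) {G : E → (Fin n → ℝ)}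
    (hG : IsExt I Ψ G) (e : E ≃L[ℝ] (Fin n → ℝ)) :
    bvol Ψ ≤ bvol A₀ ∧ (bvol A₀ ≤ bvol Ψ →
      ∀ᵐ z ∂(volume.restrict (cball e)), fderiv ℝ G (e.symm z) ∈ Frames E n 0) := by
  obtain ⟨hint, hle⟩ := bvol_le_integral I e (frames_isInvertible hnF hΨ) hG.1 hG.2
  set V := volume.real (cball e) with hV
  have hV0 : 0 < V := cball_pos e
  haveI : IsFiniteMeasure (volume.restrict (cball e)) :=
    isFiniteMeasure_restrict.2 (isCompact_cball e).measure_lt_top.ne
  have hn1 : ∀ z, ‖fderiv ℝ G (e.symm z)‖ ≤ 1 := fun z => by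
    simpa using norm_fderiv_le_of_lipschitz ℝ (x₀ := e.symm z) hG.1
  have hpt : ∀ z, |((fderiv ℝ G (e.symm z)).comp (e.symm : (Fin n → ℝ) →L[ℝ] E)).det|
      ≤ bvol A₀ / V := fun z => by
    rw [le_div_iff₀ hV0, hV, ← bvol_eq]
    exact hA₀.2 _ (hn1 z)
  have hconst : ∫ _ in cball e, bvol A₀ / V = bvol A₀ := by
    rw [setIntegral_const, smul_eq_mul, ← hV, mul_div_cancel₀ _ hV0.ne']
  have hle' := setIntegral_mono hint (integrableOn_const (hs := (isCompact_cball e).measure_lt_top.ne)) hpt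
  rw [hconst] at hle'
  refine ⟨hle.trans hle', fun hge => ?_⟩
  have hzero : ∫ z in cball e, (bvol A₀ / V -
      |((fderiv ℝ G (e.symm z)).comp (e.symm : (Fin n → ℝ) →L[ℝ] E)).det|) = 0 := by
    rw [integral_sub (integrable_const _) hint, hconst]
    linarith
  have hae := (integral_eq_zero_iff_of_nonneg (fun z => sub_nonneg.2 (hpt z))
    ((integrable_const _).sub hint)).1 hzero
  filter_upwards [hae] with z hz
  refine ⟨hn1 z, fun A' hA' => le_trans (hA₀.2 A' hA') ?_⟩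
  have hz' : bvol A₀ / V =
      |((fderiv ℝ G (e.symm z)).comp (e.symm : (Fin n → ℝ) →L[ℝ] E)).det| := sub_eq_zero.1 hz
  rw [bvol_eq e (fderiv ℝ G (e.symm z)), ← hV, ← hz', div_mul_cancel₀ _ hV0.ne']

theorem bvol_frames_eq {Ψ : F →L[ℝ] (Fin n → ℝ)} (hΨ : Ψ ∈ Frames F n 0)
    {A₀ : E →L[ℝ] (Fin n → ℝ)} (hA₀ : A₀ ∈ Frames E n 0) : bvol Ψ = bvol A₀ := by
  obtain ⟨e⟩ := nonempty_equiv hnE
  obtain ⟨e'⟩ := nonempty_equiv hnF
  obtain ⟨G, hG⟩ := exists_isExt I hΨ.1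
  obtain ⟨G', hG'⟩ := exists_isExt I.symm hA₀.1
  exact le_antisymm (base_le I hnE hnF hΨ hA₀ hG e).1
    (base_le I.symm hnF hnE hA₀ hΨ hG' e').1

theorem good_zero : Good n I 0 := by
  intro Ψ hΨ G hG e
  obtain ⟨A₀, hA₀⟩ := (frames_compact hnE 0).2
  exact (base_le I hnE hnF hΨ hA₀ hG e).2 (bvol_frames_eq I hnE hnF hΨ hA₀).ge

theorem inverse_bound {k : ℕ} (hgood : Good n I k) {Ψ : F →L[ℝ] (Fin n → ℝ)}
    (hΨ : Ψ ∈ Frames F n k) {G : E → (Fin n → ℝ)} (hG : IsExt I Ψ G)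
    (e : E ≃L[ℝ] (Fin n → ℝ)) (a : Fin n → ℝ) {c : ℝ}
    (hc : ∀ A ∈ Frames E n k, ‖A.inverse a‖ ≤ c) :
    ‖Ψ.inverse a‖ ≤ c ∧ (c ≤ ‖Ψ.inverse a‖ →
      ∀ᵐ z ∂(volume.restrict (cball e)), c ≤ ‖(fderiv ℝ G (e.symm z)).inverse a‖) := by
  have hΨi := frames_isInvertible hnF hΨ
  obtain ⟨eF⟩ := nonempty_equiv hnF
  set w := Ψ.inverse a with hw
  obtain ⟨ψ, hψ, hψw⟩ := exists_dual_vector'' ℝ w
  have hψw' : ψ w = ‖w‖ := by simpa using hψw
  set L := Ψ + ψ.smulRight a with hL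
  have hLv : bvol L = bvol Ψ * (1 + ‖w‖) := by
    rw [bvol_eq eF L, hL, bvol_add_smulRight eF hΨi, ← hw, hψw',
      abs_of_nonneg (by positivity : (0 : ℝ) ≤ 1 + ‖w‖), bvol_eq eF Ψ]
    ring
  have hΨpos := frames_bvol_pos eF hΨ
  have hLi : L.IsInvertible := by
    have hne : (L.comp (eF.symm : (Fin n → ℝ) →L[ℝ] F)).det ≠ 0 := fun h0 => by
      have : bvol L = 0 := by rw [bvol_eq eF, h0]; simp
      rw [hLv] at this
      have : 0 < bvol Ψ * (1 + ‖w‖) := by positivity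
      linarith
    refine ⟨eF.trans ((L.comp (eF.symm : (Fin n → ℝ) →L[ℝ] F)).toContinuousLinearEquivOfDetNeZero
      hne), ?_⟩
    ext x : 1
    simp
  obtain ⟨H, hH, hHS⟩ : ∃ H : E → ℝ, LipschitzWith 1 H ∧
      ∀ x : E, ‖x‖ = 1 → H x = ψ (I.T x) := by
    have h : LipschitzOnWith 1 (fun x => ψ (I.T x)) {x : E | ‖x‖ = 1} := by
      refine LipschitzOnWith.of_dist_le_mul fun x hx y hy => ?_
      simp only [dist_eq_norm, NNReal.coe_one, one_mul, ← map_sub]
      rw [← I.dist_T x y (by rw [hx, hy])]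
      exact (ψ.le_opNorm _).trans (mul_le_of_le_one_left (norm_nonneg _) hψ)
    obtain ⟨H, hH, hHe⟩ := h.extend_real
    exact ⟨H, hH, fun x hx => (hHe hx).symm⟩
  set G₁ : E → (Fin n → ℝ) := fun x => G x + H x • a with hG₁
  have hG₁L : LipschitzWith (1 + ‖a‖₊) G₁ := by
    have h1 := ((ContinuousLinearMap.id ℝ ℝ).smulRight a).lipschitz.comp hH
    refine (hG.1.add h1).weaken ?_
    simp
  have hG₁S : ∀ x : E, ‖x‖ = 1 → G₁ x = L (I.T x) := fun x hx => by
    simp [hG₁, hL, hG.2 x hx, hHS x hx]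
  obtain ⟨hint, hle⟩ := bvol_le_integral I e hLi hG₁L hG₁S
  set V := volume.real (cball e) with hV
  have hV0 : 0 < V := cball_pos e
  haveI : IsFiniteMeasure (volume.restrict (cball e)) :=
    isFiniteMeasure_restrict.2 (isCompact_cball e).measure_lt_top.ne
  set d := bvol Ψ / V with hd
  have hd0 : 0 < d := div_pos hΨpos hV0
  have hdH : ∀ᵐ z ∂(volume.restrict (cball e)), DifferentiableAt ℝ H (e.symm z) := by
    refine ae_restrict_of_ae ?_
    filter_upwards [(hH.comp e.symm.lipschitz).ae_differentiableAt] with z hz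
    exact e.symm.comp_right_differentiableAt_iff.1 hz
  have hdG : ∀ᵐ z ∂(volume.restrict (cball e)), DifferentiableAt ℝ G (e.symm z) := by
    refine ae_restrict_of_ae ?_
    filter_upwards [(hG.1.comp e.symm.lipschitz).ae_differentiableAt] with z hz
    exact e.symm.comp_right_differentiableAt_iff.1 hz
  have hpt : ∀ᵐ z ∂(volume.restrict (cball e)),
      |((fderiv ℝ G₁ (e.symm z)).comp (e.symm : (Fin n → ℝ) →L[ℝ] E)).det|
        ≤ d * (1 + ‖(fderiv ℝ G (e.symm z)).inverse a‖) ∧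
      ‖(fderiv ℝ G (e.symm z)).inverse a‖ ≤ c := by
    filter_upwards [hgood Ψ hΨ G hG e, hdH, hdG] with z hz hzH hzG
    refine ⟨?_, hc _ hz⟩
    have hD : fderiv ℝ G₁ (e.symm z) =
        fderiv ℝ G (e.symm z) + (fderiv ℝ H (e.symm z)).smulRight a :=
      (hzG.hasFDerivAt.add (hzH.hasFDerivAt.smul_const a)).fderiv
    rw [hD, bvol_add_smulRight e (frames_isInvertible hnE hz)]
    have hdet : |((fderiv ℝ G (e.symm z)).comp (e.symm : (Fin n → ℝ) →L[ℝ] E)).det| = d := by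
      rw [hd, bvol_frames_eq I hnE hnF (frames_zero_of_mem hΨ) (frames_zero_of_mem hz),
        bvol_eq e, hV, mul_div_cancel_right₀ _ hV0.ne']
    rw [hdet]
    refine mul_le_mul_of_nonneg_left ((abs_add_le _ _).trans ?_) hd0.le
    rw [abs_one]
    have hDH : ‖fderiv ℝ H (e.symm z)‖ ≤ 1 := by
      simpa using norm_fderiv_le_of_lipschitz ℝ (x₀ := e.symm z) hH
    set v := (fderiv ℝ G (e.symm z)).inverse a
    have h1 := (fderiv ℝ H (e.symm z)).le_opNorm v
    have h2 := mul_le_mul_of_nonneg_right hDH (norm_nonneg v)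
    rw [Real.norm_eq_abs] at h1
    linarith
  have hpt' : ∀ᵐ z ∂(volume.restrict (cball e)),
      |((fderiv ℝ G₁ (e.symm z)).comp (e.symm : (Fin n → ℝ) →L[ℝ] E)).det| ≤ d * (1 + c) := by
    filter_upwards [hpt] with z hz
    exact hz.1.trans (by gcongr; exact hz.2)
  have hconst : ∫ _ in cball e, d * (1 + c) = bvol Ψ * (1 + c) := by
    rw [setIntegral_const, smul_eq_mul, ← hV, hd]
    field_simp
  have hle' := integral_mono_ae hint (integrable_const _) hpt'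
  rw [hconst] at hle'
  rw [hLv] at hle
  refine ⟨by nlinarith, fun hge => ?_⟩
  have hzero : ∫ z in cball e, (d * (1 + c) -
      |((fderiv ℝ G₁ (e.symm z)).comp (e.symm : (Fin n → ℝ) →L[ℝ] E)).det|) = 0 := by
    rw [integral_sub (integrable_const _) hint, hconst]
    nlinarith
  have hae := (integral_eq_zero_iff_of_nonneg_ae (hpt'.mono fun z hz => sub_nonneg.2 hz)
    ((integrable_const _).sub hint)).1 hzero
  filter_upwards [hae, hpt] with z hz hz'
  have hz'' : d * (1 + c) =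
      |((fderiv ℝ G₁ (e.symm z)).comp (e.symm : (Fin n → ℝ) →L[ℝ] E)).det| := sub_eq_zero.1 hz
  have := hz'.1
  rw [← hz''] at this
  linarith [le_of_mul_le_mul_left this hd0]

theorem inverse_eq {k : ℕ} (hgood : Good n I k) (hgood' : Good n I.symm k)
    {Ψ : F →L[ℝ] (Fin n → ℝ)} (hΨ : Ψ ∈ Frames F n (k + 1))
    {A : E →L[ℝ] (Fin n → ℝ)} (hA : A ∈ Frames E n (k + 1)) :
    ‖Ψ.inverse (probe n k)‖ = ‖A.inverse (probe n k)‖ := by
  obtain ⟨e⟩ := nonempty_equiv hnE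
  obtain ⟨e'⟩ := nonempty_equiv hnF
  obtain ⟨G, hG⟩ := exists_isExt I (norm_le_one_of_mem hΨ)
  obtain ⟨G', hG'⟩ := exists_isExt I.symm (norm_le_one_of_mem hA)
  exact le_antisymm (inverse_bound I hnE hnF hgood hΨ.1 hG e (probe n k) hA.2).1
    (inverse_bound I.symm hnF hnE hgood' hA.1 hG' e' (probe n k) hΨ.2).1

theorem good_succ {k : ℕ} (hgood : Good n I k) (hgood' : Good n I.symm k) :
    Good n I (k + 1) := by
  intro Ψ hΨ G hG e
  obtain ⟨A, hA⟩ := (frames_compact hnE (k + 1)).2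
  have h := (inverse_bound I hnE hnF hgood hΨ.1 hG e (probe n k) hA.2).2
    (inverse_eq I hnE hnF hgood hgood' hΨ hA).ge
  filter_upwards [h, hgood Ψ hΨ.1 G hG e] with z hz hz'
  exact ⟨hz', fun A' hA' => (hA.2 A' hA').trans hz⟩

theorem good_all (k : ℕ) : Good n I k ∧ Good n I.symm k := by
  induction k with
  | zero => exact ⟨good_zero I hnE hnF, good_zero I.symm hnF hnE⟩
  | succ i ih =>
    exact ⟨good_succ I hnE hnF ih.1 ih.2, good_succ I.symm hnF hnE ih.2 ih.1⟩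

end Vale.Agent.P084.Fin
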