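import Vale.Agent.P084.FinFrames

/-!
Every surjective isometry between unit spheres of finite-dimensional normed spaces is linear.
-/

noncomputable section

namespace Vale.Agent.P084.Fin

open Metric Set Module MeasureTheory Filter
open scoped NNReal ENNReal Topology

variable {E F : Type*} [NormedAddCommGroup E] [NormedSpace ℝ E] [FiniteDimensional ℝ E]
  [NormedAddCommGroup F] [NormedSpace ℝ F] [FiniteDimensional ℝ F]
  [Nontrivial E] [Nontrivial F]

/-- A sphere isometry extends to a nonexpansive map of the closed balls. -/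
theorem exists_nonexpansive (I : SphIso E F) :
    ∃ Γ : E → F, (∀ x : E, ‖x‖ = 1 → Γ x = I.T x) ∧
      (∀ x y : E, ‖x‖ ≤ 1 → ‖y‖ ≤ 1 → ‖Γ x - Γ y‖ ≤ ‖x - y‖) ∧
      (∀ x : E, ‖x‖ ≤ 1 → ‖Γ x‖ ≤ ‖x‖) := by
  set n := finrank ℝ E
  have hnE : finrank ℝ E = n := rfl
  have hnF : finrank ℝ F = n := I.finrank_eq
  obtain ⟨Ψ, hΨ⟩ := frames_inter_nonempty (E := F) hnF
  have hΨi := frames_isInvertible hnF (hΨ 0)
  obtain ⟨e⟩ := nonempty_equiv hnE
  obtain ⟨G, hG⟩ := exists_isExt I (norm_le_one_of_mem (hΨ 0))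
  set Γ : E → F := fun x => Ψ.inverse (G x) with hΓ
  have hgood := good_all I hnE hnF
  have hnorm : ∀ A : E →L[ℝ] (Fin n → ℝ), (∀ k, A ∈ Frames E n k) →
      ∀ v, ‖Ψ.inverse (A v)‖ = ‖v‖ := by
    intro A hA v
    have hAi := frames_isInvertible hnE (hA 0)
    have heq : (fun a : Fin n → ℝ => ‖Ψ.inverse a‖) = fun a => ‖A.inverse a‖ := by
      refine (TopologicalSpace.denseRange_denseSeq (Fin n → ℝ)).equalizer
        (by fun_prop) (by fun_prop) (funext fun k => ?_)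
      exact inverse_eq I hnE hnF (hgood k).1 (hgood k).2 (hΨ (k + 1)) (hA (k + 1))
    rw [congrFun heq (A v), hAi.inverse_apply_self]
  have hLip : LipschitzWith (‖Ψ.inverse‖₊ * 1) Γ := Ψ.inverse.lipschitz.comp hG.1
  have hg : LipschitzWith (‖Ψ.inverse‖₊ * 1 * ‖(e.symm : (Fin n → ℝ) →L[ℝ] E)‖₊)
      (Γ ∘ e.symm) := hLip.comp e.symm.lipschitz
  have hball : e '' ball (0 : E) 1 ⊆ cball e := image_mono ball_subset_closedBall
  have hd : ∀ᵐ z ∂(volume : Measure (Fin n → ℝ)), z ∈ e '' ball (0 : E) 1 →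
      ∃ g' : (Fin n → ℝ) →L[ℝ] F, HasFDerivAt (Γ ∘ e.symm) g' z ∧ ∀ v, ‖g' v‖ ≤ ‖e.symm v‖ := by
    have h1 : ∀ᵐ z ∂(volume.restrict (cball e)),
        ∀ k, fderiv ℝ G (e.symm z) ∈ Frames E n k :=
      ae_all_iff.2 fun k => (hgood k).1 Ψ (hΨ k) G hG e
    rw [ae_restrict_iff' (isCompact_cball e).measurableSet] at h1
    filter_upwards [h1, (hG.1.comp e.symm.lipschitz).ae_differentiableAt] with z hz hzd hzm
    have hz' := hz (hball hzm)
    have hdG := (e.symm.comp_right_differentiableAt_iff.1 hzd).hasFDerivAt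
    refine ⟨(Ψ.inverse.comp (fderiv ℝ G (e.symm z))).comp (e.symm : (Fin n → ℝ) →L[ℝ] E),
      (Ψ.inverse.hasFDerivAt.comp (e.symm z) hdG).comp z e.symm.hasFDerivAt, fun v => ?_⟩
    simpa using (hnorm _ hz' (e.symm v)).le
  have hopen : ∀ x ∈ ball (0 : E) 1, ∀ y ∈ ball (0 : E) 1, ‖Γ x - Γ y‖ ≤ ‖x - y‖ := by
    intro x hx y hy
    have := norm_sub_le_of_ae hg (N := fun v => ‖e.symm v‖)
      (e.toHomeomorph.isOpenMap _ isOpen_ball)
      ((convex_ball (0 : E) 1).linear_image (e : E →L[ℝ] (Fin n → ℝ)).toLinearMap) hd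
      (mem_image_of_mem e hy) (mem_image_of_mem e hx)
    simpa [← map_sub] using this
  have hclosed : ∀ x y : E, ‖x‖ ≤ 1 → ‖y‖ ≤ 1 → ‖Γ x - Γ y‖ ≤ ‖x - y‖ := by
    intro x y hx hy
    have hC : IsClosed {p : E × E | ‖Γ p.1 - Γ p.2‖ ≤ ‖p.1 - p.2‖} := by
      have := hLip.continuous
      exact isClosed_le (by fun_prop) (by fun_prop)
    have hmem : ((x, y) : E × E) ∈ closure (ball (0 : E) 1 ×ˢ ball (0 : E) 1) := by
      rw [closure_prod_eq, closure_ball (0 : E) one_ne_zero]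
      exact ⟨by simpa using hx, by simpa using hy⟩
    exact closure_minimal (fun p hp => hopen _ hp.1 _ hp.2) hC hmem
  have hS : ∀ x : E, ‖x‖ = 1 → Γ x = I.T x := fun x hx => by
    simp only [hΓ, hG.2 x hx]
    exact hΨi.inverse_apply_self _
  have h0 : Γ 0 = 0 := by
    by_contra hne
    set c := Γ 0 with hc
    set y := -(‖c‖⁻¹ • c) with hy
    have hy1 : ‖y‖ = 1 := by simp [hy, norm_smul, hne]
    have hSy : ‖I.S y‖ = 1 := by rw [I.norm_S, hy1]
    have h1 := hclosed 0 (I.S y) (by simp) hSy.le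
    rw [hS _ hSy, I.right_inv, zero_sub, norm_neg, hSy] at h1
    have hn : 0 < ‖c‖ := norm_pos_iff.2 hne
    have h2 : c - y = (1 + ‖c‖⁻¹) • c := by rw [hy]; module
    rw [← hc, h2, norm_smul, Real.norm_of_nonneg (by positivity)] at h1
    have : (1 + ‖c‖⁻¹) * ‖c‖ = ‖c‖ + 1 := by field_simp
    linarith
  refine ⟨Γ, hS, hclosed, fun x hx => ?_⟩
  simpa [h0] using hclosed x 0 hx (by simp)

/-- Sphere isometries of finite-dimensional spaces are linear. -/
theorem exists_linear (I : SphIso E F) : ∃ L : E ≃ₗᵢ[ℝ] F, ∀ x : E, ‖x‖ = 1 → L x = I.T x := by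
  obtain ⟨g, hgS, hgL, hgn⟩ := exists_nonexpansive I
  obtain ⟨h, hhS, hhL, hhn⟩ := exists_nonexpansive I.symm
  have hhg : ∀ x : E, ‖x‖ ≤ 1 → h (g x) = x := fun x hx => by
    refine eq_self_of_nonexpansive (r := fun z => h (g z)) (fun a b ha hb => ?_)
      (fun a ha => ?_) hx
    · exact (hhL _ _ ((hgn a ha).trans ha) ((hgn b hb).trans hb)).trans (hgL a b ha hb)
    · show h (g a) = a
      rw [hgS a ha, hhS _ (by rw [I.norm_T, ha])]
      exact I.left_inv a
  have hgh : ∀ y : F, ‖y‖ ≤ 1 → g (h y) = y := fun y hy => by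
    refine eq_self_of_nonexpansive (r := fun z => g (h z)) (fun a b ha hb => ?_)
      (fun a ha => ?_) hy
    · exact (hgL _ _ ((hhn a ha).trans ha) ((hhn b hb).trans hb)).trans (hhL a b ha hb)
    · show g (h a) = a
      rw [hhS a ha, hgS _ (by rw [I.symm.norm_T, ha])]
      exact I.right_inv a
  have hiso : ∀ a b : E, ‖a‖ ≤ 1 → ‖b‖ ≤ 1 → ‖g a - g b‖ = ‖a - b‖ := fun a b ha hb => by
    refine le_antisymm (hgL a b ha hb) ?_
    have := hhL (g a) (g b) ((hgn a ha).trans ha) ((hgn b hb).trans hb)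
    rwa [hhg a ha, hhg b hb] at this
  have hnormg : ∀ x : E, ‖x‖ ≤ 1 → ‖g x‖ = ‖x‖ := fun x hx => by
    refine le_antisymm (hgn x hx) ?_
    have := hhn (g x) ((hgn x hx).trans hx)
    rwa [hhg x hx] at this
  have hnormh : ∀ y : F, ‖y‖ ≤ 1 → ‖h y‖ = ‖y‖ := fun y hy => by
    refine le_antisymm (hhn y hy) ?_
    have := hgn (h y) ((hhn y hy).trans hy)
    rwa [hgh y hy] at this
  obtain ⟨L, hL⟩ := exists_linear_of_ball_isometry hnormg hnormh hgh hhg hiso
  exact ⟨L, fun x hx => by rw [hL x hx.le, hgS x hx]⟩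

omit [FiniteDimensional ℝ F] [Nontrivial E] [Nontrivial F] in
/-- Tingley's problem for finite-dimensional spaces. -/
theorem tingley (f : sphere (0 : E) 1 → sphere (0 : F) 1) (hf : Isometry f)
    (hs : Function.Surjective f) :
    ∃ T : E ≃ₗᵢ[ℝ] F, ∀ x : sphere (0 : E) 1, T (x : E) = (f x : F) := by
  rcases subsingleton_or_nontrivial E with hE | hE
  · have hF : Subsingleton F := by
      refine ⟨fun a b => ?_⟩
      have hzero : ∀ y : F, y = 0 := fun y => by
        by_contra hy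
        obtain ⟨x, -⟩ := hs ⟨‖y‖⁻¹ • y, by simp [norm_smul, hy]⟩
        exact ne_zero_of_mem_unit_sphere x (Subsingleton.elim _ _)
      rw [hzero a, hzero b]
    exact ⟨{ toLinearEquiv := LinearEquiv.ofSubsingleton E F
             norm_map' := fun x => by simp [Subsingleton.elim x 0] },
      fun x => Subsingleton.elim _ _⟩
  obtain ⟨I, hI⟩ := exists_sphIso f hf hs
  haveI := I.finiteDimensional
  haveI : Nontrivial F := by
    obtain ⟨x, hx⟩ := exists_ne (0 : E)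
    exact ⟨⟨I.T x, 0, fun h => hx (norm_eq_zero.1 (by rw [← I.norm_T, h, norm_zero]))⟩⟩
  obtain ⟨L, hL⟩ := exists_linear I
  exact ⟨L, fun x => by rw [hL x (norm_eq_of_mem_sphere x), hI x]⟩

end Vale.Agent.P084.Fin
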