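import Vale.Agent.P084.Regularity

/-! First-order identities for the homogeneous extension. -/

namespace Vale.Agent.P084

set_option linter.unusedSectionVars false

open Filter Topology Set Metric

variable {E F : Type*} [NormedAddCommGroup E] [NormedSpace ℝ E] [FiniteDimensional ℝ E]
  [NormedAddCommGroup F] [NormedSpace ℝ F] [FiniteDimensional ℝ F]

namespace SphereIso

variable (I : SphereIso E F) (hE : SmoothNorm E) (hF : SmoothNorm F)

/-- Derivative of the extension. -/
noncomputable abbrev M (z : E) : E →L[ℝ] F := fderiv ℝ I.T z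

include hE hF

theorem hasFDerivAt_T {z : E} (hz : z ≠ 0) : HasFDerivAt I.T (I.M z) z :=
  (I.differentiableAt hE hF hz).hasFDerivAt

theorem M_self {z : E} (hz : z ≠ 0) : I.M z z = I.T z := by
  have hp : HasDerivAt (fun s : ℝ => s • z) z 1 := by
    simpa using (hasDerivAt_id (1 : ℝ)).smul_const z
  have h1 : HasDerivAt (fun s : ℝ => I.T (s • z)) (I.M z z) 1 :=
    (I.hasFDerivAt_T hE hF hz).comp_hasDerivAt_of_eq (1 : ℝ) hp (one_smul ℝ z).symm
  have hev : (fun s : ℝ => I.T (s • z)) =ᶠ[𝓝 1] fun s => s • I.T z := by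
    filter_upwards [lt_mem_nhds (one_pos (α := ℝ))] with s hs
    exact I.smul_T s z hs.le
  have h2 : HasDerivAt (fun s : ℝ => s • I.T z) (I.T z) 1 := by
    simpa using (hasDerivAt_id (1 : ℝ)).smul_const (I.T z)
  exact h1.unique (h2.congr_of_eventuallyEq hev)

theorem M_smul {z : E} (hz : z ≠ 0) {c : ℝ} (hc : 0 < c) : I.M (c • z) = I.M z := by
  have h1 : HasFDerivAt (fun x : E => c • x) (c • ContinuousLinearMap.id ℝ E) z :=
    (hasFDerivAt_id z).const_smul c
  have h2 := (I.hasFDerivAt_T hE hF (smul_ne_zero hc.ne' hz)).comp z h1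
  have h3 := (I.hasFDerivAt_T hE hF hz).const_smul c
  have he : (I.T ∘ fun x : E => c • x) = fun x => c • I.T x := funext fun x => I.smul_T c x hc.le
  rw [he] at h2
  refine ContinuousLinearMap.ext fun x => ?_
  have := congrArg (fun L : E →L[ℝ] F => L x) (h2.unique h3)
  simp only [ContinuousLinearMap.comp_apply, smul_apply, ContinuousLinearMap.id_apply,
    map_smul] at this
  exact smul_right_injective F hc.ne' this

theorem nd_comp_M {z : E} (hz : z ≠ 0) : (nd (I.T z)).comp (I.M z) = nd z := by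
  have h1 := (hF.hasFDerivAt (I.T_ne hz)).comp z (I.hasFDerivAt_T hE hF hz)
  have he : ((fun y : F => ‖y‖) ∘ I.T) = fun x => ‖x‖ := funext I.norm_T
  rw [he] at h1
  exact h1.unique (hE.hasFDerivAt hz)

theorem M_symm_comp {z : E} (hz : z ≠ 0) (x : E) : I.symm.M (I.T z) (I.M z x) = x := by
  have h1 := (I.symm.hasFDerivAt_T hF hE (I.T_ne hz)).comp z (I.hasFDerivAt_T hE hF hz)
  have he : (I.symm.T ∘ I.T) = id := funext I.left_inv
  rw [he] at h1
  exact congrArg (fun L : E →L[ℝ] E => L x) (h1.unique (hasFDerivAt_id z))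

theorem M_bijective {z : E} (hz : z ≠ 0) : Function.Bijective (I.M z) := by
  refine ⟨Function.LeftInverse.injective (I.M_symm_comp hE hF hz), fun y => ?_⟩
  refine ⟨I.symm.M (I.T z) y, ?_⟩
  have := I.symm.M_symm_comp hF hE (I.T_ne hz) y
  have e : I.symm.T (I.T z) = z := I.left_inv z
  rw [e] at this
  exact this

/-- The derivative as a linear equivalence. -/
noncomputable def Meq {z : E} (hz : z ≠ 0) : E ≃L[ℝ] F :=
  (LinearEquiv.ofBijective (I.M z).toLinearMap (I.M_bijective hE hF hz)).toContinuousLinearEquiv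

theorem coe_Meq {z : E} (hz : z ≠ 0) : (I.Meq hE hF hz : E →L[ℝ] F) = I.M z := by
  ext x; rfl

/-- The derivative is isometric on the tangent hyperplane. -/
theorem norm_M {z v : E} (hz : z ≠ 0) (hv : nd z v = 0) : ‖I.M z v‖ = ‖v‖ := by
  let a : ℝ → E := fun t => (‖z‖ / ‖z + t • v‖) • (z + t • v)
  have ha0 : a 0 = z := by simp [a, div_self (norm_ne_zero_iff.2 hz)]
  have hline : HasDerivAt (fun t : ℝ => z + t • v) v 0 := by
    simpa using ((hasDerivAt_id (0 : ℝ)).smul_const v).const_add z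
  have hn : HasDerivAt (fun t : ℝ => ‖z + t • v‖) 0 0 := by
    have h := (hE.hasFDerivAt hz).comp_hasDerivAt_of_eq (0 : ℝ) hline (by simp)
    rwa [hv] at h
  have ha : HasDerivAt a v 0 := by
    have hn0 : ‖z + (0 : ℝ) • v‖ ≠ 0 := by simp [hz]
    have := ((hasDerivAt_const (0 : ℝ) ‖z‖).div hn hn0).smul hline
    simp only [zero_smul, add_zero, mul_zero, sub_zero, zero_mul, zero_div,
      div_self (norm_ne_zero_iff.2 hz), one_smul, Pi.div_apply] at this
    exact this
  have hTa : HasDerivAt (fun t => I.T (a t)) (I.M z v) 0 :=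
    (I.hasFDerivAt_T hE hF hz).comp_hasDerivAt_of_eq (0 : ℝ) ha ha0.symm
  have s1 := (hasDerivAt_iff_tendsto_slope_zero.1 hTa).norm
  have s2 := (hasDerivAt_iff_tendsto_slope_zero.1 ha).norm
  refine tendsto_nhds_unique (s1.congr' ?_) s2
  have hev : ∀ᶠ t in 𝓝[≠] (0 : ℝ), z + t • v ≠ 0 :=
    nhdsWithin_le_nhds (hline.continuousAt.eventually_ne (by simpa using hz))
  filter_upwards [hev] with t ht
  simp only [zero_add, ha0, norm_smul]
  congr 1
  refine I.dist_T _ _ ?_
  simp only [a]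
  rw [norm_smul, Real.norm_of_nonneg (by positivity), div_mul_cancel₀ _ (norm_ne_zero_iff.2 ht)]

theorem nd_M {z u v : E} (hz : z ≠ 0) (hu : nd z u = 0) (hv : nd z v = 0) (hu0 : u ≠ 0) :
    nd (I.M z u) (I.M z v) = nd u v := by
  have hMu : I.M z u ≠ 0 := by
    rw [← norm_pos_iff, I.norm_M hE hF hz hu]; exact norm_pos_iff.2 hu0
  have hline : HasDerivAt (fun t : ℝ => u + t • v) v 0 := by
    simpa using ((hasDerivAt_id (0 : ℝ)).smul_const v).const_add u
  have hl2 : HasDerivAt (fun t : ℝ => I.M z u + t • I.M z v) (I.M z v) 0 := by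
    simpa using ((hasDerivAt_id (0 : ℝ)).smul_const (I.M z v)).const_add (I.M z u)
  have h1 := (hE.hasFDerivAt hu0).comp_hasDerivAt_of_eq (0 : ℝ) hline (by simp)
  have h2 := (hF.hasFDerivAt hMu).comp_hasDerivAt_of_eq (0 : ℝ) hl2 (by simp)
  have he : ((fun y : F => ‖y‖) ∘ fun t : ℝ => I.M z u + t • I.M z v)
      = ((fun y : E => ‖y‖) ∘ fun t : ℝ => u + t • v) := by
    funext t
    simp only [Function.comp_apply]
    rw [← map_smul, ← map_add, I.norm_M hE hF hz]
    simp [hu, hv]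
  rw [he] at h2
  exact h2.unique h1

/-- Chord identity for sums. -/
theorem chord_sum {z a v : E} (hz : z ≠ 0) (ha : a ≠ 0) (hv : nd a v = 0)
    (hw : ‖z‖ • a + ‖a‖ • z ≠ 0) :
    nd (‖z‖ • I.T a + ‖a‖ • I.T z) (I.M a v) = nd (‖z‖ • a + ‖a‖ • z) v := by
  have hid : ∀ y, ‖‖z‖ • I.T y + ‖y‖ • I.T z‖ = ‖‖z‖ • y + ‖y‖ • z‖ := by
    intro y
    rw [← I.smul_T _ _ (norm_nonneg z), ← I.smul_T _ _ (norm_nonneg y)]
    exact I.add_T (by simp [norm_smul, mul_comm])
  have hW : ‖z‖ • I.T a + ‖a‖ • I.T z ≠ 0 := by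
    rw [← norm_pos_iff, hid]; exact norm_pos_iff.2 hw
  have h1 := (hF.hasFDerivAt hW).comp a (f := fun y => ‖z‖ • I.T y + ‖y‖ • I.T z)
    (((I.hasFDerivAt_T hE hF ha).const_smul ‖z‖).add ((hE.hasFDerivAt ha).smul_const (I.T z)))
  have h2 := (hE.hasFDerivAt hw).comp a (f := fun y : E => ‖z‖ • y + ‖y‖ • z)
    (((hasFDerivAt_id a).const_smul ‖z‖).add ((hE.hasFDerivAt ha).smul_const z))
  have he : ((fun y : F => ‖y‖) ∘ fun y : E => ‖z‖ • I.T y + ‖y‖ • I.T z)
      = ((fun y : E => ‖y‖) ∘ fun y : E => ‖z‖ • y + ‖y‖ • z) := funext hid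
  rw [he] at h1
  have h := congrArg (fun L : E →L[ℝ] ℝ => L v) (h1.unique h2)
  simp only [ContinuousLinearMap.comp_apply, add_apply, smul_apply,
    ContinuousLinearMap.smulRight_apply, ContinuousLinearMap.id_apply, hv, zero_smul, add_zero,
    map_smul, smul_eq_mul] at h
  exact mul_left_cancel₀ (norm_ne_zero_iff.2 hz) h

end SphereIso

end Vale.Agent.P084
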