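import Vale.Agent.P084.SecondOrder

/-! Points with nondegenerate Hessian are open and dense. -/

namespace Vale.Agent.P084

set_option linter.unusedSectionVars false

open Filter Topology Set Metric MeasureTheory

variable {E : Type*} [NormedAddCommGroup E] [NormedSpace ℝ E] [FiniteDimensional ℝ E]

/-- The Hessian of the norm is positive on the tangent hyperplane. -/
def NonDeg (z : E) : Prop :=
  ∀ v, nd z v = 0 → v ≠ 0 → 0 < fderiv ℝ (nd : E → E →L[ℝ] ℝ) z v v

variable (hC : ContDiffOn ℝ 2 (fun x : E => ‖x‖) {0}ᶜ) (hE : SmoothNorm E)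
include hC hE

theorem hasFDerivAt_nd {z : E} (hz : z ≠ 0) :
    HasFDerivAt nd (fderiv ℝ (nd : E → E →L[ℝ] ℝ) z) z :=
  ((contDiffAt_nd hC hz).differentiableAt one_ne_zero).hasFDerivAt

theorem continuousAt_hess {z : E} (hz : z ≠ 0) :
    ContinuousAt (fderiv ℝ (nd : E → E →L[ℝ] ℝ)) z :=
  ((contDiffAt_nd hC hz).fderiv_right (m := 0) (by norm_num)).continuousAt

theorem eventually_nonDeg {z : E} (hz : z ≠ 0) (h : NonDeg z) : ∀ᶠ w in 𝓝 z, NonDeg w := by
  have hpos : ∀ v ∈ sphere (0 : E) 1, ∀ᶠ p in 𝓝 (z, v),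
      0 < nd p.1 p.2 ^ 2 + fderiv ℝ (nd : E → E →L[ℝ] ℝ) p.1 p.2 p.2 := by
    intro v hv
    have hv0 : v ≠ 0 := by intro h; simp [h] at hv
    have h1 : ContinuousAt (fun p : E × E => nd p.1 p.2 ^ 2
        + fderiv ℝ (nd : E → E →L[ℝ] ℝ) p.1 p.2 p.2) (z, v) := by
      have a1 : ContinuousAt (fun p : E × E => nd p.1) (z, v) :=
        (hE.continuousAt_nd hz).comp' continuousAt_fst
      have a2 : ContinuousAt (fun p : E × E => fderiv ℝ (nd : E → E →L[ℝ] ℝ) p.1) (z, v) :=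
        (continuousAt_hess hC hE hz).comp' continuousAt_fst
      exact ((a1.clm_apply continuousAt_snd).pow 2).add
        ((a2.clm_apply continuousAt_snd).clm_apply continuousAt_snd)
    refine h1.eventually (lt_mem_nhds ?_)
    simp only
    have h2 := hE.hess_nonneg hz (hasFDerivAt_nd hC hE hz) v
    rcases eq_or_ne (nd z v) 0 with h0 | h0
    · have := h v h0 hv0
      rw [h0]
      linarith
    · positivity
  filter_upwards [(isCompact_sphere (0 : E) 1).eventually_forall_of_forall_eventually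
    (P := fun w v => 0 < nd w v ^ 2 + fderiv ℝ (nd : E → E →L[ℝ] ℝ) w v v) hpos] with w hw v hv hv0
  have hs : ‖v‖⁻¹ • v ∈ sphere (0 : E) 1 := by simpa using norm_normalize hv0
  have h1 := hw _ hs
  simp only [map_smul, smul_apply, hv, smul_eq_mul, mul_zero, zero_mul, ne_eq,
    OfNat.ofNat_ne_zero, not_false_eq_true, zero_pow, zero_add] at h1
  have hn : 0 < ‖v‖⁻¹ := inv_pos.2 (norm_pos_iff.2 hv0)
  exact (pos_iff_pos_of_mul_pos ((pos_iff_pos_of_mul_pos h1).1 hn)).1 hn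

omit hC in
/-- The duality map `z ↦ ‖z‖ • nd z` is continuous. -/
theorem continuous_dualMap : Continuous fun z : E => ‖z‖ • nd z := by
  refine continuous_iff_continuousAt.2 fun z => ?_
  rcases eq_or_ne z 0 with rfl | hz
  · rw [ContinuousAt, norm_zero, zero_smul]
    refine squeeze_zero_norm (fun w => ?_) (tendsto_norm_zero (E := E))
    rw [norm_smul, norm_norm]
    exact mul_le_of_le_one_right (norm_nonneg w) (norm_nd_le w)
  · exact continuous_norm.continuousAt.smul (hE.continuousAt_nd hz)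

omit hC in
theorem dualMap_norm (z : E) : ‖‖z‖ • nd z‖ = ‖z‖ := by
  rcases eq_or_ne z 0 with rfl | hz
  · simp
  haveI : Nontrivial E := ⟨z, 0, hz⟩
  rw [norm_smul, norm_norm, nd, norm_fderiv_norm (hE.diff z hz), mul_one]

omit hC in
theorem dualMap_injective [StrictConvexSpace ℝ E] {z w : E} (h : ‖z‖ • nd z = ‖w‖ • nd w) :
    z = w := by
  have hn : ‖z‖ = ‖w‖ := by rw [← dualMap_norm hE z, h, dualMap_norm hE w]
  rcases eq_or_ne z 0 with rfl | hz
  · rw [norm_zero] at hn; exact (norm_eq_zero.1 hn.symm).symm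
  have hw : w ≠ 0 := fun h => hz (norm_eq_zero.1 (by rw [hn, h, norm_zero]))
  rw [hn] at h
  have h' := smul_right_injective (E →L[ℝ] ℝ) (norm_ne_zero_iff.2 hw) h
  have := hE.eq_smul_of_nd_eq hz hw (by rw [← h', hE.nd_self hz])
  rw [this, hn, div_self (norm_ne_zero_iff.2 hw), one_smul]

omit hC in
theorem dualMap_surjective (ψ : E →L[ℝ] ℝ) : ∃ z : E, ‖z‖ • nd z = ψ := by
  rcases eq_or_ne ψ 0 with rfl | hψ
  · exact ⟨0, by simp⟩
  obtain ⟨x, hx⟩ : ∃ x, ψ x ≠ 0 := by
    by_contra! h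
    exact hψ (ContinuousLinearMap.ext fun x => by simp [h x])
  have hx0 : x ≠ 0 := by intro h; simp [h] at hx
  obtain ⟨z, hz, hmax⟩ := (isCompact_sphere (0 : E) 1).exists_isMaxOn
    ⟨‖x‖⁻¹ • x, by simpa using norm_normalize hx0⟩ ψ.continuous.continuousOn
  have hz1 : ‖z‖ = 1 := by simpa using hz
  have hz0 : z ≠ 0 := by intro h; simp [h] at hz1
  set c := ψ z
  have hall : ∀ y, ψ y ≤ c * ‖y‖ := by
    intro y
    rcases eq_or_ne y 0 with rfl | hy
    · simp
    have h := hmax (show ‖y‖⁻¹ • y ∈ sphere (0 : E) 1 by simpa using norm_normalize hy)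
    simp only [Set.mem_ofPred_eq, map_smul, smul_eq_mul] at h
    rw [inv_mul_le_iff₀ (norm_pos_iff.2 hy)] at h
    linarith
  have hc : 0 ≤ c := by
    have a1 := hall x
    have a2 := hall (-x)
    rw [map_neg, norm_neg] at a2
    have hxn := norm_pos_iff.2 hx0
    nlinarith
  have hd : HasFDerivAt (fun y => c * ‖y‖ - ψ y) (c • nd z - ψ) z :=
    ((hE.hasFDerivAt hz0).const_mul c).sub ψ.hasFDerivAt
  have hmin : IsLocalMin (fun y => c * ‖y‖ - ψ y) z := Eventually.of_forall fun y => by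
    simp only [hz1, mul_one, c]
    linarith [hall y]
  have h0 := sub_eq_zero.1 (hmin.hasFDerivAt_eq_zero hd)
  refine ⟨c • z, ?_⟩
  rcases hc.eq_or_lt with hc0 | hc0
  · rw [← h0, ← hc0]; simp
  · rw [nd_smul_pos z hc0, norm_smul, hz1, Real.norm_of_nonneg hc0.le, mul_one, h0]

/-- Nondegenerate points are dense. -/
theorem exists_nonDeg [StrictConvexSpace ℝ E] {U : Set E} (hU : IsOpen U) (hne : U.Nonempty)
    (h0 : ∀ z ∈ U, z ≠ 0) : ∃ z ∈ U, NonDeg z := by
  by_contra! hall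
  letI : MeasurableSpace E := borel E
  haveI : BorelSpace E := ⟨rfl⟩
  let μ : Measure E := Measure.addHaar
  let Φ : E → E →L[ℝ] ℝ := fun z => ‖z‖ • nd z
  have hdim : Module.finrank ℝ (E →L[ℝ] ℝ) = Module.finrank ℝ E :=
    (LinearMap.toContinuousLinearMap : (E →ₗ[ℝ] ℝ) ≃ₗ[ℝ] (E →L[ℝ] ℝ)).finrank_eq.symm.trans
      Subspace.dual_finrank_eq
  let ι : (E →L[ℝ] ℝ) ≃L[ℝ] E := ContinuousLinearEquiv.ofFinrankEq hdim
  let H : E → E →L[ℝ] E := fun z =>
    (ι : (E →L[ℝ] ℝ) →L[ℝ] E).comp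
      (‖z‖ • fderiv ℝ (nd : E → E →L[ℝ] ℝ) z + (nd z).smulRight (nd z))
  have hd : ∀ z ∈ U, HasFDerivWithinAt (fun z => ι (Φ z)) (H z) U z := fun z hz =>
    (ι.hasFDerivAt.comp z
      ((hE.hasFDerivAt (h0 z hz)).smul (hasFDerivAt_nd hC hE (h0 z hz)))).hasFDerivWithinAt
  have hdet : ∀ z ∈ U, (H z).det = 0 := by
    intro z hz
    have hQ := hasFDerivAt_nd hC hE (h0 z hz)
    set Q := fderiv ℝ (nd : E → E →L[ℝ] ℝ) z
    have hn := hall z hz
    simp only [NonDeg, not_forall] at hn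
    obtain ⟨v, hv, hv0, hQv⟩ := hn
    have hQ0 : Q v v = 0 := le_antisymm (not_lt.1 hQv) (hE.hess_nonneg (h0 z hz) hQ v)
    have hker : Q v = 0 := by
      refine ContinuousLinearMap.ext fun w => ?_
      by_contra hne'
      have hs := hE.hess_symm (h0 z hz) hQ v w
      have key : ∀ s : ℝ, 0 ≤ 2 * s * Q v w + s ^ 2 * Q w w := fun s => by
        have := hE.hess_nonneg (h0 z hz) hQ (v + s • w)
        simp only [map_add, map_smul, add_apply, smul_apply, smul_eq_mul, hQ0] at this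
        rw [← hs] at this
        linarith
      have hw := hE.hess_nonneg (h0 z hz) hQ w
      have h1 := key (-(Q v w) / (Q w w + 1))
      have h2 : (-(Q v w) / (Q w w + 1)) * (Q w w + 1) = -(Q v w) := by field_simp
      have hsn : (-(Q v w) / (Q w w + 1)) ≠ 0 := by
        intro h; rw [h, zero_mul] at h2; exact hne' (neg_eq_zero.1 h2.symm)
      have := pow_two_pos_of_ne_zero hsn
      generalize -(Q v w) / (Q w w + 1) = σ at h1 h2 this
      have hq : Q v w = -(σ * (Q w w + 1)) := by linarith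
      rw [hq] at h1
      nlinarith
    have hHv : H z v = 0 := by
      simp [H, hker, hv, Q] at *
      try simp [hker, hv]
    refine LinearMap.det_eq_zero_iff_ker_ne_bot.2 ?_
    intro hb
    have : v ∈ LinearMap.ker (H z).toLinearMap := hHv
    rw [hb] at this
    exact hv0 (by simpa using this)
  have hnull := addHaar_image_eq_zero_of_det_fderivWithin_eq_zero μ hd hdet
  obtain ⟨z₀, hz₀⟩ := hne
  let R := ‖z₀‖ + 1
  let K : Set E := closedBall 0 R ∩ Uᶜ
  have hK : IsCompact K := (isCompact_closedBall _ _).inter_right hU.isClosed_compl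
  have hΦc : Continuous Φ := continuous_dualMap hE
  have hcl : IsClosed (Φ '' K) := (hK.image hΦc).isClosed
  have hout : Φ z₀ ∉ Φ '' K := by
    rintro ⟨w, hw, hwe⟩
    rw [dualMap_injective hE hwe] at hw
    exact hw.2 hz₀
  let O : Set (E →L[ℝ] ℝ) := (Φ '' K)ᶜ ∩ ball 0 R
  have hO : IsOpen O := hcl.isOpen_compl.inter isOpen_ball
  have hOmem : Φ z₀ ∈ O := ⟨hout, by
    rw [mem_ball_zero_iff, dualMap_norm hE]; exact lt_add_one _⟩
  have hOsub : ι '' O ⊆ (fun z => ι (Φ z)) '' U := by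
    rintro _ ⟨ψ, ⟨hψ, hψR⟩, rfl⟩
    obtain ⟨z, rfl⟩ := dualMap_surjective hE ψ
    refine ⟨z, ?_, rfl⟩
    by_contra hzU
    refine hψ ⟨z, ⟨?_, hzU⟩, rfl⟩
    rw [mem_ball_zero_iff, dualMap_norm hE] at hψR
    simpa using hψR.le
  have hpos := (ι.toHomeomorph.isOpenMap O hO).measure_pos μ ⟨ι (Φ z₀), mem_image_of_mem ι hOmem⟩
  exact hpos.ne' (measure_mono_null hOsub hnull)

end Vale.Agent.P084
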