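import Vale.Agent.P084.NormBasics

/-! A symmetric family of infinitesimal linear isometries of a smooth norm is zero. -/

namespace Vale.Agent.P084

set_option linter.unusedSectionVars false

open Filter Topology Set Metric MeasureTheory

variable {W : Type*} [NormedAddCommGroup W] [NormedSpace ℝ W] [FiniteDimensional ℝ W]

theorem norm_exp_apply {ψ : W → W →L[ℝ] ℝ}
    (hψ : ∀ x, x ≠ 0 → HasFDerivAt (fun y : W => ‖y‖) (ψ x) x) {L : W →L[ℝ] W}
    (hL : ∀ x, x ≠ 0 → ψ x (L x) = 0) (t : ℝ) (x : W) :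
    ‖NormedSpace.exp (t • L) x‖ = ‖x‖ := by
  rcases eq_or_ne x 0 with rfl | hx
  · simp
  have hne : ∀ s : ℝ, NormedSpace.exp (s • L) x ≠ 0 := by
    intro s h
    letI : NormedAlgebra ℚ (W →L[ℝ] W) := NormedAlgebra.restrictScalars ℚ ℝ _
    obtain ⟨u, hu⟩ := NormedSpace.isUnit_exp (s • L)
    have h2 := congrArg (fun A : W →L[ℝ] W => A x) u.inv_mul
    change (↑u⁻¹ : W →L[ℝ] W) ((u : W →L[ℝ] W) x) = x at h2
    rw [hu, h, map_zero] at h2
    exact hx h2.symm
  have hd : ∀ s : ℝ, HasDerivAt (fun r : ℝ => ‖NormedSpace.exp (r • L) x‖) 0 s := by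
    intro s
    have h1 := (hasDerivAt_exp_smul_const' L s).clm_apply (hasDerivAt_const s x)
    have h2 := (hψ _ (hne s)).comp_hasDerivAt_of_eq s h1 rfl
    refine h2.congr_deriv ?_
    simp only [map_zero, add_zero]
    exact hL _ (hne s)
  have := is_const_of_deriv_eq_zero (fun s => (hd s).differentiableAt) (fun s => (hd s).deriv) t 0
  simpa using this

theorem setIntegral_comp_isometry [MeasurableSpace W] [BorelSpace W] (μ : Measure W)
    [μ.IsAddHaarMeasure] (U : W →L[ℝ] W) (hU : ∀ x, ‖U x‖ = ‖x‖) (f : W → ℝ) :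
    ∫ x in closedBall (0 : W) 1, f (U x) ∂μ = ∫ x in closedBall (0 : W) 1, f x ∂μ := by
  have hinj : Function.Injective U.toLinearMap := by
    rw [injective_iff_map_eq_zero]
    intro x hx
    rw [← norm_eq_zero, ← hU x]
    exact norm_eq_zero.2 hx
  have hsurj : Function.Surjective U.toLinearMap := LinearMap.injective_iff_surjective.1 hinj
  let e : W ≃L[ℝ] W := (LinearEquiv.ofBijective U.toLinearMap ⟨hinj, hsurj⟩).toContinuousLinearEquiv
  have he : ∀ x, e x = U x := fun x => rfl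
  have himg : U.toLinearMap '' closedBall (0 : W) 1 = closedBall 0 1 := by
    ext y
    constructor
    · rintro ⟨x, hx, rfl⟩
      simpa [hU] using hx
    · intro hy
      obtain ⟨x, rfl⟩ := hsurj y
      exact ⟨x, by simpa [hU] using hy, rfl⟩
  have hdet : |LinearMap.det U.toLinearMap| = 1 := by
    have h := Measure.addHaar_image_linearMap μ U.toLinearMap (closedBall (0 : W) 1)
    rw [himg] at h
    have hpos : μ (closedBall (0 : W) 1) ≠ 0 := (measure_closedBall_pos μ 0 one_pos).ne'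
    have hfin : μ (closedBall (0 : W) 1) ≠ ⊤ := measure_closedBall_lt_top.ne
    have h2 := (ENNReal.mul_eq_right hpos hfin).1 h.symm
    exact ENNReal.ofReal_eq_one.1 h2
  have hmp : MeasurePreserving U μ μ := by
    refine ⟨U.continuous.measurable, ?_⟩
    have h := Measure.map_linearMap_addHaar_eq_smul_addHaar μ (f := U.toLinearMap)
      (fun h0 => by simp [h0] at hdet)
    rw [abs_inv, hdet, inv_one, ENNReal.ofReal_one, one_smul] at h
    exact h
  have hemb : MeasurableEmbedding U := e.toHomeomorph.measurableEmbedding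
  have hpre : U ⁻¹' closedBall (0 : W) 1 = closedBall 0 1 := by
    ext x; simp [hU]
  have := hmp.setIntegral_preimage_emb hemb f (closedBall (0 : W) 1)
  rwa [hpre] at this

theorem bilin_const_deriv {D : Type*} [NormedAddCommGroup D] [NormedSpace ℝ D]
    (Pc : D →L[ℝ] D →L[ℝ] ℝ) {a b : ℝ → D} {a' b' : D} (ha : HasDerivAt a a' 0)
    (hb : HasDerivAt b b' 0) (h : ∀ t, Pc (a t) (b t) = Pc (a 0) (b 0)) :
    Pc a' (b 0) + Pc (a 0) b' = 0 := by
  have h2 : HasDerivAt (fun t => Pc (a t) (b t)) (Pc a' (b 0) + Pc (a 0) b') 0 :=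
    (Pc.hasFDerivAt.comp_hasDerivAt (0 : ℝ) ha).clm_apply hb
  rw [funext h] at h2
  exact h2.unique (hasDerivAt_const (0 : ℝ) _)

/-- Differentiating the invariance of a bilinear form on the dual. -/
theorem skew_of_invariant (Pc : (W →L[ℝ] ℝ) →L[ℝ] (W →L[ℝ] ℝ) →L[ℝ] ℝ) (L : W →L[ℝ] W)
    (hU : ∀ (t : ℝ) (φ χ : W →L[ℝ] ℝ),
      Pc (φ.comp (NormedSpace.exp (t • L))) (χ.comp (NormedSpace.exp (t • L))) = Pc φ χ)
    (φ χ : W →L[ℝ] ℝ) : Pc (φ.comp L) χ + Pc φ (χ.comp L) = 0 := by
  have he : HasDerivAt (fun t : ℝ => NormedSpace.exp (t • L)) L 0 := by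
    have h := hasDerivAt_exp_smul_const' L (0 : ℝ)
    rwa [zero_smul, NormedSpace.exp_zero, mul_one] at h
  have h0 : ∀ θ : W →L[ℝ] ℝ, θ.comp (NormedSpace.exp ((0 : ℝ) • L)) = θ := fun θ => by
    rw [zero_smul, NormedSpace.exp_zero]; exact θ.comp_id
  have h1 : ∀ θ : W →L[ℝ] ℝ, HasDerivAt (fun t : ℝ => θ.comp (NormedSpace.exp (t • L)))
      (θ.comp L) 0 := fun θ =>
    ((ContinuousLinearMap.compL ℝ W W ℝ) θ).hasFDerivAt.comp_hasDerivAt (0 : ℝ) he
  have h := bilin_const_deriv Pc (h1 φ) (h1 χ) (fun t => by rw [h0 φ, h0 χ]; exact hU t φ χ)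
  rw [h0 φ, h0 χ] at h
  exact h

theorem eq_zero_of_infinitesimal_isometries {ψ : W → W →L[ℝ] ℝ}
    (hψ : ∀ x, x ≠ 0 → HasFDerivAt (fun y : W => ‖y‖) (ψ x) x) (β : W →ₗ[ℝ] W →ₗ[ℝ] W)
    (hs : ∀ u v, β u v = β v u) (hL : ∀ s x, x ≠ 0 → ψ x (β s x) = 0) :
    ∀ u v, β u v = 0 := by
  letI : MeasurableSpace W := borel W
  haveI : BorelSpace W := ⟨rfl⟩
  let μ : Measure W := Measure.addHaar
  let D := W →L[ℝ] ℝ
  have hint : ∀ φ χ : D, IntegrableOn (fun x => φ x * χ x) (closedBall (0 : W) 1) μ :=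
    fun φ χ => (φ.continuous.mul χ.continuous).continuousOn.integrableOn_compact
      (isCompact_closedBall _ _)
  let P : D →ₗ[ℝ] D →ₗ[ℝ] ℝ := LinearMap.mk₂ ℝ
    (fun φ χ => ∫ x in closedBall (0 : W) 1, φ x * χ x ∂μ)
    (fun a b c => by
      rw [← integral_add (hint a c) (hint b c)]
      simp [add_mul])
    (fun r a c => by
      rw [smul_eq_mul, ← integral_const_mul]
      simp [mul_assoc])
    (fun a b c => by
      rw [← integral_add (hint a b) (hint a c)]
      simp [mul_add])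
    (fun r a c => by
      rw [smul_eq_mul, ← integral_const_mul]
      simp [mul_left_comm])
  have hPdef : ∀ φ χ, P φ χ = ∫ x in closedBall (0 : W) 1, φ x * χ x ∂μ := fun _ _ => rfl
  have hPs : ∀ φ χ, P φ χ = P χ φ := fun φ χ => by simp [hPdef, mul_comm]
  have hPpos : ∀ φ : D, φ ≠ 0 → 0 < P φ φ := by
    intro φ hφ
    obtain ⟨x, hx⟩ : ∃ x, φ x ≠ 0 := by
      by_contra! h
      exact hφ (ContinuousLinearMap.ext fun x => by simp [h x])
    have hx0 : x ≠ 0 := fun h => hx (by simp [h])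
    rw [hPdef, setIntegral_pos_iff_support_of_nonneg_ae
      (Eventually.of_forall fun y => mul_self_nonneg (φ y)) (hint φ φ)]
    have hopen : IsOpen ({y | φ y ≠ 0} ∩ ball (0 : W) 1) :=
      (isOpen_ne_fun φ.continuous continuous_const).inter isOpen_ball
    have hne : ({y | φ y ≠ 0} ∩ ball (0 : W) 1).Nonempty := by
      refine ⟨(2 * ‖x‖)⁻¹ • x, ?_, ?_⟩
      · simp [hx, hx0]
      · rw [mem_ball_zero_iff, norm_smul, norm_inv, norm_mul, norm_norm, Real.norm_two]
        field_simp [norm_ne_zero_iff.2 hx0]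
        norm_num
    refine (hopen.measure_pos μ hne).trans_le (measure_mono fun y hy => ?_)
    exact ⟨by simpa using hy.1, ball_subset_closedBall hy.2⟩
  -- invariance
  have hskew : ∀ (s : W) (φ χ : D),
      P (φ.comp (LinearMap.toContinuousLinearMap (β s))) χ
        + P φ (χ.comp (LinearMap.toContinuousLinearMap (β s))) = 0 := by
    intro s φ χ
    exact skew_of_invariant (W := W) P.toContinuousBilinearMap _ (fun t a b =>
      setIntegral_comp_isometry μ _ (norm_exp_apply hψ (fun x hx => hL s x hx) t)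
        (fun x => a x * b x)) φ χ
  -- the raising map
  let ev : W →ₗ[ℝ] Module.Dual ℝ D :=
    { toFun := fun w =>
        { toFun := fun φ => φ w, map_add' := fun a b => rfl, map_smul' := fun r a => rfl }
      map_add' := fun a b => LinearMap.ext fun φ => map_add φ a b
      map_smul' := fun r a => LinearMap.ext fun φ => map_smul φ r a }
  have hevi : Function.Injective ev := by
    rw [injective_iff_map_eq_zero]
    intro w hw
    by_contra hne
    obtain ⟨φ, -, hφw⟩ := exists_dual_vector ℝ w (norm_ne_zero_iff.2 hne)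
    have h : φ w = 0 := LinearMap.congr_fun hw φ
    rw [hφw] at h
    exact norm_ne_zero_iff.2 hne h
  have hdim : Module.finrank ℝ W = Module.finrank ℝ D :=
    ((LinearMap.toContinuousLinearMap : (W →ₗ[ℝ] ℝ) ≃ₗ[ℝ] D).finrank_eq.symm.trans
      Subspace.dual_finrank_eq).symm
  have hevs : Function.Surjective ev :=
    (LinearMap.injective_iff_surjective_of_finrank_eq_finrank
      (by rw [Subspace.dual_finrank_eq]; exact hdim)).1 hevi
  let e := LinearEquiv.ofBijective ev ⟨hevi, hevs⟩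
  let up : D →ₗ[ℝ] W := e.symm.toLinearMap ∘ₗ P
  have hup : ∀ φ χ : D, φ (up χ) = P χ φ := fun φ χ => by
    have h : e (up χ) = P χ := e.apply_symm_apply _
    exact LinearMap.congr_fun h φ
  have hupi : Function.Injective up := by
    rw [injective_iff_map_eq_zero]
    intro χ hχ
    by_contra hne
    have := hPpos χ hne
    rw [← hup, hχ, map_zero] at this
    exact lt_irrefl _ this
  have hups : Function.Surjective up :=
    (LinearMap.injective_iff_surjective_of_finrank_eq_finrank hdim.symm).1 hupi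
  have key : ∀ φ χ θ : D, φ (β (up θ) (up χ)) = -χ (β (up θ) (up φ)) := by
    intro φ χ θ
    have h := hskew (up θ) φ χ
    rw [hPs (φ.comp _) χ, ← hup, ← hup] at h
    change φ (β (up θ) (up χ)) + χ (β (up θ) (up φ)) = 0 at h
    linarith
  intro u v
  obtain ⟨θ, rfl⟩ := hups u
  obtain ⟨χ, rfl⟩ := hups v
  have h0 : ∀ φ : D, φ (β (up θ) (up χ)) = 0 := fun φ => by
    have a1 := key φ χ θ
    have a2 := key χ θ φ
    have a3 := key θ φ χ
    rw [hs (up φ) (up θ)] at a2
    rw [hs (up χ) (up φ), hs (up χ) (up θ)] at a3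
    linarith
  by_contra hne
  obtain ⟨φ, -, hφw⟩ := exists_dual_vector ℝ _ (norm_ne_zero_iff.2 hne)
  have h := h0 φ
  rw [hφw] at h
  exact norm_ne_zero_iff.2 hne h

end Vale.Agent.P084
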