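import Vale.Agent.P084.Tangent
import Vale.Agent.P084.Nondeg
import Vale.Agent.P084.Skew
import Vale.Agent.P084.AEConst

/-! Surjective sphere isometries out of `C²` strictly convex finite-dimensional spaces. -/

namespace Vale.Agent.P084

set_option linter.unusedSectionVars false

open Filter Topology Set Metric MeasureTheory

variable {E F : Type*} [NormedAddCommGroup E] [NormedSpace ℝ E] [FiniteDimensional ℝ E]
  [NormedAddCommGroup F] [NormedSpace ℝ F] [FiniteDimensional ℝ F]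

namespace SphereIso

variable (I : SphereIso E F) [StrictConvexSpace ℝ E]
  (hC : ContDiffOn ℝ 2 (fun x : E => ‖x‖) {0}ᶜ) (hdim : 3 ≤ Module.finrank ℝ E)
  (hE : SmoothNorm E) (hF : SmoothNorm F)
include hC hdim hE hF

theorem fderiv_M_nonDeg {z : E} (hz : z ≠ 0) (hnd : NonDeg z)
    (hd : DifferentiableAt ℝ I.M z) : fderiv ℝ I.M z = 0 := by
  obtain ⟨Q', hQ'⟩ := exists_hess hE hF hz hd.hasFDerivAt (hasFDerivAt_nd hC hE hz)
  have G : I.Good z (fderiv ℝ I.M z) (fderiv ℝ nd z) Q' :=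
    ⟨hE, hF, hz, hd.hasFDerivAt, hasFDerivAt_nd hC hE hz, hQ'⟩
  exact G.B_eq_zero hC hdim hnd

theorem transversal_eq {a u : E} (ha : a ≠ 0) (hu : nd a u = 0) (hu0 : u ≠ 0) :
    nd (I.M a u) (I.T a) = nd u a := by
  let vf : E → E := fun z => u - (nd z u / ‖z‖) • z
  let f : E → ℝ := fun z => nd (I.M z (vf z)) (I.T z) - nd (vf z) z
  have hva : vf a = u := by simp [vf, hu]
  have hMu : I.M a u ≠ 0 := by
    rw [← norm_pos_iff, I.norm_M hE hF ha hu]; exact norm_pos_iff.2 hu0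
  have hvc : ContinuousAt vf a :=
    continuousAt_const.sub ((((hE.continuousAt_nd ha).clm_apply continuousAt_const).div
      continuous_norm.continuousAt (norm_ne_zero_iff.2 ha)).smul continuousAt_id)
  have hfc : ContinuousAt f a := by
    have h1 : ContinuousAt (fun z => I.M z (vf z)) a :=
      (I.continuousAt_fderiv hE hF ha).clm_apply hvc
    have h2 : ContinuousAt (fun z => nd (I.M z (vf z))) a :=
      (hF.continuousAt_nd hMu).comp_of_eq h1 (by rw [hva])
    have h3 : ContinuousAt (fun z => nd (vf z)) a :=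
      (hE.continuousAt_nd hu0).comp_of_eq hvc hva
    exact (h2.clm_apply I.continuous.continuousAt).sub (h3.clm_apply continuousAt_id)
  suffices hfa : f a = 0 by
    simp only [f, hva] at hfa
    exact sub_eq_zero.1 hfa
  by_contra hne
  obtain ⟨r₁, hr₁, K, -, hlip⟩ := I.regular hE hF ha
  have hev : ∀ᶠ z in 𝓝 a, f z ≠ 0 ∧ z ≠ 0 ∧ vf z ≠ 0 ∧ z ∈ ball a r₁ := by
    filter_upwards [hfc.eventually_ne hne, isOpen_ne.mem_nhds ha,
      hvc.eventually_ne (hva.trans_ne hu0), ball_mem_nhds a hr₁] with z h1 h2 h3 h4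
    exact ⟨h1, h2, h3, h4⟩
  obtain ⟨O, hOsub, hO, haO⟩ := _root_.mem_nhds_iff.1 hev
  obtain ⟨z₁, hz₁, hnd₁⟩ := exists_nonDeg hC hE hO ⟨a, haO⟩ (fun z hz => (hOsub hz).2.1)
  obtain ⟨O', hO'sub, hO', hz₁O'⟩ := _root_.mem_nhds_iff.1
    (Filter.inter_mem (eventually_nonDeg hC hE (hOsub hz₁).2.1 hnd₁) (hO.mem_nhds hz₁))
  letI : MeasurableSpace E := borel E
  haveI : BorelSpace E := ⟨rfl⟩
  let μ : Measure E := Measure.addHaar
  obtain ⟨z, hz, hzd⟩ : ∃ z ∈ O', DifferentiableAt ℝ I.M z := by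
    by_contra! hno
    have hae := LipschitzOnWith.ae_differentiableWithinAt_of_mem (μ := μ) hlip
    have h0 : μ O' = 0 := by
      refine measure_mono_null (fun z hz => ?_) (ae_iff.1 hae)
      intro hcon
      have hzb := (hOsub (hO'sub hz).2).2.2.2
      exact hno z hz ((hcon hzb).differentiableAt (isOpen_ball.mem_nhds hzb))
    exact (hO'.measure_pos μ ⟨z₁, hz₁O'⟩).ne' h0
  obtain ⟨hzn, hzO⟩ := hO'sub hz
  obtain ⟨hfz, hz0, hvz, -⟩ := hOsub hzO
  obtain ⟨Q', hQ'⟩ := exists_hess hE hF hz0 hzd.hasFDerivAt (hasFDerivAt_nd hC hE hz0)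
  have G : I.Good z (fderiv ℝ I.M z) (fderiv ℝ nd z) Q' :=
    ⟨hE, hF, hz0, hzd.hasFDerivAt, hasFDerivAt_nd hC hE hz0, hQ'⟩
  have hv : nd z (vf z) = 0 := by
    simp only [vf, map_sub, map_smul, hE.nd_self hz0, smul_eq_mul]
    field_simp [norm_ne_zero_iff.2 hz0]
    ring
  have h := G.nd_B_eq hv hvz (vf z)
  rw [G.B_eq_zero hC hdim hzn] at h
  simp only [zero_apply, map_zero] at h
  rcases mul_eq_zero.1 h.symm with h | h
  · exact (hzn _ hv hvz).ne' h
  · exact hfz ((div_eq_zero_iff.1 h).resolve_right (norm_ne_zero_iff.2 hz0))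

theorem fderiv_M_eq_zero {a : E} (ha : a ≠ 0) (hd : DifferentiableAt ℝ I.M a) :
    fderiv ℝ I.M a = 0 := by
  obtain ⟨Q', hQ'⟩ := exists_hess hE hF ha hd.hasFDerivAt (hasFDerivAt_nd hC hE ha)
  have G : I.Good a (fderiv ℝ I.M a) (fderiv ℝ nd a) Q' :=
    ⟨hE, hF, ha, hd.hasFDerivAt, hasFDerivAt_nd hC hE ha, hQ'⟩
  set B := fderiv ℝ I.M a
  let W : Submodule ℝ E := LinearMap.ker (nd a).toLinearMap
  have hW : ∀ x : W, nd a (x : E) = 0 := fun x => x.2
  let e := I.Meq hE hF ha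
  have he : ∀ p q, I.M a (e.symm (B p q)) = B p q := fun p q => by
    rw [← I.coe_Meq hE hF ha]; exact e.apply_symm_apply _
  have hmem : ∀ p q, e.symm (B p q) ∈ W := fun p q => by
    show nd a (e.symm (B p q)) = 0
    rw [← I.nd_comp_M hE hF ha, ContinuousLinearMap.comp_apply, he, G.nd_B]
  let β : W →ₗ[ℝ] W →ₗ[ℝ] W := LinearMap.mk₂ ℝ (fun p q => ⟨e.symm (B p q), hmem p q⟩)
    (fun x y z => Subtype.ext (by simp)) (fun c x y => Subtype.ext (by simp))
    (fun x y z => Subtype.ext (by simp)) (fun c x y => Subtype.ext (by simp))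
  have hψ : ∀ x : W, x ≠ 0 →
      HasFDerivAt (fun y : W => ‖y‖) ((nd (x : E)).comp W.subtypeL) x := fun x hx =>
    (hE.hasFDerivAt (fun h => hx (Subtype.ext h))).comp x W.subtypeL.hasFDerivAt
  have h0 := eq_zero_of_infinitesimal_isometries hψ β
    (fun p q => Subtype.ext (by simp [β, G.B_symm (p : E) q]))
    (fun s x hx => by
      have hx0 : (x : E) ≠ 0 := fun h => hx (Subtype.ext h)
      show nd (x : E) (e.symm (B s x)) = 0
      rw [← I.nd_M hE hF ha (hW x) (hmem s x) hx0, he, G.nd_B_eq (hW x) hx0,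
        I.transversal_eq hC hdim hE hF ha (hW x) hx0, sub_self, zero_div, mul_zero])
  have hker : ∀ p q, nd a p = 0 → nd a q = 0 → B p q = 0 := by
    intro p q hp hq
    have h : e.symm (B p q) = 0 := congrArg Subtype.val (h0 ⟨p, hp⟩ ⟨q, hq⟩)
    rw [← he p q, h, map_zero]
  refine ContinuousLinearMap.ext fun p => ContinuousLinearMap.ext fun q => ?_
  have hproj : ∀ x : E, ∃ c : ℝ, nd a (x - c • a) = 0 := fun x => ⟨nd a x / ‖a‖, by
    simp only [map_sub, map_smul, hE.nd_self ha, smul_eq_mul]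
    field_simp [norm_ne_zero_iff.2 ha]
    ring⟩
  obtain ⟨c, hc⟩ := hproj p
  obtain ⟨d, hd⟩ := hproj q
  have := hker _ _ hc hd
  simp only [map_sub, map_smul, G.B_self, smul_zero, sub_zero] at this
  rw [G.B_symm p a, G.B_self, zero_apply, smul_zero, sub_zero] at this
  simpa using this

theorem hasFDerivAt_M {a : E} (ha : a ≠ 0) :
    HasFDerivAt I.M (0 : E →L[ℝ] E →L[ℝ] F) a := by
  obtain ⟨r₁, hr₁, K, -, hlip⟩ := I.regular hE hF ha
  letI : MeasurableSpace E := borel E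
  haveI : BorelSpace E := ⟨rfl⟩
  let μ : Measure E := Measure.addHaar
  have hr : 0 < min r₁ ‖a‖ := lt_min hr₁ (norm_pos_iff.2 ha)
  refine hasFDerivAt_zero_of_ae μ hr (hlip.mono (ball_subset_ball (min_le_left _ _))) ?_
  filter_upwards [LipschitzOnWith.ae_differentiableWithinAt_of_mem (μ := μ) hlip] with x hx hxb
  have hx1 : x ∈ ball a r₁ := ball_subset_ball (min_le_left _ _) hxb
  have hx0 : x ≠ 0 := by
    rintro rfl
    rw [mem_ball, dist_zero_left] at hxb
    exact absurd (min_le_right r₁ ‖a‖) (not_le.2 hxb)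
  have hd := (hx hx1).differentiableAt (isOpen_ball.mem_nhds hx1)
  have := hd.hasFDerivAt
  rwa [I.fderiv_M_eq_zero hC hdim hE hF hx0 hd] at this

/-- The extension is a linear isometric equivalence. -/
theorem exists_linear : ∃ L : E ≃ₗᵢ[ℝ] F, ∀ x, L x = I.T x := by
  haveI : Nontrivial E := Module.nontrivial_of_finrank_pos (R := ℝ) (by omega)
  obtain ⟨z₀, hz₀⟩ := exists_ne (0 : E)
  have hconn : IsPreconnected ({0}ᶜ : Set E) :=
    (isConnected_compl_singleton_of_one_lt_rank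
      (by exact_mod_cast Module.lt_rank_of_lt_finrank (R := ℝ) (M := E) (n := 1) (by omega))
      0).isPreconnected
  have hconst : ∀ z, z ≠ 0 → I.M z = I.M z₀ := fun z hz =>
    isOpen_compl_singleton.is_const_of_fderiv_eq_zero hconn
      (fun x hx => (I.hasFDerivAt_M hC hdim hE hF hx).differentiableAt.differentiableWithinAt)
      (fun x hx => (I.hasFDerivAt_M hC hdim hE hF hx).fderiv) hz hz₀
  have hT : ∀ z, I.M z₀ z = I.T z := by
    intro z
    rcases eq_or_ne z 0 with rfl | hz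
    · rw [map_zero, I.T_zero]
    · rw [← hconst z hz, I.M_self hE hF hz]
  refine ⟨{ (I.Meq hE hF hz₀).toLinearEquiv with
    norm_map' := fun x => ?_ }, fun x => hT x⟩
  show ‖I.M z₀ x‖ = ‖x‖
  rw [hT, I.norm_T]

end SphereIso

end Vale.Agent.P084
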