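import Vale.Agent.P084.SphereIso

/-! The homogeneous extension is differentiable with locally Lipschitz derivative. -/

namespace Vale.Agent.P084

set_option linter.unusedSectionVars false

open Filter Topology Set Metric
open scoped NNReal

section Chord

variable {G : Type*} [NormedAddCommGroup G] [NormedSpace ℝ G]

/-- Derivative of `y ↦ ‖y - ‖y‖ • c‖`. -/
noncomputable def chordD (c y : G) : G →L[ℝ] ℝ :=
  (nd (y - ‖y‖ • c)).comp (ContinuousLinearMap.id ℝ G - (nd y).smulRight c)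

theorem hasFDerivAt_chord (hG : SmoothNorm G) {c y : G} (hy : y ≠ 0) (hv : y - ‖y‖ • c ≠ 0) :
    HasFDerivAt (fun y => ‖y - ‖y‖ • c‖) (chordD c y) y :=
  HasFDerivAt.comp y (f := fun y => y - ‖y‖ • c) (g := fun x : G => ‖x‖) (hG.hasFDerivAt hv)
    ((hasFDerivAt_id y).sub ((hG.hasFDerivAt hy).smul_const c))

theorem chordD_lip {L : ℝ} (hL0 : 0 ≤ L)
    (hL : ∀ z w : G, z ≠ 0 → w ≠ 0 → ‖nd z - nd w‖ ≤ L * ‖z - w‖ / ‖z‖)
    {c y y' : G} (hc : ‖c‖ ≤ 1) (hy : y ≠ 0) (hy' : y' ≠ 0) (hv : y - ‖y‖ • c ≠ 0)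
    (hv' : y' - ‖y'‖ • c ≠ 0) :
    ‖chordD c y - chordD c y'‖ ≤ (4 * L / ‖y - ‖y‖ • c‖ + L / ‖y‖) * ‖y - y'‖ := by
  set v := y - ‖y‖ • c
  set v' := y' - ‖y'‖ • c
  have h1 : ‖v - v'‖ ≤ 2 * ‖y - y'‖ := by
    have : v - v' = (y - y') - (‖y‖ - ‖y'‖) • c := by simp only [v, v']; module
    rw [this]
    refine (norm_sub_le _ _).trans ?_
    rw [norm_smul, Real.norm_eq_abs]
    have := mul_le_mul (abs_norm_sub_norm_le y y') hc (norm_nonneg c) (norm_nonneg _)
    linarith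
  have e : chordD c y - chordD c y' =
      (nd v - nd v').comp (ContinuousLinearMap.id ℝ G - (nd y).smulRight c)
      - (nd v').comp ((nd y - nd y').smulRight c) := by
    refine ContinuousLinearMap.ext fun x => ?_
    simp only [chordD, sub_apply, ContinuousLinearMap.comp_apply, ContinuousLinearMap.id_apply,
      ContinuousLinearMap.smulRight_apply, map_sub, map_smul, smul_eq_mul, v, v']
    ring
  have n1 : ‖ContinuousLinearMap.id ℝ G - (nd y).smulRight c‖ ≤ 2 := by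
    refine ContinuousLinearMap.opNorm_le_bound _ (by norm_num) fun x => ?_
    simp only [sub_apply, ContinuousLinearMap.id_apply, ContinuousLinearMap.smulRight_apply]
    refine (norm_sub_le _ _).trans ?_
    rw [norm_smul]
    have := (nd y).le_of_opNorm_le (norm_nd_le y) x
    nlinarith [norm_nonneg (nd y x), norm_nonneg x, norm_nonneg c]
  have n2 : ‖(nd y - nd y').smulRight c‖ ≤ ‖nd y - nd y'‖ := by
    rw [ContinuousLinearMap.norm_smulRight_apply]
    exact mul_le_of_le_one_right (norm_nonneg _) hc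
  rw [e]
  refine (norm_sub_le _ _).trans ?_
  have t1 : ‖(nd v - nd v').comp (ContinuousLinearMap.id ℝ G - (nd y).smulRight c)‖
      ≤ 4 * L / ‖v‖ * ‖y - y'‖ := by
    refine (ContinuousLinearMap.opNorm_comp_le _ _).trans ?_
    calc ‖nd v - nd v'‖ * _ ≤ (L * (2 * ‖y - y'‖) / ‖v‖) * 2 := by
          refine mul_le_mul ((hL v v' hv hv').trans ?_) n1 (norm_nonneg _) (by positivity)
          gcongr
      _ = _ := by ring
  have t2 : ‖(nd v').comp ((nd y - nd y').smulRight c)‖ ≤ L / ‖y‖ * ‖y - y'‖ := by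
    refine (ContinuousLinearMap.opNorm_comp_le _ _).trans ?_
    calc ‖nd v'‖ * _ ≤ 1 * (L * ‖y - y'‖ / ‖y‖) :=
          mul_le_mul (norm_nd_le v') (n2.trans (hL y y' hy hy')) (norm_nonneg _) zero_le_one
      _ = _ := by ring
  linarith

/-- A vector annihilated by all chord functionals at `y` vanishes. -/
theorem eq_zero_of_chords (hG : SmoothNorm G) {y x : G} (hy : y ≠ 0) (h0 : nd y x = 0)
    (h : ∀ c : G, ‖c‖ = 1 → y - ‖y‖ • c ≠ 0 → nd (y - ‖y‖ • c) x = 0) : x = 0 := by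
  have hyn := norm_pos_iff.2 hy
  have key : ∀ w : G, 0 < nd y w → nd w x = 0 := by
    intro w hw
    have hw0 : w ≠ 0 := by intro h; simp [h] at hw
    have hwn := norm_pos_iff.2 hw0
    let g : ℝ → ℝ := fun τ => ‖y - τ • w‖
    have hd : HasDerivAt g (-nd y w) 0 := by
      have h1 : HasDerivAt (fun τ : ℝ => y - τ • w) (-w) 0 := by
        simpa using ((hasDerivAt_id (0 : ℝ)).smul_const w).const_sub y
      have := (hG.hasFDerivAt hy).comp_hasDerivAt_of_eq (0 : ℝ) h1 (by simp)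
      rwa [map_neg] at this
    have hsl := (hasDerivAt_iff_tendsto_slope_zero.1 hd).mono_left (nhdsGT_le_nhdsNE 0)
    obtain ⟨τ₁, hτ₁, hτ₁'⟩ :=
      ((hsl.eventually (gt_mem_nhds (by linarith : -nd y w < 0))).and
        self_mem_nhdsWithin).exists
    simp only [g, zero_add, zero_smul, sub_zero, smul_eq_mul] at hτ₁
    have hlt : g τ₁ < ‖y‖ := by
      have hpos : (0 : ℝ) < τ₁ := hτ₁'
      have : g τ₁ - ‖y‖ < 0 := by
        by_contra hcon
        push Not at hcon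
        exact absurd (mul_nonneg (inv_nonneg.2 hpos.le) hcon) (by simpa [g] using hτ₁)
      linarith
    set τ₂ := max τ₁ ((2 * ‖y‖ + 1) / ‖w‖)
    have hgt : ‖y‖ < g τ₂ := by
      have h1 := norm_sub_norm_le (τ₂ • w) y
      rw [norm_sub_rev, norm_smul, Real.norm_of_nonneg
        (le_max_of_le_right (by positivity) : (0:ℝ) ≤ τ₂)] at h1
      have h2 : 2 * ‖y‖ + 1 ≤ τ₂ * ‖w‖ := (div_le_iff₀ hwn).1 (le_max_right _ _)
      show ‖y‖ < ‖y - τ₂ • w‖
      linarith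
    have hgc : Continuous g := by simp only [g]; fun_prop
    obtain ⟨τ, hτI, hτ⟩ := intermediate_value_Icc (le_max_left _ _) hgc.continuousOn
      ⟨hlt.le, hgt.le⟩
    have hτ' : ‖y - τ • w‖ = ‖y‖ := hτ
    have hτpos : 0 < τ := lt_of_lt_of_le hτ₁' hτI.1
    set c := ‖y‖⁻¹ • (y - τ • w)
    have hc : ‖c‖ = 1 := by
      simp only [c]
      rw [norm_smul, norm_inv, norm_norm, hτ', inv_mul_cancel₀ hyn.ne']
    have hv : y - ‖y‖ • c = τ • w := by
      simp only [c, smul_smul, mul_inv_cancel₀ hyn.ne', one_smul]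
      abel
    have := h c hc (by rw [hv]; exact smul_ne_zero hτpos.ne' hw0)
    rwa [hv, nd_smul_pos w hτpos] at this
  by_contra hx
  have hc : ContinuousAt (fun ε : ℝ => nd (x + ε • y) x) 0 := by
    have h2 : ContinuousAt nd (x + (0 : ℝ) • y) := by simpa using hG.continuousAt_nd hx
    have h3 : ContinuousAt (fun ε : ℝ => x + ε • y) 0 := by fun_prop
    have h4 : ContinuousAt (nd ∘ fun ε : ℝ => x + ε • y) 0 := ContinuousAt.comp h2 h3
    exact h4.clm_apply continuousAt_const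
  have hlim : Tendsto (fun ε : ℝ => nd (x + ε • y) x) (𝓝[>] 0) (𝓝 0) := by
    refine tendsto_const_nhds.congr' ?_
    filter_upwards [self_mem_nhdsWithin] with ε (hε : 0 < ε)
    refine (key _ ?_).symm
    simp [h0, hG.nd_self hy, hε, hyn]
  have := tendsto_nhds_unique (hc.tendsto.mono_left nhdsWithin_le_nhds) hlim
  simp only [zero_smul, add_zero, hG.nd_self hx, norm_eq_zero] at this
  exact hx this

end Chord

variable {E F : Type*} [NormedAddCommGroup E] [NormedSpace ℝ E]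
  [NormedAddCommGroup F] [NormedSpace ℝ F] [FiniteDimensional ℝ F]

namespace SphereIso

variable (I : SphereIso E F)

theorem chord_ne {z c : E} (hc : ‖c‖ = 1 ∨ c = 0) (h : z - ‖z‖ • c ≠ 0) :
    I.T z - ‖I.T z‖ • I.T c ≠ 0 := by
  rw [I.norm_T, ← I.smul_T _ _ (norm_nonneg z)]
  rcases hc with hc | rfl
  · intro h'
    have := I.dist_T z (‖z‖ • c) (by rw [norm_smul, hc, norm_norm, mul_one])
    rw [h', norm_zero] at this
    exact h (norm_eq_zero.1 this.symm)
  · simp only [smul_zero, sub_zero, I.T_zero] at h ⊢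
    exact I.T_ne h

theorem chord_eq {z c : E} (hc : ‖c‖ = 1 ∨ c = 0) :
    ‖I.T z - ‖I.T z‖ • I.T c‖ = ‖z - ‖z‖ • c‖ := by
  rw [I.norm_T, ← I.smul_T _ _ (norm_nonneg z)]
  rcases hc with hc | rfl
  · exact I.dist_T z (‖z‖ • c) (by rw [norm_smul, hc, norm_norm, mul_one])
  · simp [I.T_zero, I.norm_T]

theorem regular (hE : SmoothNorm E) (hF : SmoothNorm F) {z₀ : E} (hz₀ : z₀ ≠ 0) :
    ∃ r > (0 : ℝ), ∃ K : ℝ≥0, (∀ z ∈ ball z₀ r, DifferentiableAt ℝ I.T z) ∧
      LipschitzOnWith K (fderiv ℝ I.T) (ball z₀ r) := by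
  let U : {c : E // (‖c‖ = 1 ∨ c = 0) ∧ z₀ - ‖z₀‖ • c ≠ 0} → Set F := fun c => {x | chordD (I.T c.1) (I.T z₀) x ≠ 0}
  have hU : sphere (0 : F) 1 ⊆ ⋃ c, U c := by
    intro x hx
    by_contra hcon
    simp only [mem_iUnion, not_exists, U, mem_setOf_eq, not_not] at hcon
    have hy := I.T_ne hz₀
    have h0 : nd (I.T z₀) x = 0 := by
      have h := hcon ⟨0, Or.inr rfl, by simpa using hz₀⟩
      simpa [chordD, I.T_zero] using h
    have : x = 0 := eq_zero_of_chords hF hy h0 fun c hc hv => by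
      have hSc : ‖I.S c‖ = 1 := by rw [← I.norm_T, I.right_inv, hc]
      have hne : z₀ - ‖z₀‖ • I.S c ≠ 0 := by
        intro h
        have := congrArg norm h
        rw [← I.chord_eq (Or.inl hSc), I.right_inv, norm_zero, norm_eq_zero] at this
        exact hv this
      have h := hcon ⟨I.S c, Or.inl hSc, hne⟩
      simpa [chordD, I.right_inv, h0] using h
    simp [this] at hx
  obtain ⟨t, ht⟩ := (isCompact_sphere (0 : F) 1).elim_finite_subcover U
    (fun c => isOpen_ne_fun (by fun_prop) continuous_const) hU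
  let A : E → (F →L[ℝ] (t → ℝ)) := fun z =>
    ContinuousLinearMap.pi fun c => chordD (I.T c.1.1) (I.T z)
  let R : E → (E →L[ℝ] (t → ℝ)) := fun z =>
    ContinuousLinearMap.pi fun c => chordD c.1.1 z
  -- good neighbourhood
  let N : Set E := {z | z ≠ 0 ∧ ‖z₀‖ / 2 < ‖z‖ ∧
    ∀ c : t, ‖z₀ - ‖z₀‖ • c.1.1‖ / 2 < ‖z - ‖z‖ • c.1.1‖}
  have hN : N ∈ 𝓝 z₀ := by
    have h1 : ∀ᶠ z in 𝓝 z₀, z ≠ (0 : E) := isOpen_ne.mem_nhds hz₀
    have h2 : ∀ᶠ z in 𝓝 z₀, ‖z₀‖ / 2 < ‖z‖ :=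
      (continuous_norm.tendsto z₀).eventually (lt_mem_nhds (by linarith [norm_pos_iff.2 hz₀]))
    have h3 : ∀ᶠ z in 𝓝 z₀, ∀ c : t, ‖z₀ - ‖z₀‖ • c.1.1‖ / 2 < ‖z - ‖z‖ • c.1.1‖ := by
      refine eventually_all.2 fun c => ?_
      have hcont : Continuous fun z : E => ‖z - ‖z‖ • c.1.1‖ := by fun_prop
      exact (hcont.tendsto z₀).eventually
        (lt_mem_nhds (by linarith [norm_pos_iff.2 c.1.2.2]))
    exact h1.and (h2.and h3)
  have hne : ∀ z ∈ N, ∀ c : t, z - ‖z‖ • c.1.1 ≠ 0 := fun z hz c => by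
    apply norm_pos_iff.1
    linarith [hz.2.2 c, norm_nonneg (z₀ - ‖z₀‖ • c.1.1)]
  obtain ⟨L, hL0, hL⟩ := hE.lip
  obtain ⟨L', hL'0, hL'⟩ := hF.lip
  let K₀ : t → ℝ := fun c =>
    3 * (4 * L' / (‖z₀ - ‖z₀‖ • c.1.1‖ / 2) + L' / (‖z₀‖ / 2))
      + (4 * L / (‖z₀ - ‖z₀‖ • c.1.1‖ / 2) + L / (‖z₀‖ / 2))
  set K₁ : ℝ := ∑ c, K₀ c with hK₁
  have hK₀ : ∀ c, 0 ≤ K₀ c := fun c => by simp only [K₀]; positivity
  have hlip : ∀ z ∈ N, ∀ w ∈ N, ‖A z - A w‖ ≤ K₁ * ‖z - w‖ ∧ ‖R z - R w‖ ≤ K₁ * ‖z - w‖ := by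
    intro z hz w hw
    have hK : ∀ c, K₀ c ≤ K₁ := fun c =>
      Finset.single_le_sum (fun i _ => hK₀ i) (Finset.mem_univ c)
    have hb : ∀ c : t,
        ‖chordD (I.T c.1.1) (I.T z) - chordD (I.T c.1.1) (I.T w)‖ ≤ K₁ * ‖z - w‖ ∧
        ‖chordD c.1.1 z - chordD c.1.1 w‖ ≤ K₁ * ‖z - w‖ := by
      intro c
      have hc1 : ‖c.1.1‖ ≤ 1 := by rcases c.1.2.1 with h | h <;> simp [h]
      have hd := norm_pos_iff.2 c.1.2.2
      have hn := norm_pos_iff.2 hz₀
      have b0 : ∀ {M : ℝ}, 0 ≤ M → 4 * M / ‖z - ‖z‖ • c.1.1‖ + M / ‖z‖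
          ≤ 4 * M / (‖z₀ - ‖z₀‖ • c.1.1‖ / 2) + M / (‖z₀‖ / 2) := by
        intro M hM
        gcongr
        · exact (hz.2.2 c).le
        · exact hz.2.1.le
      constructor
      · have h := chordD_lip hL'0 hL' (c := I.T c.1.1) (by rw [I.norm_T]; exact hc1)
          (I.T_ne hz.1) (I.T_ne hw.1) (I.chord_ne c.1.2.1 (hne z hz c))
          (I.chord_ne c.1.2.1 (hne w hw c))
        rw [I.chord_eq c.1.2.1, I.norm_T] at h
        refine h.trans ?_
        have hT := I.lipschitz.norm_sub_le z w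
        push_cast at hT
        have hpos : 0 ≤ 4 * L' / ‖z - ‖z‖ • c.1.1‖ + L' / ‖z‖ := by positivity
        refine (mul_le_mul_of_nonneg_left hT hpos).trans ?_
        rw [← mul_assoc]
        refine mul_le_mul_of_nonneg_right ((?_ : _ ≤ K₀ c).trans (hK c)) (norm_nonneg _)
        have := b0 hL'0
        have h2 : 0 ≤ 4 * L / (‖z₀ - ‖z₀‖ • c.1.1‖ / 2) + L / (‖z₀‖ / 2) := by positivity
        simp only [K₀]
        linarith
      · have h := chordD_lip hL0 hL hc1 hz.1 hw.1 (hne z hz c) (hne w hw c)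
        refine h.trans (mul_le_mul_of_nonneg_right ((?_ : _ ≤ K₀ c).trans (hK c)) (norm_nonneg _))
        have := b0 hL0
        have h2 : 0 ≤ 4 * L' / (‖z₀ - ‖z₀‖ • c.1.1‖ / 2) + L' / (‖z₀‖ / 2) := by positivity
        simp only [K₀]
        linarith
    have hK1 : 0 ≤ K₁ := Finset.sum_nonneg fun i _ => hK₀ i
    constructor <;>
      refine ContinuousLinearMap.opNorm_le_bound _ (by positivity) fun x => ?_ <;>
      rw [pi_norm_le_iff_of_nonneg (by positivity)] <;> intro c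
    · exact ((chordD (I.T c.1.1) (I.T z) - chordD (I.T c.1.1) (I.T w)).le_opNorm x).trans
        (mul_le_mul_of_nonneg_right (hb c).1 (norm_nonneg _))
    · exact ((chordD c.1.1 z - chordD c.1.1 w).le_opNorm x).trans
        (mul_le_mul_of_nonneg_right (hb c).2 (norm_nonneg _))
  have hinj : ∀ x, A z₀ x = 0 → x = 0 := by
    intro x hx
    by_contra hne
    have hmem : ‖x‖⁻¹ • x ∈ sphere (0 : F) 1 := by simpa using norm_normalize hne
    obtain ⟨c, hc, hcU⟩ := mem_iUnion₂.1 (ht hmem)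
    apply hcU
    have := congrFun hx ⟨c, hc⟩
    simp only [A, ContinuousLinearMap.pi_apply, Pi.zero_apply] at this
    show chordD _ _ _ = 0
    rw [map_smul, this, smul_zero]
  obtain ⟨κ, hκ, hκA⟩ := LinearMap.exists_antilipschitzWith (A z₀).toLinearMap
    (LinearMap.ker_eq_bot'.2 hinj)
  have hbelow : ∀ᶠ z in 𝓝 z₀, z ∈ N ∧ ∀ x, ‖x‖ ≤ 2 * κ * ‖A z x‖ := by
    have hK1 : 0 ≤ K₁ := Finset.sum_nonneg fun i _ => hK₀ i
    have hpos : 0 < 1 / (2 * (κ : ℝ) * (K₁ + 1)) := by positivity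
    filter_upwards [hN, ball_mem_nhds z₀ hpos] with z hz hzb
    refine ⟨hz, fun x => ?_⟩
    have h1 := hκA.le_mul_dist x 0
    simp only [dist_zero_right, map_zero] at h1
    have h2 : ‖A z₀ x‖ ≤ ‖A z x‖ + ‖A z - A z₀‖ * ‖x‖ := by
      have := (A z - A z₀).le_opNorm x
      rw [sub_apply] at this
      calc ‖A z₀ x‖ = ‖A z x - (A z x - A z₀ x)‖ := by rw [sub_sub_cancel]
        _ ≤ _ := (norm_sub_le _ _).trans (by linarith)
    have h3 := (hlip z hz z₀ (mem_of_mem_nhds hN)).1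
    rw [mem_ball, dist_eq_norm, lt_div_iff₀ (by positivity)] at hzb
    have h4 : (κ : ℝ) * ‖A z - A z₀‖ ≤ 1 / 2 := by
      nlinarith [norm_nonneg (z - z₀), κ.coe_nonneg]
    have h1' : ‖x‖ ≤ κ * ‖A z₀ x‖ := h1
    nlinarith [norm_nonneg x, mul_le_mul_of_nonneg_left h2 κ.coe_nonneg]
  obtain ⟨r, hr, hball⟩ := Metric.mem_nhds_iff.1 hbelow
  -- derivative
  have hder : ∀ z ∈ ball z₀ r,
      DifferentiableAt ℝ I.T z ∧ (A z).comp (fderiv ℝ I.T z) = R z := by
    intro z hz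
    obtain ⟨hzN, hzA⟩ := hball hz
    have hΨ : HasFDerivAt (fun y (c : t) => ‖y - ‖y‖ • I.T c.1.1‖) (A z) (I.T z) :=
      hasFDerivAt_pi.2 fun c => hasFDerivAt_chord hF (I.T_ne hzN.1)
        (I.chord_ne c.1.2.1 (hne z hzN c))
    have hRd : HasFDerivAt (fun x (c : t) => ‖x - ‖x‖ • c.1.1‖) (R z) z :=
      hasFDerivAt_pi.2 fun c => hasFDerivAt_chord hE hzN.1 (hne z hzN c)
    have hcomp : ∀ x, (fun c : t => ‖I.T x - ‖I.T x‖ • I.T c.1.1‖)
        = fun c : t => ‖x - ‖x‖ • c.1.1‖ := fun x => funext fun c => I.chord_eq c.1.2.1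
    obtain ⟨P, hP⟩ := (A z).toLinearMap.exists_leftInverse_of_injective
      (LinearMap.ker_eq_bot'.2 fun x hx => norm_le_zero_iff.1 (by
        have := hzA x
        rw [show A z x = 0 from hx, norm_zero, mul_zero] at this
        exact this))
    let Pc := LinearMap.toContinuousLinearMap P
    have hTd : HasFDerivAt I.T (Pc.comp (R z)) z := by
      rw [hasFDerivAt_iff_isLittleO]
      have hTlim : Tendsto I.T (𝓝 z) (𝓝 (I.T z)) := I.continuous.continuousAt
      have h1 := hΨ.isLittleO.comp_tendsto hTlim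
      have h2 : (fun x => (fun c : t => ‖I.T x - ‖I.T x‖ • I.T c.1.1‖)
          - (fun c : t => ‖I.T z - ‖I.T z‖ • I.T c.1.1‖) - A z (I.T x - I.T z))
            =o[𝓝 z] fun x => x - z := by
        refine h1.trans_isBigO ?_
        exact Asymptotics.IsBigO.of_bound 3 (Eventually.of_forall fun x => by
          have := I.lipschitz.norm_sub_le x z
          simpa using this)
      have h3 := hRd.isLittleO
      simp only [hcomp] at h2
      have h4 := (Pc.isBigO_comp _ (𝓝 z)).trans_isLittleO (h3.sub h2)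
      refine h4.congr_left fun x => ?_
      have hPA : ∀ y, Pc (A z y) = y := fun y => LinearMap.congr_fun hP y
      simp only [map_sub, ContinuousLinearMap.comp_apply, hPA]
      abel
    refine ⟨hTd.differentiableAt, ?_⟩
    have hc := hΨ.comp z hTd.differentiableAt.hasFDerivAt
    exact hc.unique (hRd.congr_of_eventuallyEq (Eventually.of_forall hcomp))
  have hK1 : 0 ≤ K₁ := Finset.sum_nonneg fun i _ => hK₀ i
  refine ⟨r, hr, (2 * (κ : ℝ) * (4 * K₁)).toNNReal, fun z hz => (hder z hz).1,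
    LipschitzOnWith.of_dist_le' fun z hz w hw => ?_⟩
  rw [dist_eq_norm, dist_eq_norm]
  refine ContinuousLinearMap.opNorm_le_bound _ (by positivity) fun x => ?_
  have hzA := (hball hz).2 ((fderiv ℝ I.T z - fderiv ℝ I.T w) x)
  refine hzA.trans ?_
  have e : A z ((fderiv ℝ I.T z - fderiv ℝ I.T w) x)
      = (R z - R w) x - (A z - A w) (fderiv ℝ I.T w x) := by
    simp only [← (hder z hz).2, ← (hder w hw).2, sub_apply, map_sub,
      ContinuousLinearMap.comp_apply]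
    abel
  have hM : ‖fderiv ℝ I.T w x‖ ≤ 3 * ‖x‖ := by
    refine ((fderiv ℝ I.T w).le_opNorm x).trans (mul_le_mul_of_nonneg_right ?_ (norm_nonneg _))
    exact_mod_cast norm_fderiv_le_of_lipschitz ℝ I.lipschitz
  obtain ⟨l1, l2⟩ := hlip z (hball hz).1 w (hball hw).1
  rw [e]
  have b1 := ((R z - R w).le_opNorm x).trans (mul_le_mul_of_nonneg_right l2 (norm_nonneg _))
  have b2 : ‖(A z - A w) (fderiv ℝ I.T w x)‖ ≤ K₁ * ‖z - w‖ * (3 * ‖x‖) :=
    ((A z - A w).le_opNorm _).trans (mul_le_mul l1 hM (norm_nonneg _) (by positivity))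
  calc 2 * (κ : ℝ) * ‖(R z - R w) x - (A z - A w) (fderiv ℝ I.T w x)‖
      ≤ 2 * κ * (K₁ * ‖z - w‖ * ‖x‖ + K₁ * ‖z - w‖ * (3 * ‖x‖)) :=
        mul_le_mul_of_nonneg_left ((norm_sub_le _ _).trans (add_le_add b1 b2)) (by positivity)
    _ = _ := by ring

theorem differentiableAt (hE : SmoothNorm E) (hF : SmoothNorm F) {z : E} (hz : z ≠ 0) :
    DifferentiableAt ℝ I.T z := by
  obtain ⟨r, hr, K, h, -⟩ := I.regular hE hF hz
  exact h z (mem_ball_self hr)

theorem continuousAt_fderiv (hE : SmoothNorm E) (hF : SmoothNorm F) {z : E} (hz : z ≠ 0) :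
    ContinuousAt (fderiv ℝ I.T) z := by
  obtain ⟨r, hr, K, -, h⟩ := I.regular hE hF hz
  exact h.continuousOn.continuousAt (ball_mem_nhds z hr)

end SphereIso

end Vale.Agent.P084
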