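import Vale.Agent.P084.FirstOrder

/-! Second-order identities at a point of twice differentiability. -/

namespace Vale.Agent.P084

set_option linter.unusedSectionVars false

open Filter Topology Set Metric Asymptotics

section Hessian

variable {G : Type*} [NormedAddCommGroup G] [NormedSpace ℝ G]

theorem SmoothNorm.hess_symm (hG : SmoothNorm G) {y : G} (hy : y ≠ 0)
    {Q : G →L[ℝ] G →L[ℝ] ℝ} (hQ : HasFDerivAt nd Q y) (x v : G) : Q x v = Q v x :=
  second_derivative_symmetric_of_eventually (f := fun x : G => ‖x‖) (f' := nd)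
    (by filter_upwards [isOpen_ne.mem_nhds hy] with z hz using hG.hasFDerivAt hz) hQ x v

theorem SmoothNorm.hess_self (hG : SmoothNorm G) {y : G} (hy : y ≠ 0)
    {Q : G →L[ℝ] G →L[ℝ] ℝ} (hQ : HasFDerivAt nd Q y) : Q y = 0 := by
  have hp : HasDerivAt (fun s : ℝ => s • y) y 1 := by
    simpa using (hasDerivAt_id (1 : ℝ)).smul_const y
  have h1 : HasDerivAt (fun s : ℝ => nd (s • y)) (Q y) 1 :=
    hQ.comp_hasDerivAt_of_eq (1 : ℝ) hp (one_smul ℝ y).symm
  have hev : (fun s : ℝ => nd (s • y)) =ᶠ[𝓝 1] fun _ => nd y := by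
    filter_upwards [lt_mem_nhds (one_pos (α := ℝ))] with s hs
    exact nd_smul_pos y hs
  exact h1.unique ((hasDerivAt_const (1 : ℝ) (nd y)).congr_of_eventuallyEq hev)

theorem SmoothNorm.hess_self_right (hG : SmoothNorm G) {y : G} (hy : y ≠ 0)
    {Q : G →L[ℝ] G →L[ℝ] ℝ} (hQ : HasFDerivAt nd Q y) (x : G) : Q x y = 0 := by
  rw [hG.hess_symm hy hQ, hG.hess_self hy hQ]; rfl

theorem SmoothNorm.hess_nonneg (hG : SmoothNorm G) {y : G} (hy : y ≠ 0)
    {Q : G →L[ℝ] G →L[ℝ] ℝ} (hQ : HasFDerivAt nd Q y) (v : G) : 0 ≤ Q v v := by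
  have hline : HasDerivAt (fun t : ℝ => y + t • v) v 0 := by
    simpa using ((hasDerivAt_id (0 : ℝ)).smul_const v).const_add y
  have hd : HasDerivAt (fun t : ℝ => nd (y + t • v) v) (Q v v) 0 := by
    have := (hQ.comp_hasDerivAt_of_eq (0 : ℝ) hline (by simp)).clm_apply
      (hasDerivAt_const (0 : ℝ) v)
    simpa using this
  refine ge_of_tendsto ((hasDerivAt_iff_tendsto_slope_zero.1 hd).mono_left
    (nhdsGT_le_nhdsNE 0)) ?_
  have hev : ∀ᶠ t in 𝓝[>] (0 : ℝ), y + t • v ≠ 0 :=
    nhdsWithin_le_nhds (hline.continuousAt.eventually_ne (by simpa using hy))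
  filter_upwards [hev, self_mem_nhdsWithin] with t ht (ht0 : 0 < t)
  have h1 := hG.nd_sub_le (x := y + t • v) hy
  have h2 := hG.nd_sub_le (x := y) ht
  simp only [map_sub, map_add, map_smul, smul_eq_mul] at h1 h2
  simp only [zero_add, zero_smul, add_zero, smul_eq_mul]
  have : 0 ≤ t * (nd (y + t • v) v - nd y v) := by nlinarith
  exact mul_nonneg (inv_nonneg.2 ht0.le) (nonneg_of_mul_nonneg_right this ht0)

end Hessian

variable {E F : Type*} [NormedAddCommGroup E] [NormedSpace ℝ E] [FiniteDimensional ℝ E]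
  [NormedAddCommGroup F] [NormedSpace ℝ F] [FiniteDimensional ℝ F]

namespace SphereIso

variable (I : SphereIso E F)

/-- A point where the extension is twice differentiable and the norm is twice differentiable. -/
structure Good (a : E) (B : E →L[ℝ] E →L[ℝ] F) (Q : E →L[ℝ] E →L[ℝ] ℝ)
    (Q' : F →L[ℝ] F →L[ℝ] ℝ) : Prop where
  hE : SmoothNorm E
  hF : SmoothNorm F
  ha : a ≠ 0
  hB : HasFDerivAt I.M B a
  hQ : HasFDerivAt nd Q a
  hQ' : HasFDerivAt nd Q' (I.T a)

variable {I} {a : E} {B : E →L[ℝ] E →L[ℝ] F} {Q : E →L[ℝ] E →L[ℝ] ℝ}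
  {Q' : F →L[ℝ] F →L[ℝ] ℝ}

/-- Twice differentiability of the target norm is automatic. -/
theorem exists_hess (hE : SmoothNorm E) (hF : SmoothNorm F) (ha : a ≠ 0)
    (hB : HasFDerivAt I.M B a) (hQ : HasFDerivAt nd Q a) :
    ∃ Q' : F →L[ℝ] F →L[ℝ] ℝ, HasFDerivAt nd Q' (I.T a) := by
  have hinv : DifferentiableAt ℝ (fun z => ContinuousLinearMap.inverse (I.M z)) a := by
    have h := (contDiffAt_map_inverse (n := 1) (I.Meq hE hF ha)).differentiableAt one_ne_zero
    rw [I.coe_Meq hE hF ha] at h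
    exact h.comp a hB.differentiableAt
  have hc : DifferentiableAt ℝ (fun z => (nd z).comp (ContinuousLinearMap.inverse (I.M z))) a :=
    hQ.differentiableAt.clm_comp hinv
  have he : (fun z => nd (I.T z)) =ᶠ[𝓝 a]
      fun z => (nd z).comp (ContinuousLinearMap.inverse (I.M z)) := by
    filter_upwards [isOpen_ne.mem_nhds ha] with z hz
    rw [← I.nd_comp_M hE hF hz, ← I.coe_Meq hE hF hz, ContinuousLinearMap.inverse_equiv]
    ext x
    simp
  have hS : DifferentiableAt ℝ I.S (I.T a) := I.symm.differentiableAt hF hE (I.T_ne ha)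
  have h2 : DifferentiableAt ℝ ((fun z => nd (I.T z)) ∘ I.S) (I.T a) := by
    refine DifferentiableAt.comp _ ?_ hS
    rw [I.left_inv]
    exact hc.congr_of_eventuallyEq he
  exact ⟨_, (h2.congr_of_eventuallyEq (Eventually.of_forall fun y => by
    simp [I.right_inv])).hasFDerivAt⟩

namespace Good

variable (G : I.Good a B Q Q')
include G

theorem B_self : B a = 0 := by
  have hp : HasDerivAt (fun s : ℝ => s • a) a 1 := by
    simpa using (hasDerivAt_id (1 : ℝ)).smul_const a
  have h1 : HasDerivAt (fun s : ℝ => I.M (s • a)) (B a) 1 :=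
    G.hB.comp_hasDerivAt_of_eq (1 : ℝ) hp (one_smul ℝ a).symm
  have hev : (fun s : ℝ => I.M (s • a)) =ᶠ[𝓝 1] fun _ => I.M a := by
    filter_upwards [lt_mem_nhds (one_pos (α := ℝ))] with s hs
    exact I.M_smul G.hE G.hF G.ha hs
  exact h1.unique ((hasDerivAt_const (1 : ℝ) (I.M a)).congr_of_eventuallyEq hev)

theorem B_symm (x v : E) : B x v = B v x :=
  second_derivative_symmetric_of_eventually (f := I.T) (f' := I.M)
    (by filter_upwards [isOpen_ne.mem_nhds G.ha] with z hz using I.hasFDerivAt_T G.hE G.hF hz)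
    G.hB x v

/-- The derivative preserves the Hessian of the norm. -/
theorem hess_eq (p v : E) : Q' (I.M a p) (I.M a v) = Q p v := by
  have hE := G.hE
  have hF := G.hF
  have hMa := I.M_self hE hF G.ha
  have key : ∀ v, nd a v = 0 → Q' (I.M a p) (I.M a v) = Q p v := by
    intro v hv
    have hn := norm_pos_iff.2 G.ha
    set k : ℝ := 1 / (2 * ‖a‖) with hk
    have hk0 : 0 < k := by positivity
    let zl : ℝ → E := fun t => a + t • p
    have hzl : HasDerivAt zl p 0 := by
      simpa [zl] using ((hasDerivAt_id (0 : ℝ)).smul_const p).const_add a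
    have hz0 : zl 0 = a := by simp [zl]
    have hnz : HasDerivAt (fun t => ‖zl t‖) (nd a p) 0 :=
      (hE.hasFDerivAt G.ha).comp_hasDerivAt_of_eq (0 : ℝ) hzl hz0.symm
    have hTz : HasDerivAt (fun t => I.T (zl t)) (I.M a p) 0 :=
      (I.hasFDerivAt_T hE hF G.ha).comp_hasDerivAt_of_eq (0 : ℝ) hzl hz0.symm
    let W : ℝ → F := fun t => k • (‖zl t‖ • I.T a + ‖a‖ • I.T (zl t))
    let w : ℝ → E := fun t => k • (‖zl t‖ • a + ‖a‖ • zl t)
    have hW : HasDerivAt W (k • (nd a p • I.T a + ‖a‖ • I.M a p)) 0 :=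
      ((hnz.smul_const (I.T a)).add (hTz.const_smul ‖a‖)).const_smul k
    have hw : HasDerivAt w (k • (nd a p • a + ‖a‖ • p)) 0 :=
      ((hnz.smul_const a).add (hzl.const_smul ‖a‖)).const_smul k
    have hw0 : w 0 = a := by
      simp only [w, hz0, hk]; match_scalars; field_simp; ring
    have hW0 : W 0 = I.T a := by
      simp only [W, hz0, hk]; match_scalars; field_simp; ring
    have d1 := (G.hQ'.comp_hasDerivAt_of_eq (0 : ℝ) hW hW0.symm).clm_apply
      (hasDerivAt_const (0 : ℝ) (I.M a v))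
    have d2 := (G.hQ.comp_hasDerivAt_of_eq (0 : ℝ) hw hw0.symm).clm_apply
      (hasDerivAt_const (0 : ℝ) v)
    have hev : (fun t => nd (W t) (I.M a v)) =ᶠ[𝓝 0] fun t => nd (w t) v := by
      filter_upwards [hw.continuousAt.eventually_ne (hw0.trans_ne G.ha),
        hzl.continuousAt.eventually_ne (hz0.trans_ne G.ha)] with t ht htz
      simp only [W, w, nd_smul_pos _ hk0]
      exact I.chord_sum hE hF htz G.ha hv fun h => ht (by simp only [w, h, smul_zero])
    have h := (d1.congr_of_eventuallyEq hev.symm).unique d2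
    simp only [map_add, map_smul, add_apply, smul_apply, map_zero, add_zero, smul_eq_mul,
      hE.hess_self G.ha G.hQ, hF.hess_self (I.T_ne G.ha) G.hQ', zero_apply, mul_zero,
      zero_add] at h
    exact mul_left_cancel₀ (mul_ne_zero hk0.ne' hn.ne') (by linarith)
  set c : ℝ := nd a v / ‖a‖
  have hv' : nd a (v - c • a) = 0 := by
    simp only [map_sub, map_smul, hE.nd_self G.ha, smul_eq_mul, c]
    field_simp [norm_ne_zero_iff.2 G.ha]
    ring
  have h := key _ hv'
  simp only [map_sub, map_smul, hMa, hF.hess_self_right (I.T_ne G.ha) G.hQ',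
    hE.hess_self_right G.ha G.hQ, smul_zero, sub_zero] at h
  exact h

/-- The second derivative is tangent. -/
theorem nd_B (p v : E) : nd (I.T a) (B p v) = 0 := by
  have h1 : HasFDerivAt (fun z => nd (I.T z)) (Q'.comp (I.M a)) a :=
    G.hQ'.comp a (I.hasFDerivAt_T G.hE G.hF G.ha)
  have h2 := h1.clm_comp G.hB
  have hev : (fun z => (nd (I.T z)).comp (I.M z)) =ᶠ[𝓝 a] nd := by
    filter_upwards [isOpen_ne.mem_nhds G.ha] with z hz using I.nd_comp_M G.hE G.hF hz
  have h := congrArg (fun L : E →L[ℝ] E →L[ℝ] ℝ => L p v)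
    ((h2.congr_of_eventuallyEq hev.symm).unique G.hQ)
  simp only [add_apply, ContinuousLinearMap.comp_apply, ContinuousLinearMap.compL_apply,
    ContinuousLinearMap.flip_apply, G.hess_eq] at h
  linarith

/-- The main pointwise relation. -/
theorem nd_B_eq {u : E} (hu : nd a u = 0) (hu0 : u ≠ 0) (s : E) :
    nd (I.M a u) (B s u)
      = Q s u * ((nd (I.M a u) (I.T a) - nd u a) / ‖a‖) := by
  have hE := G.hE
  have hF := G.hF
  have hn := norm_ne_zero_iff.2 G.ha
  let zl : ℝ → E := fun t => a + t • s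
  have hzl : HasDerivAt zl s 0 := by
    simpa [zl] using ((hasDerivAt_id (0 : ℝ)).smul_const s).const_add a
  have hz0 : zl 0 = a := by simp [zl]
  have hnz : HasDerivAt (fun t => ‖zl t‖) (nd a s) 0 :=
    (hE.hasFDerivAt G.ha).comp_hasDerivAt_of_eq (0 : ℝ) hzl hz0.symm
  have hnd : HasDerivAt (fun t => nd (zl t) u) (Q s u) 0 := by
    have := (G.hQ.comp_hasDerivAt_of_eq (0 : ℝ) hzl hz0.symm).clm_apply
      (hasDerivAt_const (0 : ℝ) u)
    simpa using this
  let vf : ℝ → E := fun t => u - (nd (zl t) u / ‖zl t‖) • zl t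
  have hvf : HasDerivAt vf (-((Q s u / ‖a‖) • a)) 0 := by
    have h1 := ((hnd.div hnz (by rw [hz0]; exact hn)).smul hzl).const_sub u
    refine h1.congr_deriv ?_
    simp only [Pi.div_apply, hz0, hu, zero_div, zero_smul, zero_mul, sub_zero, zero_add]
    congr 2
    field_simp
  have hv0 : vf 0 = u := by simp [vf, hz0, hu]
  have hM : HasDerivAt (fun t => I.M (zl t) (vf t))
      (B s u + I.M a (-((Q s u / ‖a‖) • a))) 0 := by
    have := (G.hB.comp_hasDerivAt_of_eq (0 : ℝ) hzl hz0.symm).clm_apply hvf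
    simpa [hz0, hv0] using this
  have hMu : I.M a u ≠ 0 := by
    rw [← norm_pos_iff, I.norm_M hE hF G.ha hu]; exact norm_pos_iff.2 hu0
  have d1 := (hF.hasFDerivAt hMu).comp_hasDerivAt_of_eq (0 : ℝ) hM (by simp [hz0, hv0])
  have d2 := (hE.hasFDerivAt hu0).comp_hasDerivAt_of_eq (0 : ℝ) hvf hv0.symm
  have hev : ((fun y : F => ‖y‖) ∘ fun t => I.M (zl t) (vf t))
      =ᶠ[𝓝 0] ((fun y : E => ‖y‖) ∘ vf) := by
    filter_upwards [hzl.continuousAt.eventually_ne (hz0.trans_ne G.ha)] with t ht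
    simp only [Function.comp_apply]
    refine I.norm_M hE hF ht ?_
    simp only [vf, map_sub, map_smul, hE.nd_self ht, smul_eq_mul]
    field_simp [norm_ne_zero_iff.2 ht]
    ring
  have h := (d1.congr_of_eventuallyEq hev.symm).unique d2
  simp only [map_add, map_neg, map_smul, I.M_self hE hF G.ha, smul_eq_mul] at h
  field_simp at h ⊢
  linarith

end Good

end SphereIso

end Vale.Agent.P084
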