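import Vale.Agent.P084.CubicSymm
import Vale.Agent.P084.CubicRigidity

/-! At a nondegenerate point of twice differentiability the second derivative vanishes. -/

namespace Vale.Agent.P084

set_option linter.unusedSectionVars false

open Filter Topology Set Metric
open scoped InnerProductSpace

/-- An orthonormal parametrisation of the tangent hyperplane for the Hessian of the norm. -/
theorem exists_frame {E : Type*} [NormedAddCommGroup E] [NormedSpace ℝ E] [FiniteDimensional ℝ E]
    (φ : E →L[ℝ] ℝ) (Q : E →L[ℝ] E →L[ℝ] ℝ) (hs : ∀ x y, Q x y = Q y x)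
    (hp : ∀ v, φ v = 0 → v ≠ 0 → 0 < Q v v) :
    ∃ (n : ℕ) (J : EuclideanSpace ℝ (Fin n) →L[ℝ] E),
      Module.finrank ℝ E ≤ n + 1 ∧ (∀ x, φ (J x) = 0) ∧ (∀ p, φ p = 0 → ∃ x, J x = p) ∧
      (∀ x y, Q (J x) (J y) = ⟪x, y⟫_ℝ) := by
  classical
  set W : Submodule ℝ E := LinearMap.ker φ.toLinearMap with hW
  let β : LinearMap.BilinForm ℝ W := LinearMap.mk₂ ℝ (fun x y => Q x y)
    (fun x y z => by simp) (fun c x y => by simp) (fun x y z => by simp) (fun c x y => by simp)
  have hβ : β.IsSymm := ⟨fun x y => hs x y⟩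
  obtain ⟨v, hv⟩ := LinearMap.BilinForm.exists_orthogonal_basis (B := β) (LinearMap.BilinForm.isSymm_iff.1 hβ)
  have hpos : ∀ i, 0 < Q (v i : E) (v i) := fun i => by
    refine hp _ (v i).2 fun h => v.ne_zero i (Subtype.ext h)
  let σ : Fin (Module.finrank ℝ W) → ℝ := fun i => Real.sqrt (Q (v i : E) (v i))
  have hσ : ∀ i, 0 < σ i := fun i => Real.sqrt_pos.2 (hpos i)
  let J : EuclideanSpace ℝ (Fin (Module.finrank ℝ W)) →ₗ[ℝ] E :=
    { toFun := fun x => ∑ i, x i • (σ i)⁻¹ • (v i : E)
      map_add' := fun x y => by simp [add_smul, Finset.sum_add_distrib]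
      map_smul' := fun c x => by simp [Finset.smul_sum, smul_smul, mul_assoc] }
  refine ⟨Module.finrank ℝ W, LinearMap.toContinuousLinearMap J, ?_, ?_, ?_, ?_⟩
  · have h1 := LinearMap.finrank_range_add_finrank_ker φ.toLinearMap
    have h2 := Submodule.finrank_le (LinearMap.range φ.toLinearMap)
    rw [Module.finrank_self] at h2
    rw [hW]
    omega
  · intro x
    show φ (∑ i, x i • (σ i)⁻¹ • (v i : E)) = 0
    rw [map_sum]
    refine Finset.sum_eq_zero fun i _ => ?_
    simp [show φ (v i : E) = 0 from (v i).2]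
  · intro p hp'
    refine ⟨WithLp.toLp 2 (fun i => v.repr ⟨p, hp'⟩ i * σ i), ?_⟩
    show (∑ i, (v.repr ⟨p, hp'⟩ i * σ i) • (σ i)⁻¹ • (v i : E)) = p
    have h := congrArg Subtype.val (v.sum_repr ⟨p, hp'⟩)
    simp only [AddSubmonoidClass.coe_finsetSum, Submodule.coe_smul] at h
    refine Eq.trans (Finset.sum_congr rfl fun i _ => ?_) h
    rw [smul_smul, mul_assoc, mul_inv_cancel₀ (hσ i).ne', mul_one]
  · intro x y
    show Q (∑ i, x i • (σ i)⁻¹ • (v i : E)) (∑ j, y j • (σ j)⁻¹ • (v j : E)) = _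
    simp only [map_sum, map_smul, sum_apply, smul_apply, smul_eq_mul]
    rw [PiLp.inner_apply]
    refine Finset.sum_congr rfl fun i _ => ?_
    rw [Finset.sum_eq_single i]
    · have h : σ i * σ i = Q (v i : E) (v i) := Real.mul_self_sqrt (hpos i).le
      have hσi := (hσ i).ne'
      simp only [RCLike.inner_apply, conj_trivial]
      rw [← h]
      field_simp
    · intro j _ hji
      have h : Q (v j : E) (v i) = 0 := by
        have h0 : β (v j) (v i) = 0 := hv hji
        simpa [β] using h0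
      have h' : Q (v i : E) (v j) = 0 := by rw [hs]; exact h
      simp [h, h']
    · simp

variable {E F : Type*} [NormedAddCommGroup E] [NormedSpace ℝ E] [FiniteDimensional ℝ E]
  [NormedAddCommGroup F] [NormedSpace ℝ F] [FiniteDimensional ℝ F]

namespace SphereIso.Good

variable {I : SphereIso E F} {a : E} {B : E →L[ℝ] E →L[ℝ] F} {Q : E →L[ℝ] E →L[ℝ] ℝ}
  {Q' : F →L[ℝ] F →L[ℝ] ℝ} (G : I.Good a B Q Q')
include G

/-- The second derivative vanishes at nondegenerate points. -/
theorem B_eq_zero [StrictConvexSpace ℝ E]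
    (hC : ContDiffOn ℝ 2 (fun x : E => ‖x‖) {0}ᶜ)
    (hdim : 3 ≤ Module.finrank ℝ E) (hp : ∀ v, nd a v = 0 → v ≠ 0 → 0 < Q v v) : B = 0 := by
  have hE := G.hE
  have hF := G.hF
  obtain ⟨n, J, hn, hJ0, hJs, hJQ⟩ :=
    exists_frame (nd a) Q (hE.hess_symm G.ha G.hQ) hp
  have hJi : ∀ x, J x = 0 → x = 0 := fun x hx => by
    have := hJQ x x
    rw [hx, map_zero] at this
    exact inner_self_eq_zero.1 this.symm
  have hJne : ∀ {x}, x ≠ 0 → J x ≠ 0 := fun h h' => h (hJi _ h')
  let V := EuclideanSpace ℝ (Fin n)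
  let R : (V →L[ℝ] ℝ) →L[ℝ] V := LinearMap.toContinuousLinearMap
    { toFun := fun ψ => (InnerProductSpace.toDual ℝ V).symm ψ
      map_add' := fun x y => map_add _ x y
      map_smul' := fun c x => by simp }
  have hR : ∀ ψ x, ⟪R ψ, x⟫_ℝ = ψ x := fun ψ x => InnerProductSpace.toDual_symm_apply
  let pre : (E →L[ℝ] ℝ) →L[ℝ] (V →L[ℝ] ℝ) := (ContinuousLinearMap.compL ℝ V E ℝ).flip J
  have hpre : ∀ ψ x, pre ψ x = ψ (J x) := fun ψ x => rfl
  let g : V → V := fun u => R (pre (nd (J u)))
  let Gd : V → V →L[ℝ] V := fun u => R.comp (pre.comp ((fderiv ℝ nd (J u)).comp J))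
  have hgi : ∀ u x, ⟪g u, x⟫_ℝ = nd (J u) (J x) := fun u x => by simp only [g, hR, hpre]
  have hGi : ∀ u x y, ⟪Gd u x, y⟫_ℝ = fderiv ℝ nd (J u) (J x) (J y) := fun u x y => by
    simp only [Gd, ContinuousLinearMap.comp_apply, hR, hpre]
  let K : V →L[ℝ] V →L[ℝ] (V →L[ℝ] ℝ) := LinearMap.toContinuousLinearMap
    { toFun := fun x => ((ContinuousLinearMap.compL ℝ V F ℝ).flip
          ((B (J x)).comp J)).comp (Q'.comp ((I.M a).comp J)) |>.flip
      map_add' := fun x y => by
        refine ContinuousLinearMap.ext fun p => ContinuousLinearMap.ext fun q => ?_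
        simp
      map_smul' := fun c x => by
        refine ContinuousLinearMap.ext fun p => ContinuousLinearMap.ext fun q => ?_
        simp }
  have hK : ∀ x y z, K x y z = Q' (I.M a (J z)) (B (J x) (J y)) := fun x y z => rfl
  let BV : V →L[ℝ] V →L[ℝ] V :=
    ((ContinuousLinearMap.compL ℝ V (V →L[ℝ] ℝ) V) R).comp K
  have hBV : ∀ x y z, ⟪BV x y, z⟫_ℝ = Q' (I.M a (J z)) (B (J x) (J y)) := fun x y z => by
    simp only [BV, ContinuousLinearMap.comp_apply, ContinuousLinearMap.compL_apply, hR, hK]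
  have hBVs : ∀ x y, BV x y = BV y x := fun x y => by
    refine ext_inner_right ℝ fun z => ?_
    rw [hBV, hBV, G.B_symm]
  -- representation of the second derivative
  have hrep : ∀ x s : V, ∃ y : V, B (J x) (J s) = I.M a (J y) ∧ BV x s = y := by
    intro x s
    obtain ⟨w, hw⟩ := (I.M_bijective hE hF G.ha).2 (B (J x) (J s))
    have hw0 : nd a w = 0 := by
      rw [← I.nd_comp_M hE hF G.ha, ContinuousLinearMap.comp_apply, hw, G.nd_B]
    obtain ⟨y, hy⟩ := hJs w hw0
    refine ⟨y, by rw [hy, hw], ext_inner_right ℝ fun z => ?_⟩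
    rw [hBV, ← hw, ← hy, G.hess_eq, hJQ, real_inner_comm]
  have hsymm3 : ∀ u v w, ⟪BV u v, w⟫_ℝ = ⟪BV u w, v⟫_ℝ := by
    have key : ∀ u v, ⟪BV v v, u⟫_ℝ = ⟪BV u v, v⟫_ℝ := fun u v => by
      rw [hBV, hBV]; exact G.cubic_symm (hJ0 u) (hJ0 v)
    intro u v w
    have h1 := key u (v + w)
    have h2 := key v (u + w)
    have h3 := key w (u + v)
    simp only [map_add, add_apply, inner_add_left, inner_add_right, key u v, key u w, key v u,
      key v w, key w u, key w v, hBVs v u, hBVs w u, hBVs w v] at h1 h2 h3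
    linarith
  have hdiff : ∀ u : V, u ≠ 0 → DifferentiableAt ℝ nd (J u) := fun u hu =>
    (contDiffAt_nd hC (hJne hu)).differentiableAt one_ne_zero
  let D : CubicData V :=
    { B := BV
      g := g
      G := Gd
      hs := hBVs
      hB := hsymm3
      hg := fun u hu => by
        exact R.hasFDerivAt.comp u (pre.hasFDerivAt.comp u
          ((hdiff u hu).hasFDerivAt.comp u J.hasFDerivAt))
      hGc := fun u hu => by
        have h1 : ContinuousAt (fderiv ℝ (nd : E → E →L[ℝ] ℝ)) (J u) :=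
          ((contDiffAt_nd hC (hJne hu)).fderiv_right (m := 0) (by norm_num)).continuousAt
        have h2 : ContinuousAt (fun u => fderiv ℝ nd (J u)) u :=
          ContinuousAt.comp h1 J.continuous.continuousAt
        exact (continuousAt_const.clm_comp (continuousAt_const.clm_comp
          (h2.clm_comp continuousAt_const))).continuousWithinAt
      hGs := fun u hu x y => by
        rw [hGi, real_inner_comm, hGi, hE.hess_symm (hJne hu) (hdiff u hu).hasFDerivAt]
      hGp := fun u hu x => by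
        rw [hGi]; exact hE.hess_nonneg (hJne hu) (hdiff u hu).hasFDerivAt _
      hpos := fun u hu => by
        rw [hgi, hE.nd_self (hJne hu)]; exact norm_pos_iff.2 (hJne hu)
      hhom := fun u hu c hc => by
        simp only [g, map_smul, nd_smul_pos _ hc]
      hodd := fun u => by
        simp only [g, map_neg, nd_neg]
      hinj := fun u w hu hw τ hτ h => by
        have h1 := congrArg (fun z => ⟪z, u⟫_ℝ) h
        have h2 := congrArg (fun z => ⟪z, w⟫_ℝ) h
        simp only [real_inner_smul_left, hgi, hE.nd_self (hJne hu), hE.nd_self (hJne hw)] at h1 h2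
        have b1 := nd_le (J w) (J u)
        have b2 := nd_le (J u) (J w)
        have nu := norm_pos_iff.2 (hJne hu)
        have nw := norm_pos_iff.2 (hJne hw)
        have t1 : 1 ≤ τ := by nlinarith
        have t2 : τ ≤ 1 := by nlinarith
        have t : τ = 1 := le_antisymm t2 t1
        rw [t, one_mul] at h1
        have h3 := hE.eq_smul_of_nd_eq (hJne hu) (hJne hw) h1.symm
        refine ⟨‖J u‖ / ‖J w‖, by positivity, ?_⟩
        rw [← sub_eq_zero]
        apply hJi
        rw [map_sub, map_smul, ← h3, sub_self]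
      hsurj := fun γ hγ => by
        obtain ⟨κ, hκ, hκJ⟩ := LinearMap.exists_antilipschitzWith J.toLinearMap
          (LinearMap.ker_eq_bot'.2 hJi)
        obtain ⟨x₀, hx₀, hmax⟩ : ∃ x₀, ‖J x₀‖ = 1 ∧ ∀ x, ‖J x‖ = 1 → ⟪γ, x⟫_ℝ ≤ ⟪γ, x₀⟫_ℝ := by
          have hc : IsCompact {x : V | ‖J x‖ = 1} := by
            refine (isCompact_closedBall (0 : V) κ).of_isClosed_subset
              (isClosed_eq (by fun_prop) continuous_const) fun x (hx : ‖J x‖ = 1) => ?_
            have := hκJ.le_mul_dist x 0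
            simp only [dist_zero_right, map_zero] at this
            rw [mem_closedBall_zero_iff]
            have h' : ‖x‖ ≤ κ * ‖J x‖ := this
            rwa [hx, mul_one] at h'
          have hne : ({x : V | ‖J x‖ = 1}).Nonempty := ⟨‖J γ‖⁻¹ • γ, by
            simp only [mem_setOf_eq, map_smul]; exact norm_normalize (hJne hγ)⟩
          obtain ⟨x₀, h0, h⟩ := hc.exists_isMaxOn hne (f := fun x => ⟪γ, x⟫_ℝ) (by fun_prop)
          exact ⟨x₀, h0, fun x hx => h hx⟩
        set c := ⟪γ, x₀⟫_ℝ
        have hall : ∀ x, ⟪γ, x⟫_ℝ ≤ c * ‖J x‖ := fun x => by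
          rcases eq_or_ne x 0 with rfl | hx
          · simp
          have hJx := norm_pos_iff.2 (hJne hx)
          have := hmax (‖J x‖⁻¹ • x) (by rw [map_smul]; exact norm_normalize (hJne hx))
          rw [real_inner_smul_right, inv_mul_le_iff₀ hJx] at this
          linarith
        have hc0 : 0 < c := by
          have := hall γ
          have hg : (0:ℝ) < ⟪γ, γ⟫_ℝ := real_inner_self_pos.2 hγ
          exact (pos_iff_pos_of_mul_pos (hg.trans_le this)).2 (norm_pos_iff.2 (hJne hγ))
        have hx0 : x₀ ≠ 0 := by intro h; simp [h] at hx₀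
        have hd : HasFDerivAt (fun x : V => c * ‖J x‖ - innerSL ℝ γ x)
            (c • (nd (J x₀)).comp J - innerSL ℝ γ) x₀ :=
          (((hE.hasFDerivAt (hJne hx0)).comp x₀ J.hasFDerivAt).const_mul c).sub
            (innerSL ℝ γ).hasFDerivAt
        have hmin : IsLocalMin (fun x : V => c * ‖J x‖ - innerSL ℝ γ x) x₀ :=
          Eventually.of_forall fun x => by
            simp only [innerSL_apply_apply, hx₀, mul_one, c]
            linarith [hall x]
        have h0 := hmin.hasFDerivAt_eq_zero hd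
        refine ⟨x₀, hx0, c⁻¹, inv_pos.2 hc0, ext_inner_right ℝ fun x => ?_⟩
        have h1 := congrArg (fun L : V →L[ℝ] ℝ => L x) h0
        simp only [sub_apply, smul_apply, ContinuousLinearMap.comp_apply, innerSL_apply_apply,
          smul_eq_mul, zero_apply] at h1
        rw [hgi, real_inner_smul_left, ← sub_eq_zero.1 h1]
        field_simp
      heq := fun u hu => by
        refine ⟨(nd (I.M a (J u)) (I.T a) - nd (J u) a) / ‖a‖, ext_inner_right ℝ fun s => ?_⟩
        obtain ⟨y, hy, hy'⟩ := hrep s u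
        have h := G.nd_B_eq (hJ0 u) (hJne hu) (J s)
        rw [hy, I.nd_M hE hF G.ha (hJ0 u) (hJ0 y) (hJne hu), hJQ] at h
        rw [hsymm3, real_inner_comm, hgi, hBVs u s, hy', h, real_inner_smul_left,
          real_inner_comm s u]
        ring }
  have hn2 : 2 ≤ Module.finrank ℝ V := by
    simp only [V, finrank_euclideanSpace_fin]
    omega
  have h0 : BV = 0 := D.B_eq_zero hn2
  have hker : ∀ p q, nd a p = 0 → nd a q = 0 → B p q = 0 := by
    intro p q hp' hq'
    obtain ⟨x, rfl⟩ := hJs p hp'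
    obtain ⟨s, rfl⟩ := hJs q hq'
    obtain ⟨y, hy, hy'⟩ := hrep x s
    rw [h0] at hy'
    rw [hy, ← hy']
    simp
  ext p q
  simp only [zero_apply]
  have hproj : ∀ x : E, ∃ c : ℝ, nd a (x - c • a) = 0 := fun x => ⟨nd a x / ‖a‖, by
    simp only [map_sub, map_smul, hE.nd_self G.ha, smul_eq_mul]
    field_simp [norm_ne_zero_iff.2 G.ha]
    ring⟩
  obtain ⟨c, hc⟩ := hproj p
  obtain ⟨d, hd⟩ := hproj q
  have := hker _ _ hc hd
  simp only [map_sub, map_smul, sub_apply, smul_apply, G.B_self, zero_apply, smul_zero,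
    sub_zero] at this
  rw [G.B_symm p a, G.B_self, zero_apply, smul_zero, sub_zero] at this
  exact this

end SphereIso.Good

end Vale.Agent.P084
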